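import Vale.Agent.P263.AD.Deg
import Vale.Agent.P263.T0.SphHZ
import Vale.Agent.P263.TJ.SCup

/-!
# P263, block AD (ADG): the dictionary between mod 2 homology and the cochains `Cc (sing X)`

* `H_map_eq_zero_iff_cc` : `H_{k+1}(g; 𝔽₂) = 0` iff the pull-back of every homogeneous cocycle
  of degree `k + 1` is a coboundary;
* `exists_odd_of_cc` : a pointed map `δ` between compactified Euclidean spaces of dimension `n`
  which does not kill some `n`-cocycle is stably an odd multiple of a linear isomorphism.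
-/

open CategoryTheory MonoidalCategory Limits Pretriangulated ZeroObject OnePoint
open scoped Simplicial
open Vale.Agent.P251.T Vale.Agent.P251.S Vale.Agent.P251.H Vale.Agent.P251.G
  Vale.Agent.P251.G.LC Vale.Agent.P251.I Vale.Agent.P251.M

universe v u

namespace Vale.Agent.P263.AD.DG

open Vale.Agent.P263.T0 Vale.Agent.P263.T0.SphH Vale.Agent.P263.TJ Vale.Agent.P263.TJ.Cc
  Vale.Agent.P263.G2 Vale.Agent.P263.S Vale.Agent.P263.E

section Dict

variable {X Y : Type} [TopologicalSpace X] [TopologicalSpace Y]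

/-- the component of degree `n` of a cochain as a function on continuous maps -/
def cmp (u : Cc (sing X)) (n : ℕ) (τ : C(Vale.Agent.P246.T.Dl (n + 1), X)) : ZMod 2 := u n τ

theorem cob_cmp (u : Cc (sing X)) (n : ℕ) : cob (cmp u n) = cmp (Cc.d u) (n + 1) := by
  funext τ
  have h := d_succ_apply u (p := n) (show (sing X).obj (n + 1) from τ)
  refine Eq.trans ?_ h.symm
  refine Eq.trans ?_ (Finset.sum_range _).symm
  refine Finset.sum_congr rfl fun i _ => ?_
  change u n _ = u n _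
  congr 1
  change τ.comp _ = τ.comp (dmap (dl n i.1))
  rw [dmap_dl]

/-- a function on continuous maps as a homogeneous cochain -/
def ext (n : ℕ) (f : C(Vale.Agent.P246.T.Dl (n + 1), X) → ZMod 2) : Cc (sing X) :=
  fun p x => if h : p = n then f (h ▸ x : (sing X).obj n) else 0

theorem cmp_ext (n : ℕ) (f : C(Vale.Agent.P246.T.Dl (n + 1), X) → ZMod 2) :
    cmp (ext n f) n = f := by
  funext τ
  exact dif_pos rfl

theorem isDeg_ext (n : ℕ) (f : C(Vale.Agent.P246.T.Dl (n + 1), X) → ZMod 2) :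
    IsDeg n (ext n f) := fun _ hp _ => dif_neg hp

theorem ext_of_isDeg {n : ℕ} {u v : Cc (sing X)} (hu : IsDeg n u) (hv : IsDeg n v)
    (h : cmp u n = cmp v n) : u = v := by
  funext p x
  by_cases hp : p = n
  · subst hp
    exact congrFun h x
  · rw [hu p hp, hv p hp]

/-- A homogeneous cochain is a coboundary iff its component is. -/
theorem exists_d_iff {n : ℕ} {u : Cc (sing X)} (hu : IsDeg (n + 1) u) :
    (∃ a, u = Cc.d a) ↔ ∃ g, cmp u (n + 1) = cob g := by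
  constructor
  · rintro ⟨a, ha⟩
    refine ⟨cmp a n, ?_⟩
    rw [cob_cmp, ← ha]
  · rintro ⟨g, hg⟩
    refine ⟨ext n g, ext_of_isDeg hu (isDeg_ext n g).d ?_⟩
    rw [← cob_cmp, cmp_ext, hg]

theorem d_eq_zero_iff {n : ℕ} {u : Cc (sing X)} (hu : IsDeg n u) :
    Cc.d u = 0 ↔ cob (cmp u n) = 0 := by
  rw [cob_cmp]
  constructor
  · intro h
    rw [h]
    rfl
  · intro h
    refine ext_of_isDeg hu.d (n := n + 1) (fun _ _ _ => rfl) ?_
    rw [h]
    rfl

theorem isDeg_pull {n : ℕ} {u : Cc (sing Y)} (hu : IsDeg n u) (g : C(X, Y)) :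
    IsDeg n (Cc.pull (singMap g) u) := fun p hp _ => hu p hp _

/-- `H_{k+1}(g; 𝔽₂) = 0` in terms of cochains. -/
theorem H_map_eq_zero_iff_cc (k : ℕ) (g : C(X, Y)) :
    (T0.H (k + 1)).map (TopCat.ofHom g : TopCat.of X ⟶ TopCat.of Y) = 0 ↔
      ∀ z : Cc (sing Y), IsDeg (k + 1) z → Cc.d z = 0 →
        ∃ a, Cc.pull (singMap g) z = Cc.d a := by
  rw [H_map_eq_zero_iff]
  constructor
  · intro h z hz hd
    rw [exists_d_iff (isDeg_pull hz g)]
    obtain ⟨c, hc⟩ := exists_fn (cmp z (k + 1))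
    have h1 : cobd (TopCat.toSSet.obj (TopCat.of Y)) c = 0 := by
      rw [← cob_eq_zero_iff, hc, ← d_eq_zero_iff hz, hd]
    obtain ⟨b, hb⟩ := (isCobd_iff_exists _).1 (h c h1)
    refine ⟨b, ?_⟩
    rw [← hb]
    funext τ
    change z (k + 1) _ = fn c (g.comp τ)
    rw [hc]
    rfl
  · intro h c hc
    rw [isCobd_iff_exists]
    have h0 : cmp (ext (k + 1) (fn c)) (k + 1) = fn c := cmp_ext _ _
    have h1 : Cc.d (ext (k + 1) (fn c)) = 0 := by
      rw [d_eq_zero_iff (isDeg_ext _ _), h0, cob_eq_zero_iff]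
      exact hc
    obtain ⟨b, hb⟩ := (exists_d_iff (isDeg_pull (isDeg_ext _ _) g)).1 (h _ (isDeg_ext _ _) h1)
    refine ⟨b, ?_⟩
    rw [← hb]
    funext τ
    change fn c (g.comp τ) = cmp (ext (k + 1) (fn c)) (k + 1) (g.comp τ)
    rw [h0]

end Dict

section Stable

variable {T : Type u} [Category.{v} T] [Preadditive T] [HasZeroObject T]
    [HasShift T ℤ] [∀ n : ℤ, (shiftFunctor T n).Additive] [Pretriangulated T]
    [MonoidalCategory T] [SymmetricCategory T] [TensorTriangulated T] (F : SpaceFunctor T)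

variable {E : Type} [NormedAddCommGroup E] [NormedSpace ℝ E] [FiniteDimensional ℝ E]
  [ProperSpace E] {E' : Type} [NormedAddCommGroup E'] [NormedSpace ℝ E'] [FiniteDimensional ℝ E']
  [ProperSpace E']

/-- `Hm n δ = 0` in terms of cochains. -/
theorem Hm_eq_zero_iff_cc {A B : LC} {n : ℕ} (hn : 0 < n) (δ : A ⟶ B) :
    Hm n δ = 0 ↔ ∀ z : Cc (sing (OnePoint B)), IsDeg n z → Cc.d z = 0 →
      ∃ a, Cc.pull (singMap (Hom.toMap δ)) z = Cc.d a := by
  obtain ⟨k, rfl⟩ := Nat.exists_eq_succ_of_ne_zero hn.ne'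
  exact H_map_eq_zero_iff_cc k (Hom.toMap δ)

/-- **ADG, cochain form.** -/
theorem exists_odd_of_cc {n : ℕ} (hn : 0 < n) (hd : Module.finrank ℝ E = n)
    (hE : FC (LC.of E)) (hE' : FC (LC.of E')) (e : E ≃L[ℝ] E') (δ : LC.of E ⟶ LC.of E')
    (h : ∃ z : Cc (sing (OnePoint E')), IsDeg n z ∧ Cc.d z = 0 ∧
      ∀ a, Cc.pull (singMap (Hom.toMap δ)) z ≠ Cc.d a) :
    ∃ m : ℤ, Odd m ∧ F.S.map (FCat.hom δ : FCat.mk hE ⟶ FCat.mk hE') =
        m • F.S.map (FCat.hom (lin e) : FCat.mk hE ⟶ FCat.mk hE') := by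
  refine exists_odd_of_Hm_ne_zero F hn hd hE hE' e δ fun h0 => ?_
  obtain ⟨z, h1, h2, h3⟩ := h
  obtain ⟨a, ha⟩ := (Hm_eq_zero_iff_cc hn δ).1 h0 z h1 h2
  exact h3 a ha

/-- **ADG, cochain form, converse.** -/
theorem exists_even_of_cc {n : ℕ} (hn : 0 < n) (hd : Module.finrank ℝ E = n)
    (hE : FC (LC.of E)) (hE' : FC (LC.of E')) (e : E ≃L[ℝ] E') (δ : LC.of E ⟶ LC.of E')
    (h : ∀ z : Cc (sing (OnePoint E')), IsDeg n z → Cc.d z = 0 →
      ∃ a, Cc.pull (singMap (Hom.toMap δ)) z = Cc.d a) :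
    ∃ m : ℤ, Even m ∧ F.S.map (FCat.hom δ : FCat.mk hE ⟶ FCat.mk hE') =
        m • F.S.map (FCat.hom (lin e) : FCat.mk hE ⟶ FCat.mk hE') := by
  obtain ⟨m, h1, h2⟩ := exists_int_of_lin F hn hd hE hE' e δ
  exact ⟨m, h2.1 ((Hm_eq_zero_iff_cc hn δ).2 h), h1⟩

end Stable

end Vale.Agent.P263.AD.DG
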