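import Vale.Agent.P263.AD.Phi
import Vale.Agent.P251.M.EvenCell

/-!
# P263, part AD1: divisibility and torsion of the homotopy of `MU^{⊗ (s+1)}`

From `h : MUModAt V n s`:

* `MUModAt.even_tf` : the even homotopy of `Am R (s+1)` has no `n`-torsion; `MUModAt.hring_tf`;
* `MUModAt.odd_div`, `MUModAt.odd_tf` : the odd homotopy is uniquely `n`-divisible.
-/

open CategoryTheory MonoidalCategory Limits Pretriangulated MonObj
open Vale.Agent.P251.G Vale.Agent.P251.G.LC Vale.Agent.P251.I Vale.Agent.P251.T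
open Vale.Agent.P251.F Vale.Agent.P251.S Vale.Agent.P251.Q

universe w v u

set_option linter.unusedSectionVars false

namespace Vale.Agent.P251.M

open EvenSpheres

variable {T : Type u} [Category.{v} T] [Preadditive T] [HasZeroObject T]
    [HasShift T ℤ] [∀ n : ℤ, (shiftFunctor T n).Additive] [Pretriangulated T] [IsTriangulated T]
    [MonoidalCategory T] [SymmetricCategory T] [TensorTriangulated T] [MonoidalClosed T]
    [HasCoproducts.{0} T] [HasProducts.{0} T] [StableCat T]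

section general

variable {n : ℤ} {C X : T} {i : 𝟙_ T ⟶ C} {δ : C ⟶ (𝟙_ T)⟦(1 : ℤ)⟧}

/-- A torsion element comes from `π_{k+1} (X ⊗ S/n)`. -/
theorem exists_of_zsmul_eq_zero {W : T} {m : X ⊗ C ⟶ (X ⊗ 𝟙_ T)⟦(1 : ℤ)⟧}
    (hD : Triangle.mk (n • 𝟙 (X ⊗ 𝟙_ T)) (X ◁ i) m ∈ distTriang T)
    (a : W ⟶ X) (ha : n • a = 0) : ∃ g : W ⟶ (X ⊗ C)⟦(-1 : ℤ)⟧,
      a ≫ (ρ_ X).inv =
        g ≫ (-(m⟦(-1 : ℤ)⟧' ≫ (shiftShiftNeg (X ⊗ 𝟙_ T) (1 : ℤ)).hom)) := by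
  refine Triangle.coyoneda_exact₂ _ (inv_rot_of_distTriang _ hD) (a ≫ (ρ_ X).inv) ?_
  change (a ≫ (ρ_ X).inv) ≫ (n • 𝟙 (X ⊗ 𝟙_ T)) = 0
  rw [Preadditive.comp_zsmul, Category.comp_id, ← Preadditive.zsmul_comp, ha, zero_comp]

/-- no torsion, if the homotopy of `X ⊗ S/n` one degree up vanishes -/
theorem tf_of_zero (hC : Triangle.mk (n • 𝟙 (𝟙_ T)) i δ ∈ distTriang T) {k k' : ℤ}
    (hk : k + 1 = k') (h : ∀ f : (𝟙_ T)⟦k'⟧ ⟶ X ⊗ C, f = 0) (a : (𝟙_ T)⟦k⟧ ⟶ X)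
    (ha : n • a = 0) : a = 0 := by
  obtain ⟨m, hD⟩ := ModP.exists_dist hC X
  obtain ⟨g, hg⟩ := exists_of_zsmul_eq_zero hD a ha
  rw [eq_zero_of_shift k' (-1) k (by omega) h g, zero_comp] at hg
  rw [← cancel_mono (ρ_ X).inv, hg, zero_comp]

/-- no torsion, if all homotopy classes of `X ⊗ S/n` one degree up lift to `X` -/
theorem tf_of_lift (hC : Triangle.mk (n • 𝟙 (𝟙_ T)) i δ ∈ distTriang T) {k k' : ℤ}
    (hk : k + 1 = k') (h : ∀ f : (𝟙_ T)⟦k'⟧ ⟶ X ⊗ C, ∃ a : (𝟙_ T)⟦k'⟧ ⟶ X,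
      f = a ≫ (ρ_ X).inv ≫ (X ◁ i)) (a : (𝟙_ T)⟦k⟧ ⟶ X)
    (ha : n • a = 0) : a = 0 := by
  obtain ⟨m, hD⟩ := ModP.exists_dist hC X
  obtain ⟨g, hg⟩ := exists_of_zsmul_eq_zero hD a ha
  have e : (𝟙_ T)⟦k⟧ ≅ ((𝟙_ T)⟦k'⟧)⟦(-1 : ℤ)⟧ :=
    (shiftFunctorAdd' T k' (-1) k (by omega)).app (𝟙_ T)
  obtain ⟨g', hg'⟩ := (shiftFunctor T (-1 : ℤ)).map_surjective (e.inv ≫ g)
  obtain ⟨b, rfl⟩ := h g'
  have h0 : (X ◁ i)⟦(-1 : ℤ)⟧' ≫ (-(m⟦(-1 : ℤ)⟧' ≫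
      (shiftShiftNeg (X ⊗ 𝟙_ T) (1 : ℤ)).hom)) = 0 := by
    have h1 : (X ◁ i) ≫ m = 0 := comp_distTriang_mor_zero₂₃ _ hD
    rw [Preadditive.comp_neg, ← Category.assoc, ← Functor.map_comp, h1, Functor.map_zero,
      zero_comp, neg_zero]
  have h2 : g = e.hom ≫ (b ≫ (ρ_ X).inv)⟦(-1 : ℤ)⟧' ≫ (X ◁ i)⟦(-1 : ℤ)⟧' := by
    rw [← Functor.map_comp, Category.assoc, hg', Iso.hom_inv_id_assoc]
  rw [h2, Category.assoc, Category.assoc, h0, comp_zero, comp_zero] at hg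
  rw [← cancel_mono (ρ_ X).inv, hg, zero_comp]

/-- divisibility, if the homotopy of `X ⊗ S/n` vanishes -/
theorem div_of_zero (hC : Triangle.mk (n • 𝟙 (𝟙_ T)) i δ ∈ distTriang T) {W : T}
    (h : ∀ f : W ⟶ X ⊗ C, f = 0) (a : W ⟶ X) : ∃ b, a = n • b :=
  ModP.exists_zsmul_of_comp_eq_zero hC a (h _)

end general

variable {R : T} [MonObj R] [IsCommMonObj R] {V : MUEv R} {n s : ℕ}

namespace MUModAt

theorem even_tf (h : MUModAt V n s) (w : ℤ) (a : (stdEven T).S w ⟶ Am R (s + 1))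
    (ha : (n : ℤ) • a = 0) : a = 0 := by
  obtain ⟨C, i, δ, hC⟩ := distinguished_cocone_triangle ((n : ℤ) • 𝟙 (𝟙_ T))
  rw [← cancel_epi (stdSph w).inv, comp_zero]
  refine tf_of_zero hC (k := 2 * w) rfl (fun f => h.odd C i δ hC w f) _ ?_
  rw [← Preadditive.comp_zsmul, ha, comp_zero]

theorem odd_div (h : MUModAt V n s) (k : ℤ) (a : (𝟙_ T)⟦2 * k + 1⟧ ⟶ Am R (s + 1)) :
    ∃ b, a = (n : ℤ) • b := by
  obtain ⟨C, i, δ, hC⟩ := distinguished_cocone_triangle ((n : ℤ) • 𝟙 (𝟙_ T))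
  exact div_of_zero hC (fun f => h.odd C i δ hC k f) a

theorem odd_tf (h : MUModAt V n s) (k : ℤ) (a : (𝟙_ T)⟦2 * k + 1⟧ ⟶ Am R (s + 1))
    (ha : (n : ℤ) • a = 0) : a = 0 := by
  obtain ⟨C, i, δ, hC⟩ := distinguished_cocone_triangle ((n : ℤ) • 𝟙 (𝟙_ T))
  refine tf_of_lift hC (k := 2 * k + 1) (k' := 2 * (k + 1)) (by ring) (fun f => ?_) a ha
  obtain ⟨z, b, -, -, hb⟩ := h.surj C i δ hC (k + 1) ((stdSph (k + 1)).hom ≫ f)
  refine ⟨(stdSph (k + 1)).inv ≫ b, ?_⟩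
  rw [Category.assoc, ← hb, Iso.inv_hom_id_assoc]

/-- The homotopy ring has no `n`-torsion. -/
theorem hring_tf (h : MUModAt V n s) (x : HRing (stdEven T) (Am R (s + 1))) (hx : n • x = 0) :
    x = 0 := by
  refine DFinsupp.ext fun w => ?_
  refine h.even_tf w (x w) ?_
  have h1 := congrArg (fun y : HRing (stdEven T) (Am R (s + 1)) => y w) hx
  rw [natCast_zsmul]
  exact h1

end MUModAt

end Vale.Agent.P251.M
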