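import Vale.Agent.P263.AD.Fin
import Vale.Agent.P263.AD.Div
import Vale.Agent.P251.M.MUFinal

/-!
# P263, part ADE: the characters for `MU ⊗ MU`

`phiM` : the ring homomorphism `(thK e (R ⊗ R)).A →+* ZMod (2^m)` of the multiplicative chain.

* `phiM_law`, `phiM_gcmp`, `phiM_twist` : the hypotheses of `theta_final`;
* `chi_main`, `theta_main` : the final argument for `MU`.
-/

open CategoryTheory MonoidalCategory Limits Pretriangulated MonObj OnePoint Matrix Topology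
open Vale.Agent.P251.G Vale.Agent.P251.G.LC Vale.Agent.P251.I Vale.Agent.P251.T
open Vale.Agent.P251.F Vale.Agent.P251.S Vale.Agent.P251.M Vale.Agent.P217
open Vale.Agent.P251.Q hiding nev1 nev1_X nev1_eq_sum

universe v u

set_option linter.unusedSectionVars false

noncomputable section

namespace Vale.Agent.P263.AD

open Vale.Agent.P251.Q.MultTheory

variable {T : Type u} [Category.{v} T] [Preadditive T] [HasZeroObject T]
    [HasShift T ℤ] [∀ n : ℤ, (shiftFunctor T n).Additive] [Pretriangulated T] [IsTriangulated T]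
    [MonoidalCategory T] [SymmetricCategory T] [TensorTriangulated T] [MonoidalClosed T]
    [HasCoproducts.{0} T] [HasProducts.{0} T] [StableCat T]
  {F : SpaceFunctor T} {e : F.S.obj CCF ≅ (stdEven T).L}

section phi

variable {R : T} [MonObj R] [IsCommMonObj R] {o : Vale.Agent.P251.Q.Orientation (thK e R)}
  {n : ℕ} {K : Type} [CommRing K] (hK : (n : K) = 0) (u : Kˣ) (hu : (u : K) = 3)
  (h1 : MUModAt (muEv e R o) n 1)

/-- The ring homomorphism of the multiplicative chain. -/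
def phiM : (thK e (Am R 2)).A →+* K :=
  (h1.phi hK (Cob.ev (mchain u hu))).comp (coefK e (Am R 2))

theorem phiM_amEv (z : Cob Laz 1) :
    phiM hK u hu h1 (oEv (fun j : Fin 2 => amO e R o j) z) = Cob.ev (mchain u hu) z :=
  h1.phi_ev hK (Cob.ev (mchain u hu)) z

theorem phiM_law : (amO e R o (0 : Fin 2)).law.map (phiM hK u hu h1) = mulLaw K := by
  have h2 : (phiM hK u hu h1).comp (Laz.lift (amO e R o (0 : Fin 2)).law) =
      Laz.lift (mulLaw K) := by
    refine RingHom.ext fun a => ?_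
    have h3 := phiM_amEv hK u hu h1 (MvPolynomial.C a)
    rw [oEv_C, Cob.ev_C] at h3
    exact h3
  rw [← Laz.univ_map_lift (amO e R o (0 : Fin 2)).law, Law.map_map, h2, Laz.univ_map_lift]

theorem phiM_gcmp : InvSeries.map (phiM hK u hu h1)
    (gcmp (amO e R o (0 : Fin 2)) (amO e R o (1 : Fin 2))) = gser u hu := by
  refine InvSeries.ext_c fun i => ?_
  rw [InvSeries.c_map]
  rcases i with _ | i
  · have h2 : gcmp (amO e R o (0 : Fin 2)) (amO e R o (1 : Fin 2)) ∈ strict _ :=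
      CPSys.Coord.cmp_mem_strict _ _ _
    rw [mem_strict.1 h2, map_one, mem_strict.1 (gser_strict u hu)]
  · have h3 := phiM_amEv hK u hu h1 (MvPolynomial.X ((0 : Fin 1), i))
    rw [oEv, LChain.ev_X, Cob.ev_X] at h3
    exact h3

/-- the homogeneous elements -/
theorem phiM_twist (h0 : MUModAt (muEv e R o) n 0) (w : ℤ) (a : (thK e R).A)
    (ha : a ∈ (thK e R).degA (-w)) :
    phiM hK u hu h1 ((thKHom e (Am.v R (1 : Fin 2))).mapA a) =
      ((u ^ w : Kˣ) : K) * phiM hK u hu h1 ((thKHom e (Am.v R (0 : Fin 2))).mapA a) := by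
  obtain ⟨x, hx⟩ := coefK_deg e (neg_add_cancel w) ha
  have h2 : ∀ j : Fin 2, phiM hK u hu h1 ((thKHom e (Am.v R j)).mapA a) =
      h0.phi hK (Cob.ev ((mchain u hu).res (fun _ : Fin 1 => j)))
        (HRing.of (stdEven T) (Am R 1) w (x ≫ Am.v R (0 : Fin 1))) := by
    intro j
    have h3 : h1.phi hK (Cob.ev (mchain u hu)) (HRing.map (E := stdEven T)
        (Am.map R (fun _ : Fin 1 => j)) (HRing.of (stdEven T) (Am R 1) w (x ≫ Am.v R (0 : Fin 1)))) =
        h0.phi hK (Cob.ev ((mchain u hu).res (fun _ : Fin 1 => j)))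
          (HRing.of (stdEven T) (Am R 1) w (x ≫ Am.v R (0 : Fin 1))) :=
      DFunLike.congr_fun (h1.phi_map h0 hK (mchain u hu) (fun _ : Fin 1 => j)) _
    rw [← h3, HRing.map_of, Category.assoc, Am.v_map]
    have h4 : phiM hK u hu h1 ((thKHom e (Am.v R j)).mapA a) = h1.phi hK
        (Cob.ev (mchain u hu)) (coefK e (Am R 2) ((thKHom e (Am.v R j)).mapA a)) := rfl
    rw [h4, coefK_mapA, hx, HRing.map_of]
  obtain ⟨z, b, hz, hb⟩ := h0.exists_of w (x ≫ Am.v R (0 : Fin 1))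
  have h3 : ∀ j : Fin 2, phiM hK u hu h1 ((thKHom e (Am.v R j)).mapA a) =
      Cob.ev ((mchain u hu).res (fun _ : Fin 1 => j)) z := by
    intro j
    rw [h2, hb, map_add, map_nsmul, h0.phi_ev, nsmul_eq_mul, hK, zero_mul, add_zero]
  rw [h3, h3]
  exact ev_mchain_res u hu hz

end phi

/-! ### The final argument for `MU` -/

section main

variable (M : MUMon F (stdEven T) e) (b : MUBasis M.V) (I : Type) [Fintype I]

/-- the unit `3` of `ZMod (2 ^ m)` -/
def u3 (m : ℕ) : (ZMod (2 ^ m))ˣ := (isUnit_odd m (d := 3) (by decide)).unit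

theorem u3_val (m : ℕ) : (u3 m : ZMod (2 ^ m)) = 3 := by
  rw [u3, IsUnit.unit_spec]
  push_cast
  rfl

/-- The character `(thK e (R ⊗ R)).A →+* ZMod (2^m)`. -/
def phiMU (m : ℕ) : (thK e (Am M.R 2)).A →+* ZMod (2 ^ m) :=
  phiM (o := M.ori) (ZMod.natCast_self (2 ^ m)) (u3 m) (u3_val m)
    (M.muModAt b (pow_ne_zero m two_ne_zero) 1)

theorem phiMU_law (m : ℕ) :
    ((thKHom e (Am.v M.R (0 : Fin 2))).push M.ori).law.map (phiMU M b m) =
      mulLaw (ZMod (2 ^ m)) := phiM_law _ _ _ _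

theorem phiMU_gcmp (m : ℕ) : InvSeries.map (phiMU M b m)
    (gcmp ((thKHom e (Am.v M.R (0 : Fin 2))).push M.ori)
      ((thKHom e (Am.v M.R (1 : Fin 2))).push M.ori)) = gser (u3 m) (u3_val m) :=
  phiM_gcmp _ _ _ _

theorem phiMU_twist (m : ℕ) (w : ℕ) (a : (thK e M.R).A) (ha : a ∈ (thK e M.R).degA (-(w : ℤ))) :
    phiMU M b m ((thKHom e (Am.v M.R (1 : Fin 2))).mapA a) =
      (u3 m : ZMod (2 ^ m)) ^ w * phiMU M b m ((thKHom e (Am.v M.R (0 : Fin 2))).mapA a) := by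
  have h := phiM_twist (o := M.ori) (ZMod.natCast_self (2 ^ m)) (u3 m) (u3_val m)
    (M.muModAt b (pow_ne_zero m two_ne_zero) 1) (M.muModAt b (pow_ne_zero m two_ne_zero) 0) w a ha
  rw [zpow_natCast, Units.val_pow_eq_pow_val] at h
  exact h

include b in
/-- **The final argument for `MU`.** -/
theorem theta_main {m : ℕ} (hm : Fintype.card I = m) (hm0 : m ≠ 0)
    (hd1 : DV 2 ((thK e M.R).U RR)) (ht1 : TF 2 ((thK e M.R).U RR))
    (ht2 : TF 2 ((thK e (Am M.R 2)).U RR))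
    [(thK e M.R).Good (LC.of (Lens 2 I))] [(thK e (Am M.R 2)).Good (LC.of (Lens 2 I))]
    [(thK e M.R).Good (CP I)] [(thK e (Am M.R 2)).Good (CP I)]
    {θ : (thK e M.R).U (LC.of (Lens 2 I))} (hθ : θ ∈ (thK e M.R).deg (LC.of (Lens 2 I)) 0)
    (y : Lens 2 I) {d : ℤ} (hd : Odd d)
    (hpt : (thK e M.R).map (point (X := LC.of (Lens 2 I)) y) θ = d • (thK e M.R).one)
    (H : (thKHom e (Am.v M.R (1 : Fin 2))).app _ θ =
      (thK e (Am M.R 2)).mapAlg (X := LC.of (Lens 2 I)) (Y := LC.of (Gr 1 I)) (Lens.toGr 2 I)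
        (rho ((thKHom e (Am.v M.R (0 : Fin 2))).push M.ori) I
          ((thKHom e (Am.v M.R (1 : Fin 2))).push M.ori)) ^ m *
        (thKHom e (Am.v M.R (0 : Fin 2))).app _ θ) :
    m = 1 ∨ m = 2 ∨ m = 4 :=
  theta_final (thKHom e (Am.v M.R (0 : Fin 2))) (thKHom e (Am.v M.R (1 : Fin 2))) M.ori I hm hm0
    (phiMU M b m) (u3_val m) (phiMU_law M b m) (phiMU_gcmp M b m)
    (fun w a ha => phiMU_twist M b m w a ha) hd1 ht1 ht2 hθ y hd hpt H

/-- the ratio as a finite sum -/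
theorem rho_eq_sum {E : MultTheory.{v}} (o o' : Vale.Agent.P251.Q.Orientation E) (I : Type)
    [Fintype I] [E.Good (CP I)] {N : ℕ} (hN : o.z I ^ N = 0) :
    rho o I o' = ∑ i ∈ Finset.range N, (CPSys.Coord.cmp (coordO o) (coordO o')
      (z_one_eq o' o)).c i • o.z I ^ i := by
  rw [rho, nev1_eq_sum hN]
  refine Finset.sum_congr rfl fun i _ => ?_
  rw [gdiv, PowerSeries.coeff_mk]
  rfl

include b in
/-- The final argument for `MU`, on the projective space, in terms of coefficients. -/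
theorem chi_main (k : ℕ) [(thK e M.R).Good (CP (Fin (k + 1)))]
    [(thK e (Am M.R 2)).Good (CP (Fin (k + 1)))] (al : ℕ → (thK e M.R).A)
    (hal : ∀ j : ℕ, al j ∈ (thK e M.R).degA (-(j : ℤ))) {d : ℤ} (hd : Odd d) (y₀ : (thK e M.R).A)
    (h0 : al 0 = d • (1 : (thK e M.R).A) + (2 ^ (k + 1)) • y₀)
    (c w : (thK e (Am M.R 2)).U (CP (Fin (k + 1))))
    (H : ∑ j : Fin (k + 1), (thKHom e (Am.v M.R (1 : Fin 2))).mapA (al j) •
        (amO e M.R M.ori (1 : Fin 2)).z (Fin (k + 1)) ^ (j : ℕ) =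
      (∑ i : Fin (k + 1), (CPSys.Coord.cmp (coordO (amO e M.R M.ori (0 : Fin 2)))
          (coordO (amO e M.R M.ori (1 : Fin 2))) (z_one_eq _ _)).c i •
          (amO e M.R M.ori (0 : Fin 2)).z (Fin (k + 1)) ^ (i : ℕ)) ^ (k + 1) *
        (∑ j : Fin (k + 1), (thKHom e (Am.v M.R (0 : Fin 2))).mapA (al j) •
          (amO e M.R M.ori (0 : Fin 2)).z (Fin (k + 1)) ^ (j : ℕ)) +
      (amO e M.R M.ori (0 : Fin 2)).e (B := CP (Fin (k + 1))) ((taut 1 (Fin (k + 1))).tpow 2)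
        ((taut_isRank 1 (Fin (k + 1))).tpow1 2) * c + (2 ^ (k + 1)) • w) :
    k + 1 = 1 ∨ k + 1 = 2 ∨ k + 1 = 4 := by
  have hcard : Fintype.card (Fin (k + 1)) = k + 1 := Fintype.card_fin _
  have hsum : ∀ {A : Type v} [AddCommMonoid A] (f : ℕ → A),
      ∑ i : Fin (Fintype.card (Fin (k + 1))), f i = ∑ i : Fin (k + 1), f i := by
    intro A _ f
    rw [← Finset.sum_range, ← Finset.sum_range, hcard]
  have hdeg : ∑ i : Fin (Fintype.card (Fin (k + 1))), al (i : ℕ) • M.ori.z (Fin (k + 1)) ^ (i : ℕ) ∈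
      (thK e M.R).deg (CP (Fin (k + 1))) 0 := by
    refine AddSubgroup.sum_mem _ fun i _ => ?_
    have hi := pow_deg (z_deg M.ori (Fin (k + 1))) (i : ℕ)
    rw [_root_.mul_one] at hi
    have := smul_deg (hal i) hi
    rwa [neg_add_cancel] at this
  refine chi_final (thKHom e (Am.v M.R (0 : Fin 2))) (thKHom e (Am.v M.R (1 : Fin 2))) M.ori
    (Fin (k + 1)) hcard (Nat.succ_ne_zero k) (phiMU M b (k + 1)) (u3_val (k + 1))
    (phiMU_law M b (k + 1)) (phiMU_gcmp M b (k + 1)) (fun w a ha => phiMU_twist M b (k + 1) w a ha)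
    hdeg hd (fun i => al i) rfl y₀ (fun i hi => ?_) c w ?_
  · rw [hi, h0]
  · have h1 : ∀ j : Fin 2, (thKHom e (Am.v M.R j)).app _
        (∑ i : Fin (Fintype.card (Fin (k + 1))), al (i : ℕ) • M.ori.z (Fin (k + 1)) ^ (i : ℕ)) =
        ∑ i : Fin (k + 1), (thKHom e (Am.v M.R j)).mapA (al i) •
          (amO e M.R M.ori j).z (Fin (k + 1)) ^ (i : ℕ) := by
      intro j
      rw [app_sum_z M.ori (Fin (k + 1)) (thKHom e (Am.v M.R j))
        (fun i : Fin (Fintype.card (Fin (k + 1))) => al (i : ℕ))]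
      exact hsum (fun i => (thKHom e (Am.v M.R j)).mapA (al i) •
        (amO e M.R M.ori j).z (Fin (k + 1)) ^ (i : ℕ))
    have hz : (amO e M.R M.ori (0 : Fin 2)).z (Fin (k + 1)) ^ (k + 1) = 0 := by
      have := z_pow_card (amO e M.R M.ori (0 : Fin 2)) (Fin (k + 1))
      rwa [hcard] at this
    have h2 : rho (amO e M.R M.ori (0 : Fin 2)) (Fin (k + 1)) (amO e M.R M.ori (1 : Fin 2)) =
        ∑ i : Fin (k + 1), (CPSys.Coord.cmp (coordO (amO e M.R M.ori (0 : Fin 2)))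
          (coordO (amO e M.R M.ori (1 : Fin 2))) (z_one_eq _ _)).c i •
          (amO e M.R M.ori (0 : Fin 2)).z (Fin (k + 1)) ^ (i : ℕ) := by
      rw [rho_eq_sum _ _ _ hz, Finset.sum_range]
    rw [h1, h1, H, ← h2]
    rfl

end main

end Vale.Agent.P263.AD
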