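import Vale.Agent.P263.AD.Seq
import Vale.Agent.P263.AD.Div
import Vale.Agent.P251.M.QTrans
import Vale.Agent.P251.M.MUFinal

/-!
# P263, part AD: torsion and divisibility of the cohomology of the line

`(thK e K).U RR` is the sum of the odd homotopy groups of `K`: no `n`-torsion and divisible by `n`
for `K = MU^{⊗ (s+1)}`.
-/

open CategoryTheory MonoidalCategory Limits Pretriangulated MonObj OnePoint
open Vale.Agent.P251.G Vale.Agent.P251.G.LC Vale.Agent.P251.I Vale.Agent.P251.T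
open Vale.Agent.P251.F Vale.Agent.P251.S Vale.Agent.P251.M Vale.Agent.P251.Q

universe v u

set_option linter.unusedSectionVars false

noncomputable section

namespace Vale.Agent.P263.AD

section dsum

variable {J : Type*} [DecidableEq J] {A : J → Type*} [∀ i, AddCommGroup (A i)] {n : ℕ}

theorem TF.dsum (h : ∀ i, TF n (A i)) : TF n (DirectSum J A) := by
  intro x hx
  refine DFinsupp.ext fun i => ?_
  exact h i (x i) (congrArg (fun y : DirectSum J A => y i) hx)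

theorem DV.dsum (h : ∀ i, DV n (A i)) : DV n (DirectSum J A) := by
  intro x
  induction x using DirectSum.induction_on with
  | zero => exact ⟨0, by simp⟩
  | of i a =>
    obtain ⟨b, rfl⟩ := h i a
    exact ⟨DirectSum.of A i b, map_nsmul (DirectSum.of A i) n b⟩
  | add x y hx hy =>
    obtain ⟨x', rfl⟩ := hx
    obtain ⟨y', rfl⟩ := hy
    exact ⟨x' + y', (smul_add _ _ _).symm⟩

end dsum

variable {T : Type u} [Category.{v} T] [Preadditive T] [HasZeroObject T]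
    [HasShift T ℤ] [∀ n : ℤ, (shiftFunctor T n).Additive] [Pretriangulated T] [IsTriangulated T]
    [MonoidalCategory T] [SymmetricCategory T] [TensorTriangulated T] [MonoidalClosed T]
    [HasCoproducts.{0} T] [HasProducts.{0} T] [StableCat T]
  {F : SpaceFunctor T} {e : F.S.obj CCF ≅ (stdEven T).L}

section

variable {K : T} [MonObj K] [IsCommMonObj K] {n : ℕ}

/-- the source `S (ℝ)` -/
def rIso (k : ℤ) : (𝟙_ T)⟦2 * (-k) + 1⟧ ≅ (F.S.obj RRF)⟦-(2 * k)⟧ :=
  (shiftFunctorAdd' T 1 (-(2 * k)) (2 * (-k) + 1) (by ring)).app (𝟙_ T) ≪≫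
    (shiftFunctor T (-(2 * k))).mapIso F.line.symm

/-- the target `K ⊗ S^{2k}` -/
def kIso (K : T) (k : ℤ) : (K ⊗ (stdEven T).S k)⟦-(2 * k)⟧ ≅ K :=
  (shiftFunctor T (-(2 * k))).mapIso (whiskerLeftIso K (stdSph k) ≪≫ tensorUnitShiftIso K (2 * k)) ≪≫
    (shiftFunctorCompIsoId T (2 * k) (-(2 * k)) (by ring)).app K

theorem tf_H (h : ∀ (k : ℤ) (a : (𝟙_ T)⟦2 * k + 1⟧ ⟶ K), (n : ℤ) • a = 0 → a = 0) (k : ℤ) :
    TF n ((MSys.ofSeq (SeqMonoid.const K) (stdEven T)).H k (F.S.obj RRF)) := by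
  intro w hw
  refine (hq_bijective (R := K) (S := stdEven T) k (F.S.obj RRF)).1 ?_
  rw [map_zero]
  refine tf_of_shift (-(2 * k)) (rIso (F := F) k) (kIso K k) (p := (n : ℤ)) ?_ _ ?_
  · intro a ha
    exact h _ a ha
  · rw [← map_zsmul, natCast_zsmul, hw, map_zero]

theorem dv_H (h : ∀ (k : ℤ) (a : (𝟙_ T)⟦2 * k + 1⟧ ⟶ K), ∃ b, a = (n : ℤ) • b) (k : ℤ) :
    DV n ((MSys.ofSeq (SeqMonoid.const K) (stdEven T)).H k (F.S.obj RRF)) := by
  intro w
  obtain ⟨b, hb⟩ := div_of_shift (-(2 * k)) (rIso (F := F) k) (kIso K k) (p := (n : ℤ))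
    (fun a => h _ a) (hq K (stdEven T) k (F.S.obj RRF) w)
  obtain ⟨c, rfl⟩ := (hq_bijective (R := K) (S := stdEven T) k (F.S.obj RRF)).2 b
  refine ⟨c, (hq_bijective (R := K) (S := stdEven T) k (F.S.obj RRF)).1 ?_⟩
  rw [hb, map_nsmul, natCast_zsmul]

theorem tf_U (h : ∀ (k : ℤ) (a : (𝟙_ T)⟦2 * k + 1⟧ ⟶ K), (n : ℤ) • a = 0 → a = 0) :
    TF n ((thK e K).U RR) :=
  TF.of_bijective (f := (uequiv (MSys.ofSeq (SeqMonoid.const K) (stdEven T)) F
    fcRR).symm.toAddMonoidHom) (uequiv _ F fcRR).symm.bijective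
    (TF.dsum fun k => tf_H (F := F) h k)

theorem dv_U (h : ∀ (k : ℤ) (a : (𝟙_ T)⟦2 * k + 1⟧ ⟶ K), ∃ b, a = (n : ℤ) • b) :
    DV n ((thK e K).U RR) :=
  DV.of_bijective (f := (uequiv (MSys.ofSeq (SeqMonoid.const K) (stdEven T)) F
    fcRR).symm.toAddMonoidHom) (uequiv _ F fcRR).symm.bijective
    (DV.dsum fun k => dv_H (F := F) h k)

end

section MU

variable (M : MUMon F (stdEven T) e) (b : MUBasis M.V) {n : ℕ} (hn : n ≠ 0)

include b hn

/-- The odd cohomology of the line of `MU^{⊗ (s+1)}` has no torsion. -/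
theorem tf_Am (s : ℕ) : TF n ((thK e (Am M.R (s + 1))).U RR) :=
  tf_U fun k a ha => (M.muModAt b hn s).odd_tf k a ha

/-- The odd cohomology of the line of `MU^{⊗ (s+1)}` is divisible. -/
theorem dv_Am (s : ℕ) : DV n ((thK e (Am M.R (s + 1))).U RR) :=
  dv_U fun k a => (M.muModAt b hn s).odd_div k a

theorem tf_R : TF n ((thK e M.R).U RR) := by
  refine tf_U fun k a ha => ?_
  have h1 := (M.muModAt b hn 0).odd_tf k (a ≫ (λ_ M.R).inv)
    (by rw [← Preadditive.zsmul_comp, ha, zero_comp])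
  rw [← cancel_mono (λ_ M.R).inv, h1, zero_comp]

theorem dv_R : DV n ((thK e M.R).U RR) := by
  refine dv_U fun k a => ?_
  obtain ⟨c, hc⟩ := (M.muModAt b hn 0).odd_div k (a ≫ (λ_ M.R).inv)
  refine ⟨c ≫ (λ_ M.R).hom, ?_⟩
  rw [← cancel_mono (λ_ M.R).inv, hc, Preadditive.zsmul_comp, Category.assoc, Iso.hom_inv_id]
  exact congrArg _ (Category.comp_id c).symm

end MU

end Vale.Agent.P263.AD
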