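import Vale.Agent.P263.AD.Rel
import Vale.Agent.P263.AD.DegC
import Vale.Agent.P263.AD.Inst
import Vale.Agent.P263.AD.Rr
import Vale.Agent.P251.M.BGlueD
import Vale.Agent.P251.M.LineIso
import Vale.Agent.P251.H.Exists

/-!
# P263, part AD: Adams' theorem for the fibre maps

`adams_fib` : for `f : (A × V)⁺ → V⁺`, `V = ℂ^m`, such that the fibre map `δ_v` is not zero in mod 2
cohomology, `m = 1`, `2` or `4`.
-/

set_option linter.unusedSectionVars false
set_option linter.style.haveILetI false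

open CategoryTheory MonoidalCategory Limits Pretriangulated Matrix Topology Finset OnePoint
open Vale.Agent.P251.G Vale.Agent.P251.G.LC Vale.Agent.P251.G.Bun Vale.Agent.P251.I
open Vale.Agent.P251.T Vale.Agent.P251.S
open Vale.Agent.P251.Q Vale.Agent.P251.Q.MultTheory Vale.Agent.P251.M

universe v u

noncomputable section

namespace Vale.Agent.P263.AD

variable {T : Type u} [Category.{v} T] [Preadditive T] [HasZeroObject T]
    [HasShift T ℤ] [∀ n : ℤ, (shiftFunctor T n).Additive] [Pretriangulated T]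
    [MonoidalCategory T] [SymmetricCategory T] [TensorTriangulated T]

theorem pull_zsmul {M : MSys T} {X Y : T} {k : ℤ} (f : X ⟶ Y) (d : ℤ) (a : M.H k Y) :
    M.pull k (d • f) a = d • M.pull k f a := by
  obtain ⟨n, x, rfl⟩ := MSys.exists_cls a
  rw [MSys.pull_cls, MSys.pull_cls, Preadditive.zsmul_comp, map_zsmul]

theorem tpull_zsmul {M : MSys T} {X Y : T} (f : X ⟶ Y) (d : ℤ) (a : M.Tot Y) :
    M.tpull (d • f) a = d • M.tpull f a := by
  refine DFinsupp.ext fun k => ?_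
  have h1 : (d • M.tpull f a) k = d • (M.tpull f a k) := rfl
  rw [h1, MSys.tpull_apply, MSys.tpull_apply, pull_zsmul]

variable {S : EvenSpheres T} {F : SpaceFunctor T} (e : F.S.obj CCF ≅ S.L)

theorem umap_zsmul (M : MSys T) {X Y : LC} (hX : FC X) (hY : FC Y)
    (g g' : X ⟶ Y) (d : ℤ)
    (h : F.S.map (FCat.hom (X := ⟨X, hX⟩) (Y := ⟨Y, hY⟩) g) =
      d • F.S.map (FCat.hom (X := ⟨X, hX⟩) (Y := ⟨Y, hY⟩) g')) (x : UU M F Y) :
    umap M F g x = d • umap M F g' x := by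
  refine uev_inj hX ?_
  rw [map_zsmul, uev_umap hX hY, uev_umap hX hY, h, tpull_zsmul]

theorem thK_map_zsmul (K : T) [MonObj K] [IsCommMonObj K] {X Y : LC} (hX : FC X) (hY : FC Y)
    (g g' : X ⟶ Y) (d : ℤ)
    (h : F.S.map (FCat.hom (X := ⟨X, hX⟩) (Y := ⟨Y, hY⟩) g) =
      d • F.S.map (FCat.hom (X := ⟨X, hX⟩) (Y := ⟨Y, hY⟩) g')) (x : (thK e K).U Y) :
    (thK e K).map g x = d • (thK e K).map g' x := umap_zsmul _ hX hY g g' d h x

/-! ### Linear isomorphisms -/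

section lin

variable {V V' : Type} [NormedAddCommGroup V] [NormedSpace ℝ V] [FiniteDimensional ℝ V]
  [ProperSpace V] [NormedAddCommGroup V'] [NormedSpace ℝ V'] [FiniteDimensional ℝ V']
  [ProperSpace V']

/-- a linear isomorphism as an isomorphism of `LC` -/
def linI (a : V ≃L[ℝ] V') : LC.of V ≅ LC.of V' where
  hom := lin a
  inv := lin a.symm
  hom_inv_id := by rw [← lin_trans, ContinuousLinearEquiv.self_trans_symm, lin_refl]
  inv_hom_id := by rw [← lin_trans, ContinuousLinearEquiv.symm_trans_self, lin_refl]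

theorem fc_lin (V : Type) [NormedAddCommGroup V] [NormedSpace ℝ V] [FiniteDimensional ℝ V]
    [ProperSpace V] : FC (LC.of V) :=
  (FC.sph (Module.finrank ℝ V)).of_homeo (Y := LC.of V)
    (ContinuousLinearEquiv.ofFinrankEq (by rw [Module.finrank_fin_fun]) :
      (Fin (Module.finrank ℝ V) → ℝ) ≃L[ℝ] V).toHomeomorph

end lin

/-! ### The main theorem in a stable category -/

section main

variable {T : Type u} [Category.{v} T] [Preadditive T] [HasZeroObject T]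
    [HasShift T ℤ] [∀ n : ℤ, (shiftFunctor T n).Additive] [Pretriangulated T] [IsTriangulated T]
    [MonoidalCategory T] [SymmetricCategory T] [TensorTriangulated T] [MonoidalClosed T]
    [HasCoproducts.{0} T] [HasProducts.{0} T] [StableCat T]
  {F : SpaceFunctor T} {e : F.S.obj CCF ≅ (stdEven T).L}

theorem fib_main (M : MUMon F (stdEven T) e) (b : MUBasis M.V)
    (hd1 : DV 2 ((thK e M.R).U RR)) (ht1 : TF 2 ((thK e M.R).U RR))
    (ht2 : TF 2 ((thK e (Am M.R 2)).U RR)) (k : ℕ) {A : LC}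
    (s : MM (Fin (k + 1)) A ≅ VV (Fin (k + 1)) ⊗ VV (Fin (k + 1)))
    (f : A ⊗ VV (Fin (k + 1)) ⟶ VV (Fin (k + 1))) (v : SS (Fin (k + 1)))
    (hX : FC (MM (Fin (k + 1)) A)) (hY : FC (VV (Fin (k + 1)) ⊗ VV (Fin (k + 1))))
    {d : ℤ} (hd : Odd d)
    (h : F.S.map (FCat.hom (X := ⟨_, hX⟩) (Y := ⟨_, hY⟩) (deltaV f v)) =
      d • F.S.map (FCat.hom (X := ⟨_, hX⟩) (Y := ⟨_, hY⟩) s.hom)) :
    k + 1 = 1 ∨ k + 1 = 2 ∨ k + 1 = 4 := by
  have hpt := thCls_point M.ori s f v d (fun x => thK_map_zsmul e M.R hX hY _ _ d h x)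
  have hrel := thCls_relation_fin M.ori (thKHom e (Am.v M.R (0 : Fin 2)))
    (thKHom e (Am.v M.R (1 : Fin 2))) k s f
  haveI i1 : (thK e M.R).Good (CP (Fin (k + 1))) := good_gr_one M.ori _
  haveI i2 : (thK e (Am M.R 2)).Good (CP (Fin (k + 1))) :=
    good_gr_one ((thKHom e (Am.v M.R (0 : Fin 2))).push M.ori) _
  refine theta_main M b (Fin (k + 1)) (Fintype.card_fin _) (Nat.succ_ne_zero k) hd1 ht1 ht2
    (thCls_deg M.ori s f) (v.lens 2) hd hpt ?_
  rw [rho_eq_sum _ _ _ (z_pow_eq_zero _ (k + 1) (Fin (k + 1)) (by simp)), Finset.sum_range]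
  exact hrel

end main

/-! ### The unconditional theorem -/

open Vale.Agent.P263.TJ Vale.Agent.P263.S Vale.Agent.P263.E Vale.Agent.P263.G2 in
/-- **Adams' theorem for the fibre maps.** `f : (A × V)⁺ → V⁺`, `V = ℂ^m`, `dim A = 2 m - 1`. If the
fibre map `δ_v : (A × V × ℝ)⁺ → (V × V)⁺` is not zero in mod 2 cohomology then `m = 1`, `2` or
`4`. -/
theorem adams_fib {A : Type} [NormedAddCommGroup A] [NormedSpace ℝ A] [FiniteDimensional ℝ A]
    [ProperSpace A] (k : ℕ) (hA : Module.finrank ℝ A + 1 = 2 * (k + 1))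
    (f : LC.of A ⊗ VV (Fin (k + 1)) ⟶ VV (Fin (k + 1))) (v : SS (Fin (k + 1))) {n : ℕ}
    (hn : n = 4 * (k + 1))
    (h : ∃ z : Cc (sing (OnePoint ((Fin (k + 1) → ℂ) × (Fin (k + 1) → ℂ)))),
      Cc.IsDeg n z ∧ Cc.d z = 0 ∧ ∀ a, Cc.pull (singMap (Hom.toMap (deltaV f v))) z ≠ Cc.d a) :
    k + 1 = 1 ∨ k + 1 = 2 ∨ k + 1 = 4 := by
  obtain ⟨T, ⟨F⟩, -⟩ := Vale.Agent.P251.H.exists_stable
  obtain ⟨M⟩ := nonempty_MUMon F (stdEven T.C) (lineIso F)
  obtain ⟨b⟩ := M.nonempty_muBasis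
  have h1 : Module.finrank ℝ (A × ((Fin (k + 1) → ℂ) × ℝ)) = n := by
    rw [Module.finrank_prod, Module.finrank_prod, Module.finrank_pi_fintype]
    simp
    omega
  have h2 : Module.finrank ℝ ((Fin (k + 1) → ℂ) × (Fin (k + 1) → ℂ)) = n := by
    rw [Module.finrank_prod, Module.finrank_pi_fintype]
    simp
    omega
  let a : (A × ((Fin (k + 1) → ℂ) × ℝ)) ≃L[ℝ] ((Fin (k + 1) → ℂ) × (Fin (k + 1) → ℂ)) :=
    ContinuousLinearEquiv.ofFinrankEq (h1.trans h2.symm)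
  obtain ⟨d, hd, hS⟩ := DG.exists_odd_of_cc F (by omega) h1 (fc_lin _) (fc_lin _) a
    (deltaV f v) h
  exact fib_main M b (dv_R M b two_ne_zero) (tf_R M b two_ne_zero) (tf_Am M b two_ne_zero 1) k
    (A := LC.of A) (linI a) f v (fc_lin (A × ((Fin (k + 1) → ℂ) × ℝ)))
    (fc_lin ((Fin (k + 1) → ℂ) × (Fin (k + 1) → ℂ))) hd hS

end Vale.Agent.P263.AD
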