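import Vale.Agent.P263.AD.Bridge
import Vale.Agent.P263.AD.Main

/-!
# P263, part AD: maps of Hopf invariant one exist only in the stems `1`, `3`, `7`

`adams` : if `F : S^m → S^r`, `m = d + r`, `r = d + 1 + i`, `d` odd, has Hopf invariant one then
`d = 1`, `3` or `7`.
-/

open CategoryTheory MonoidalCategory OnePoint Topology

namespace Vale.Agent.P263.AD

open Vale.Agent.P263.S Vale.Agent.P263.E Vale.Agent.P263.H83 Vale.Agent.P263.G2
  Vale.Agent.P263.T0 Vale.Agent.P263.TJ Vale.Agent.P251.G Vale.Agent.P263.AD.Su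

open Vale.Agent.P251.G.LC hiding Sph

/-- The degree of the fibre map `δ_v` is the Hopf invariant, mod 2. -/
def FibreDeg : Prop := ∀ (d k : ℕ), 2 * (k + 1) = d + 1 →
  ∀ f : LC.of (Fin d → ℝ) ⊗ VV (Fin (k + 1)) ⟶ VV (Fin (k + 1)),
    Nonempty (Su.Odd (Fin d → ℝ) (Fin (k + 1) → ℂ) (d + 1) (LC.Hom.toMap f)) →
      ∃ (v : SS (Fin (k + 1))) (z : Cc (sing (OnePoint ((Fin (k + 1) → ℂ) × (Fin (k + 1) → ℂ))))),
        Cc.IsDeg (2 * (d + 1)) z ∧ Cc.d z = 0 ∧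
          ∀ a, Cc.pull (singMap (LC.Hom.toMap (deltaV f v))) z ≠ Cc.d a

/-- **Adams' theorem at the edge of the stable range.** -/
theorem adams_edge (hD : FibreDeg) {d : ℕ} (hev : Even (d + 1))
    (f : C(Sph (2 * d + 1), Sph (d + 1))) (hf : f ∞ = ∞) (h : HopfOne f) :
    d = 1 ∨ d = 3 ∨ d = 7 := by
  obtain ⟨k, hk⟩ : ∃ k, 2 * (k + 1) = d + 1 := by
    obtain ⟨r, hr⟩ := hev
    exact ⟨r - 1, by omega⟩
  obtain ⟨f', hf'⟩ := exists_complex (κ := Fin (k + 1)) (by rw [Fintype.card_fin]; exact hk) hf h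
  obtain ⟨v, hz⟩ := hD d k hk f' hf'
  have h1 := adams_fib (A := Fin d → ℝ) k (by rw [Module.finrank_fin_fun]; omega) f' v
    (n := 2 * (d + 1)) (by omega) hz
  omega

/-- **Adams' theorem.** -/
theorem adams (hFr : Freud) (hD : FibreDeg) {d i m r : ℕ} (hd : 0 < d) (hev : Even (d + 1))
    (hm : m = d + r) (hr : r = d + 1 + i) (F : C(Sph m, Sph r)) (hF : F ∞ = ∞) (h : HopfOne F) :
    d = 1 ∨ d = 3 ∨ d = 7 := by
  obtain ⟨f, hf, h'⟩ := exists_desusp' hFr hd hm hr F hF h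
  exact adams_edge hD hev f hf h'

end Vale.Agent.P263.AD
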