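import Vale.Agent.P263.AD.FreuRH

/-!
# P263, block AD: Freudenthal's suspension theorem (surjectivity)

`freudenthal` : for `2 ≤ N` and `j ≤ 2 N - 1` every pointed map `S^(j+1) → S^(N+1)` is pointed
homotopic to the suspension of a pointed map `S^j → S^N`.
-/

open Topology Set Filter Metric CategoryTheory MonoidalCategory

open Vale.Agent.P246.T Vale.Agent.P246.T.FM

set_option linter.unusedSectionVars false

namespace Vale.Agent.P263.AD.Freu

open Vale.Agent.P251.G Vale.Agent.P251.G.LC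

theorem finrank_prod (N : ℕ) : Module.finrank ℝ ((Fin N → ℝ) × ℝ) = N + 1 := by simp

theorem sc_range {N : ℕ} (hN : 2 ≤ N) :
    SimplyConnectedSpace (range (jS : C(OnePoint (Fin N → ℝ), _))) := by
  have : SimplyConnectedSpace (OnePoint (Fin N → ℝ)) := sc_sphere (by
    rw [Module.finrank_fin_fun]; omega)
  exact (isEmbedding_jS (V := Fin N → ℝ)).toHomeomorph.symm.toHomotopyEquiv.simplyConnectedSpace

theorem jS_infty' {V : Type} [NormedAddCommGroup V] [NormedSpace ℝ V] [FiniteDimensional ℝ V] :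
    jS (OnePoint.infty : OnePoint V) = kL OnePoint.infty :=
  Subtype.ext (pp_ext fun _ => rfl)

/-- maps of spheres to the loop space deform to the sphere -/
theorem deform {N m : ℕ} (hN : 2 ≤ N) (hm1 : 1 ≤ m) (hm : m ≤ 2 * N - 1)
    (f : C(OnePoint (Fin m → ℝ), Om ((Fin N → ℝ) × ℝ)))
    (hf : f OnePoint.infty = kL OnePoint.infty) :
    ∃ K : C(I × OnePoint (Fin m → ℝ), Om ((Fin N → ℝ) × ℝ)), (∀ x, K (0, x) = f x) ∧
      (∀ t, K (t, OnePoint.infty) = kL OnePoint.infty) ∧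
      ∀ x, K (1, x) ∈ range (jS : C(OnePoint (Fin N → ℝ), _)) := by
  have h1 : SimplyConnectedSpace (Om ((Fin N → ℝ) × ℝ)) := sc_loop (by
    rw [finrank_prod]; omega)
  have h2 := sc_range hN
  have hl : Lft (range (jS : C(OnePoint (Fin N → ℝ), _))) m :=
    lft_of_range (n := 2 * N - 2) (fun k hk => hzero_sph N (by omega)) (by omega)
  obtain ⟨K, hK0, hK1, hK2⟩ := hl (f.comp (qD m)) (ContinuousMap.const _ (kL OnePoint.infty))
    (fun x => by
      change kL OnePoint.infty = f (qD m x.1)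
      rw [qD_bd x.2, hf])
    (fun x => ⟨OnePoint.infty, jS_infty'⟩)
  have hKb : ∀ t (x : Dk m), ‖(x : Fin m → ℝ)‖ = 1 → K (t, x) = kL OnePoint.infty :=
    fun t x hx => hK1 t ⟨x, hx⟩
  obtain ⟨g, hg⟩ := exists_descD hm1 K (fun t x y hx hy => by rw [hKb t x hx, hKb t y hy])
  refine ⟨g, fun x => ?_, fun t => ?_, fun x => ?_⟩
  · obtain ⟨y, rfl⟩ := qD_surjective hm1 x
    rw [hg]
    exact hK0 y
  · obtain ⟨y, hy⟩ := qD_surjective hm1 (OnePoint.infty : OnePoint (Fin m → ℝ))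
    have h3 : ‖(y : Fin m → ℝ)‖ = 1 := by
      by_contra h3
      rw [qD_of_ne h3] at hy
      exact OnePoint.coe_ne_infty _ hy
    rw [← hy, hg]
    exact hKb t y h3
  · obtain ⟨y, rfl⟩ := qD_surjective hm1 x
    rw [hg]
    exact hK2 y

theorem exists_smash_ps {V : Type} (y : OnePoint (V × ℝ)) :
    ∃ (x : OnePoint V) (t : I), y = smash x (ps t) := by
  induction y using OnePoint.rec with
  | infty => exact ⟨OnePoint.infty, 0, rfl⟩
  | coe v =>
    obtain ⟨t, ht⟩ := ps_surjective (v.2 : OnePoint ℝ)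
    exact ⟨(v.1 : OnePoint V), t, by rw [ht]; rfl⟩

/-- **Freudenthal's suspension theorem**, surjectivity in the full range: every pointed map
`S^(j+1) → S^(N+1)` with `2 ≤ N`, `j ≤ 2 N - 1` is pointed homotopic to a suspension. -/
theorem freudenthal (N j : ℕ) (hN : 2 ≤ N) (hj : j ≤ 2 * N - 1)
    (F : LC.of ((Fin j → ℝ) × ℝ) ⟶ LC.of ((Fin N → ℝ) × ℝ)) :
    ∃ f : LC.of (Fin j → ℝ) ⟶ LC.of (Fin N → ℝ),
      LC.Homotopic F ((f ⊗ₘ 𝟙 (LC.of ℝ) : LC.of (Fin j → ℝ) ⊗ LC.of ℝ ⟶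
        LC.of (Fin N → ℝ) ⊗ LC.of ℝ)) := by
  rcases Nat.eq_zero_or_pos j with rfl | hj1
  · refine ⟨0, ?_⟩
    have h0 : ((0 : LC.of (Fin 0 → ℝ) ⟶ LC.of (Fin N → ℝ)) ⊗ₘ 𝟙 (LC.of ℝ) :
        LC.of (Fin 0 → ℝ) ⊗ LC.of ℝ ⟶ LC.of (Fin N → ℝ) ⊗ LC.of ℝ) = 0 := by
      apply tensor_ext
      intro x y
      rw [app_tensorHom_smash]
      rfl
    rw [h0]
    exact LC.homotopic_zero_of_finrank_lt (by simp; omega) F
  -- the adjoint map
  let G : C(OnePoint (Fin j → ℝ), PP (OnePoint.infty : OnePoint ((Fin N → ℝ) × ℝ))) :=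
    mkP (fun q => app F (smash q.1 (ps q.2))) ((continuous_app F).comp
      ((continuous_smash (X := Fin j → ℝ) (Y := ℝ)).comp (continuous_fst.prodMk
        (ps.continuous.comp continuous_snd)))) (fun q => by
        rw [ps_zero, smash_infty_right, app_infty])
  have hG : ∀ x, G x ∈ ev (OnePoint.infty : OnePoint ((Fin N → ℝ) × ℝ)) ⁻¹' {OnePoint.infty} := by
    intro x
    change app F (smash x (ps 1)) = _
    rw [ps_one, smash_infty_right, app_infty]
  obtain ⟨K, hK0, hK1, hK2⟩ := deform hN hj1 hj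
    ⟨fun x => ⟨G x, hG x⟩, Continuous.subtype_mk G.continuous _⟩ (by
      refine Subtype.ext (pp_ext fun t => ?_)
      change app F (smash OnePoint.infty (ps t)) = _
      rw [smash_infty_left, app_infty]
      rfl)
  -- the desuspension
  let f : C(OnePoint (Fin j → ℝ), OnePoint (Fin N → ℝ)) :=
    ⟨fun x => (isEmbedding_jS (V := Fin N → ℝ)).toHomeomorph.symm ⟨K (1, x), hK2 x⟩, by
      refine (Homeomorph.continuous _).comp (Continuous.subtype_mk (by fun_prop) _)⟩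
  have hf : ∀ x, jS (f x) = K (1, x) := fun x =>
    congrArg Subtype.val ((isEmbedding_jS (V := Fin N → ℝ)).toHomeomorph.apply_symm_apply
      ⟨K (1, x), hK2 x⟩)
  have hf0 : f OnePoint.infty = OnePoint.infty := by
    apply jS_injective
    rw [hf, hK1, jS_infty']
  obtain ⟨g, hg⟩ := exists_descQ (V := Fin j → ℝ) (OnePoint.infty : OnePoint ((Fin N → ℝ) × ℝ))
    (⟨fun q => (K q.1).1.1 q.2, continuous_pp (continuous_subtype_val.comp
      (K.continuous.comp continuous_fst)) continuous_snd⟩ :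
      C((I × OnePoint (Fin j → ℝ)) × I, OnePoint ((Fin N → ℝ) × ℝ)))
    (fun q => (K q).1.2) (fun q => (K q).2) (fun a t => by
      change (K (a, OnePoint.infty)).1.1 t = _
      rw [hK1]
      rfl)
  refine ⟨⟨f, hf0⟩, (LC.homotopic_iff _ _).2 ⟨⟨⟨g, ?_, ?_⟩, ?_⟩⟩⟩
  · intro y
    obtain ⟨x, t, rfl⟩ := exists_smash_ps y
    refine (hg 0 x t).trans ?_
    change (K (0, x)).1.1 t = _
    rw [hK0]
    rfl
  · intro y
    obtain ⟨x, t, rfl⟩ := exists_smash_ps y
    refine (hg 1 x t).trans ?_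
    change (K (1, x)).1.1 t = _
    rw [← hf, jS_smash]
    exact (app_tensorHom_smash (⟨f, hf0⟩ : LC.of (Fin j → ℝ) ⟶ LC.of (Fin N → ℝ)) (𝟙 (LC.of ℝ))
      x (ps t)).symm
  · rintro a y rfl
    have h3 := hg a OnePoint.infty 0
    rw [smash_infty_left] at h3
    refine h3.trans ?_
    change (K (a, OnePoint.infty)).1.1 0 = app F OnePoint.infty
    rw [hK1, app_infty]
    rfl

end Vale.Agent.P263.AD.Freu
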