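import Vale.Agent.P263.AD.Rep
import Vale.Agent.P263.AD.Freu

/-!
# P263, block AD: Adams' theorem, with Freudenthal's theorem plugged in

The only remaining hypothesis is `FibreDeg` (the degree of the fibre map is the Hopf invariant).
-/

open OnePoint Topology

namespace Vale.Agent.P263.AD

open Vale.Agent.P263.T0 Vale.Agent.P263.TJ

/-- Freudenthal's theorem (helper665) in the form used here. -/
theorem freud : Su.Freud := fun N j hN hj F => Freu.freudenthal N j hN hj F

/-- Hopf invariant one desuspends to the edge of the stable range. -/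
theorem exists_edge {d i m r : ℕ} (hd : 0 < d) (hm : m = d + r) (hr : r = d + 1 + i)
    (F : C(Sph m, Sph r)) (hF : F ∞ = ∞) (h : HopfOne F) :
    ∃ f : C(Sph (2 * d + 1), Sph (d + 1)), f ∞ = ∞ ∧ HopfOne f :=
  Su.exists_desusp' freud hd hm hr F hF h

/-- **Adams' theorem** for maps `S^{d+r} → S^r`. -/
theorem adams_sph (hD : FibreDeg) {d i m r : ℕ} (hd : 0 < d) (hev : Even (d + 1))
    (hm : m = d + r) (hr : r = d + 1 + i) (F : C(Sph m, Sph r)) (hF : F ∞ = ∞) (h : HopfOne F) :
    d = 1 ∨ d = 3 ∨ d = 7 :=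
  adams freud hD hd hev hm hr F hF h

/-- **Adams' theorem** for based maps `Sᵈ → Q₀S⁰`. -/
theorem adams_Q (hD : FibreDeg) {d : ℕ} (hd : 0 < d) (hev : Even (d + 1)) {g : BMap d}
    (h : K.HopfOne g) : d = 1 ∨ d = 3 ∨ d = 7 :=
  adams_bmap freud hD hd hev h

end Vale.Agent.P263.AD
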