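import Vale.Agent.P263.AD.Susp
import Vale.Agent.P263.TJ.HopfAF
import Vale.Agent.P251.G.GLn

/-!
# P263, block AD (ADJ): from stable maps of Hopf invariant one to `S^(2n-1) → S^n`

* `exists_desusp` : a map `S^(2d+1+i) → S^(d+1+i)` of Hopf invariant one desuspends to a map
  `S^(2d+1) → S^(d+1)` of Hopf invariant one, if Freudenthal's theorem holds (`Freud`).
* `exists_complex` : its form in complex coordinates, `2 |κ| = d + 1`, with the cochains.
-/

open Finset OnePoint Topology CategoryTheory MonoidalCategory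

namespace Vale.Agent.P263.AD.Su

open Vale.Agent.P263.S Vale.Agent.P263.E Vale.Agent.P263.H83 Vale.Agent.P263.G2
  Vale.Agent.P263.T0 Vale.Agent.P263.TJ Vale.Agent.P251.G

open Vale.Agent.P251.G.LC hiding Sph

/-- Freudenthal's theorem: maps `S^(j+1) → S^(N+1)` are suspensions for `j ≤ 2 N - 1`. -/
def Freud : Prop := ∀ N j : ℕ, 2 ≤ N → j ≤ 2 * N - 1 →
  ∀ F : LC.of ((Fin j → ℝ) × ℝ) ⟶ LC.of ((Fin N → ℝ) × ℝ),
    ∃ f : LC.of (Fin j → ℝ) ⟶ LC.of (Fin N → ℝ), Homotopic F (f ⊗ₘ 𝟙 (LC.of ℝ))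

section Step

/-- `ℝʲ × ℝ = ℝ^(j+1)` -/
noncomputable def ap (j : ℕ) : ((Fin j → ℝ) × ℝ) ≃ₜ (Fin (j + 1) → ℝ) :=
  ((Homeomorph.refl (Fin j → ℝ)).prodCongr (Homeomorph.funUnique (Fin 1) ℝ).symm).trans
    (Fin.appendHomeomorph (X := ℝ) j 1)

/-- `Sʲ × S¹ → S^(j+1)` in terms of the smash product with `ℝ` -/
theorem join2_one {j : ℕ} (x : Sph j) (y : Sph 1) :
    (join2 x y : Sph (j + 1)) = (ap j).onePointCongr
      (smash x ((Homeomorph.funUnique (Fin 1) ℝ).onePointCongr y)) := by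
  induction x using OnePoint.rec with
  | infty => rw [join2_infty_left, smash_infty_left]; rfl
  | coe x =>
    induction y using OnePoint.rec with
    | infty =>
      rw [join2_infty_right]
      have : (Homeomorph.funUnique (Fin 1) ℝ).onePointCongr (∞ : Sph 1) = ∞ := rfl
      rw [this, smash_infty_right]
      rfl
    | coe y =>
      rw [join2_coe]
      change _ = ((ap j (x, (Homeomorph.funUnique (Fin 1) ℝ) y) : Fin (j + 1) → ℝ) : Sph (j + 1))
      congr 1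
      change _ = Fin.append x ((Homeomorph.funUnique (Fin 1) ℝ).symm
        ((Homeomorph.funUnique (Fin 1) ℝ) y))
      rw [Homeomorph.symm_apply_apply]

theorem app_hom_congr {A B : Type} [TopologicalSpace A] [TopologicalSpace B] [T2Space A]
    [T2Space B] [LocallyCompactSpace A] [LocallyCompactSpace B] (e : A ≃ₜ B) (w : OnePoint A) :
    app (ofHomeo (X := LC.of A) (Y := LC.of B) e).hom w = e.onePointCongr w := by
  induction w using OnePoint.rec with
  | infty => exact app_infty _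
  | coe w => rfl

theorem app_inv_congr {A B : Type} [TopologicalSpace A] [TopologicalSpace B] [T2Space A]
    [T2Space B] [LocallyCompactSpace A] [LocallyCompactSpace B] (e : A ≃ₜ B) (w : OnePoint A) :
    app (ofHomeo (X := LC.of A) (Y := LC.of B) e).inv (e.onePointCongr w) = w := by
  rw [← app_hom_congr, ← app_comp, Iso.hom_inv_id]
  rfl

/-- one step of the desuspension -/
theorem exists_step (hFr : Freud) {d i : ℕ} (hd : 0 < d)
    (F : C(Sph (2 * d + 1 + (i + 1)), Sph (d + (i + 1) + 1))) (hF : F ∞ = ∞) (h : HopfOne F) :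
    ∃ f : C(Sph (2 * d + 1 + i), Sph (d + i + 1)), f ∞ = ∞ ∧ HopfOne f := by
  let G : LC.of (Fin (2 * d + 1 + i + 1) → ℝ) ⟶ LC.of (Fin (d + i + 1 + 1) → ℝ) := ⟨F, hF⟩
  obtain ⟨f, hf⟩ := hFr (d + i + 1) (2 * d + 1 + i) (by omega) (by omega)
    ((ofHomeo (X := LC.of ((Fin (2 * d + 1 + i) → ℝ) × ℝ))
      (Y := LC.of (Fin (2 * d + 1 + i + 1) → ℝ)) (ap _)).hom ≫ G ≫
      (ofHomeo (X := LC.of ((Fin (d + i + 1) → ℝ) × ℝ))
      (Y := LC.of (Fin (d + i + 1 + 1) → ℝ)) (ap _)).inv)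
  let F' : LC.of (Fin (2 * d + 1 + i + 1) → ℝ) ⟶ LC.of (Fin (d + i + 1 + 1) → ℝ) :=
    (ofHomeo (X := LC.of ((Fin (2 * d + 1 + i) → ℝ) × ℝ))
      (Y := LC.of (Fin (2 * d + 1 + i + 1) → ℝ)) (ap _)).inv ≫ (f ⊗ₘ 𝟙 (LC.of ℝ)) ≫
      (ofHomeo (X := LC.of ((Fin (d + i + 1) → ℝ) × ℝ))
      (Y := LC.of (Fin (d + i + 1 + 1) → ℝ)) (ap _)).hom
  have hG : Homotopic G F' := by
    have h1 := (hf.comp_right (ofHomeo (X := LC.of ((Fin (d + i + 1) → ℝ) × ℝ))
      (Y := LC.of (Fin (d + i + 1 + 1) → ℝ)) (ap _)).hom).comp_left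
      (ofHomeo (X := LC.of ((Fin (2 * d + 1 + i) → ℝ) × ℝ))
      (Y := LC.of (Fin (2 * d + 1 + i + 1) → ℝ)) (ap _)).inv
    simp only [Category.assoc, Iso.inv_hom_id, Iso.inv_hom_id_assoc, Category.comp_id] at h1
    exact h1
  have hF' : HopfOne (LC.Hom.toMap F') := hopfOne_of_homotopicRel (n := d + (i + 1)) (i := i + 1)
    (by omega) (by omega) hF ((homotopic_iff G F').1 hG) h
  refine ⟨LC.Hom.toMap f, LC.Hom.map_infty f, ?_⟩
  refine hopfOne_of_susp (i := i) (LC.Hom.toMap f) (LC.Hom.toMap F') (by omega) (by omega)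
    (LC.Hom.map_infty f) ?_ hF'
  intro x y
  rw [join2_one, join2_one]
  change app F' _ = (ap _).onePointCongr (smash (app f x) _)
  rw [app_comp, app_comp, app_inv_congr, app_tensorHom_smash, app_id, app_hom_congr]

/-- **Desuspension** to the edge of the stable range. -/
theorem exists_desusp (hFr : Freud) {d : ℕ} (hd : 0 < d) : ∀ (i : ℕ)
    (F : C(Sph (2 * d + 1 + i), Sph (d + i + 1))) (_ : F ∞ = ∞) (_ : HopfOne F),
    ∃ f : C(Sph (2 * d + 1), Sph (d + 1)), f ∞ = ∞ ∧ HopfOne f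
  | 0, F, hF, h => ⟨F, hF, h⟩
  | i + 1, F, hF, h => by
    obtain ⟨f, hf, h'⟩ := exists_step hFr hd F hF h
    exact exists_desusp hFr hd i f hf h'

theorem exists_desusp' (hFr : Freud) {d i m r : ℕ} (hd : 0 < d) (hm : m = d + r)
    (hr : r = d + 1 + i) (F : C(Sph m, Sph r)) (hF : F ∞ = ∞) (h : HopfOne F) :
    ∃ f : C(Sph (2 * d + 1), Sph (d + 1)), f ∞ = ∞ ∧ HopfOne f := by
  obtain rfl : r = d + i + 1 := by omega
  obtain rfl : m = 2 * d + 1 + i := by omega
  exact exists_desusp hFr hd i F hF h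

end Step

section Coord

/-- the simplices of a compactification which are constant at the base point -/
def bsO (E : Type) [TopologicalSpace E] : Sb (sing (OnePoint E)) where
  mem {p} σ := ∀ t : G2.Dl p, toC σ t = ∞
  map_mem f _ h t := h (dmap f t)

/-- reduced data of the functional square `H(f)` of `f : A × V → V`, `n = dim V`, and its
non-triviality: `f` has odd Hopf invariant. -/
structure Odd (A V : Type) [TopologicalSpace A] [TopologicalSpace V] (n : ℕ)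
    (f : C(OnePoint (A × V), OnePoint V)) : Type where
  b : Cc (sing (OnePoint V))
  c : Cc (sing (OnePoint V))
  e : Cc (sing (OnePoint (A × V)))
  b_deg : Cc.IsDeg n b
  c_deg : Cc.IsDeg (2 * n - 1) c
  e_deg : Cc.IsDeg (n - 1) e
  b_vn : Vn (bsO V) b
  c_vn : Vn (bsO V) c
  e_vn : Vn (bsO (A × V)) e
  d_b : Cc.d b = 0
  b_ne : ∀ a, b ≠ Cc.d a
  d_c : Cc.cup 1 b b = Cc.d c
  d_e : Cc.pull (singMap f) b = Cc.d e
  val_ne : ∀ a, Cc.pull (singMap f) c + Cc.cup 1 e (Cc.d e) ≠ Cc.d a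

theorem pull_homeo_ne {A B : Type} [TopologicalSpace A] [TopologicalSpace B] (g : A ≃ₜ B)
    {u : Cc (sing B)} (h : ∀ a, u ≠ Cc.d a) (a : Cc (sing A)) :
    Cc.pull (singMap (g : C(A, B))) u ≠ Cc.d a := by
  intro ha
  refine h (Cc.pull (singMap (g.symm : C(B, A))) a) ?_
  rw [← pull_d, ← ha]
  change u = Cc.pull ((singMap (g : C(A, B))).comp (singMap (g.symm : C(B, A)))) u
  rw [← singMap_comp]
  have : (g : C(A, B)).comp (g.symm : C(B, A)) = ContinuousMap.id B := by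
    ext x
    simp
  rw [this]
  rfl

variable {d : ℕ} {κ : Type} [Fintype κ]

/-- linear coordinates of the source -/
noncomputable def gA (h : 2 * Fintype.card κ = d + 1) :
    ((Fin d → ℝ) × (κ → ℂ)) ≃L[ℝ] (Fin (2 * d + 1) → ℝ) :=
  ContinuousLinearEquiv.ofFinrankEq (by
    rw [Module.finrank_prod, Module.finrank_fin_fun, Module.finrank_fin_fun,
      Module.finrank_pi_fintype]
    simp only [Complex.finrank_real_complex, Finset.sum_const, Finset.card_univ, smul_eq_mul]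
    omega)

/-- linear coordinates of the target -/
noncomputable def gB (h : 2 * Fintype.card κ = d + 1) : (κ → ℂ) ≃L[ℝ] (Fin (d + 1) → ℝ) :=
  ContinuousLinearEquiv.ofFinrankEq (by
    rw [Module.finrank_fin_fun, Module.finrank_pi_fintype]
    simp only [Complex.finrank_real_complex, Finset.sum_const, Finset.card_univ, smul_eq_mul]
    omega)

/-- **Complex coordinates.** -/
theorem exists_complex (h : 2 * Fintype.card κ = d + 1)
    {f : C(Sph (2 * d + 1), Sph (d + 1))} (hf : f ∞ = ∞) (hH : HopfOne f) :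
    ∃ f' : LC.of (Fin d → ℝ) ⊗ LC.of (κ → ℂ) ⟶ LC.of (κ → ℂ),
      Nonempty (Odd (Fin d → ℝ) (κ → ℂ) (d + 1) (LC.Hom.toMap f')) := by
  have hd : 0 < Fintype.card κ := by omega
  obtain ⟨D, hD, hb, hv⟩ := (hopfOne_iff_exists (n := d) (i := 0) (by omega) (by omega) hf).1 hH
  let α : OnePoint ((Fin d → ℝ) × (κ → ℂ)) ≃ₜ Sph (2 * d + 1) :=
    (gA h).toHomeomorph.onePointCongr
  let β : OnePoint (κ → ℂ) ≃ₜ Sph (d + 1) := (gB h).toHomeomorph.onePointCongr
  let f' : LC.of ((Fin d → ℝ) × (κ → ℂ)) ⟶ LC.of (κ → ℂ) :=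
    ⟨((β.symm : C(Sph (d + 1), OnePoint (κ → ℂ))).comp f).comp
      (α : C(OnePoint ((Fin d → ℝ) × (κ → ℂ)), Sph (2 * d + 1))), by
        change β.symm (f (α ∞)) = ∞
        have h1 : α ∞ = ∞ := rfl
        rw [h1, hf]
        rfl⟩
  have hcomm : (singMap (β : C(OnePoint (κ → ℂ), Sph (d + 1)))).comp (singMap (LC.Hom.toMap f')) =
      (singMap f).comp (singMap (α : C(OnePoint ((Fin d → ℝ) × (κ → ℂ)), Sph (2 * d + 1)))) := by
    rw [← singMap_comp, ← singMap_comp]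
    congr 1
    ext x
    change β (β.symm (f (α x))) = f (α x)
    rw [Homeomorph.apply_symm_apply]
  have hb' : ∀ a, Cc.val D.b ≠ Cc.d a := fun a ha =>
    hb (SphCc.rel_coh_of_coh hD.b_mem (coh_of_d ha))
  have hv' : ∀ a, Cc.val D.val ≠ Cc.d a := fun a ha =>
    hv (SphCc.rel_coh_of_coh (val_isDeg hD) (coh_of_d ha))
  have hde : Cc.d (Cc.val D.e) = Cc.pull (singMap f) (Cc.val D.b) := congrArg Cc.val D.d_e
  have hdc : Cc.cup 1 (Cc.val D.b) (Cc.val D.b) = Cc.d (Cc.val D.c) := congrArg Cc.val D.d_c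
  have hval : Cc.val D.val = Cc.pull (singMap f) (Cc.val D.c) +
      Cc.cup 1 (Cc.val D.e) (Cc.d (Cc.val D.e)) := by
    have h1 : Cc.val D.val = Cc.cup 0 (Cc.val D.e) (Cc.val D.e) +
        Cc.cup 1 (Cc.val D.e) (Cc.d (Cc.val D.e)) + Cc.pull (singMap f) (Cc.val D.c) := rfl
    rw [h1, TJ.cup_zero, zero_add]
    exact add_comm _ _
  refine ⟨f', ⟨⟨Cc.pull (singMap (β : C(OnePoint (κ → ℂ), Sph (d + 1)))) (Cc.val D.b),
    Cc.pull (singMap (β : C(OnePoint (κ → ℂ), Sph (d + 1)))) (Cc.val D.c),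
    Cc.pull (singMap (α : C(OnePoint ((Fin d → ℝ) × (κ → ℂ)), Sph (2 * d + 1)))) (Cc.val D.e),
    ?_, ?_, ?_, ?_, ?_, ?_, ?_, ?_, ?_, ?_, ?_⟩⟩⟩
  · exact Cc.IsDeg.pull hD.b_mem _
  · exact Cc.IsDeg.pull hD.c_mem _
  · exact Cc.IsDeg.pull hD.e_mem _
  · intro p σ hσ
    exact Cc.vn_val D.b _ _ fun t => by
      change β (toC σ t) = ∞
      rw [hσ t]
      rfl
  · intro p σ hσ
    exact Cc.vn_val D.c _ _ fun t => by
      change β (toC σ t) = ∞
      rw [hσ t]
      rfl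
  · intro p σ hσ
    exact Cc.vn_val D.e _ _ fun t => by
      change α (toC σ t) = ∞
      rw [hσ t]
      rfl
  · rw [← pull_d]
    have : Cc.d (Cc.val D.b) = 0 := congrArg Cc.val D.d_b
    rw [this]
    rfl
  · exact pull_homeo_ne β hb'
  · rw [← pull_cup, hdc, pull_d]
  · change Cc.pull ((singMap (β : C(OnePoint (κ → ℂ), Sph (d + 1)))).comp
      (singMap (LC.Hom.toMap f'))) (Cc.val D.b) = _
    rw [hcomm, ← pull_d, hde]
    rfl
  · have h2 : Cc.pull (singMap (LC.Hom.toMap f'))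
        (Cc.pull (singMap (β : C(OnePoint (κ → ℂ), Sph (d + 1)))) (Cc.val D.c)) =
        Cc.pull (singMap (α : C(OnePoint ((Fin d → ℝ) × (κ → ℂ)), Sph (2 * d + 1))))
          (Cc.pull (singMap f) (Cc.val D.c)) :=
      congrArg (fun g => Cc.pull g (Cc.val D.c)) hcomm
    have h3 := pull_homeo_ne α hv'
    intro a ha
    refine h3 a ?_
    rw [hval, ← ha, h2, ← pull_d, ← pull_cup]
    rfl

end Coord

end Vale.Agent.P263.AD.Su
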