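import Vale.Agent.P263.AD.Mult
import Vale.Agent.P251.Q.HasLaw
import Vale.Agent.P251.M.Strict

/-!
# P263, part ADE: the character of the cohomology of the projective space

`chi o φ I x hx : E.U (CP I) →+* K` : the ring homomorphism which is `φ : E.A →+* K` on the
coefficients and maps the Euler class `z` to `x`, where `x ^ |I| = 0`.

* `chi_tpow_two` : if the law of `o` becomes `x + y + x y` and `x = -2`, then the Euler class of
  `L ⊗ L` goes to `0`;
* `rho o o' I` : the class with `o'.z I = rho * o.z I`; `chi_rho` : `3 χ(rho) = 1`.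
-/

open CategoryTheory MonoidalCategory OnePoint Matrix Topology
open Vale.Agent.P251.G Vale.Agent.P251.G.LC Vale.Agent.P251.M
open Vale.Agent.P251.Q hiding nev1 nev1_X
open Vale.Agent.P251.F Vale.Agent.P217

universe v w

noncomputable section

namespace Vale.Agent.P263.AD

/-! ### Algebra -/

section alg

variable {A U : Type*} [CommRing A] [CommRing U] [Algebra A U] {K : Type*} [CommRing K]

theorem X_pow_dvd_sub (p : Polynomial A) (N : ℕ) : (Polynomial.X : Polynomial A) ^ N ∣
    p - ∑ i : Fin N, Polynomial.C (p.coeff i) * Polynomial.X ^ (i : ℕ) := by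
  rw [Polynomial.X_pow_dvd_iff]
  intro d hd
  rw [Polynomial.coeff_sub, Polynomial.finsetSum_coeff, Finset.sum_eq_single ⟨d, hd⟩]
  · rw [Polynomial.coeff_C_mul, Polynomial.coeff_X_pow_self, mul_one, sub_self]
  · intro i _ hi
    rw [Polynomial.coeff_C_mul, Polynomial.coeff_X_pow, if_neg, mul_zero]
    rintro rfl
    exact hi rfl
  · intro h; exact absurd (Finset.mem_univ _) h

/-- A ring homomorphism out of a truncated polynomial ring. -/
theorem exists_chi {z : U} {N : ℕ} (hz : z ^ N = 0)
    (hb : Function.Bijective fun c : Fin N → A => ∑ i, c i • z ^ (i : ℕ)) (φ : A →+* K) {x : K}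
    (hx : x ^ N = 0) : ∃ χ : U →+* K, (∀ a, χ (algebraMap A U a) = φ a) ∧ χ z = x := by
  have hsurj : Function.Surjective (Polynomial.aeval z : Polynomial A →ₐ[A] U).toRingHom := by
    intro y
    obtain ⟨c, hc⟩ := hb.2 y
    refine ⟨∑ i : Fin N, Polynomial.C (c i) * Polynomial.X ^ (i : ℕ), ?_⟩
    change Polynomial.aeval z _ = y
    rw [map_sum, ← hc]
    refine Finset.sum_congr rfl fun i _ => ?_
    rw [map_mul, Polynomial.aeval_C, map_pow, Polynomial.aeval_X, Algebra.smul_def]
  have hker : RingHom.ker (Polynomial.aeval z : Polynomial A →ₐ[A] U).toRingHom ≤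
      RingHom.ker (Polynomial.eval₂RingHom φ x) := by
    intro p hp
    rw [RingHom.mem_ker] at hp ⊢
    change Polynomial.aeval z p = 0 at hp
    change Polynomial.eval₂ φ x p = 0
    obtain ⟨q, hq⟩ := X_pow_dvd_sub p N
    have h1 : p = ∑ i : Fin N, Polynomial.C (p.coeff i) * Polynomial.X ^ (i : ℕ) +
        Polynomial.X ^ N * q := by rw [← hq]; ring
    have h2 : ∑ i : Fin N, p.coeff i • z ^ (i : ℕ) = 0 := by
      have h3 := hp
      rw [h1, map_add, map_mul, map_pow, Polynomial.aeval_X, hz, zero_mul, add_zero, map_sum] at h3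
      rw [← h3]
      refine Finset.sum_congr rfl fun i _ => ?_
      rw [map_mul, Polynomial.aeval_C, map_pow, Polynomial.aeval_X, Algebra.smul_def]
    have h3 : (fun i : Fin N => p.coeff i) = 0 := by
      refine hb.1 ?_
      change ∑ i : Fin N, p.coeff i • z ^ (i : ℕ) = ∑ i : Fin N, (0 : A) • z ^ (i : ℕ)
      rw [h2]
      simp
    rw [h1, Polynomial.eval₂_add, Polynomial.eval₂_mul, Polynomial.eval₂_X_pow, hx, zero_mul,
      add_zero, Polynomial.eval₂_finsetSum]
    refine Finset.sum_eq_zero fun i _ => ?_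
    rw [show p.coeff (i : ℕ) = 0 from congrFun h3 i, map_zero, zero_mul, Polynomial.eval₂_zero]
  refine ⟨RingHom.liftOfSurjective _ hsurj ⟨Polynomial.eval₂RingHom φ x, hker⟩, fun a => ?_, ?_⟩
  · have h1 := RingHom.liftOfSurjective_comp_apply
      (Polynomial.aeval z : Polynomial A →ₐ[A] U).toRingHom hsurj
      ⟨Polynomial.eval₂RingHom φ x, hker⟩ (Polynomial.C a)
    have h2 : (Polynomial.aeval z : Polynomial A →ₐ[A] U).toRingHom (Polynomial.C a) =
        algebraMap A U a := Polynomial.aeval_C _ _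
    rw [h2] at h1
    rw [h1]
    exact Polynomial.eval₂_C _ _
  · have h1 := RingHom.liftOfSurjective_comp_apply
      (Polynomial.aeval z : Polynomial A →ₐ[A] U).toRingHom hsurj
      ⟨Polynomial.eval₂RingHom φ x, hker⟩ Polynomial.X
    have h2 : (Polynomial.aeval z : Polynomial A →ₐ[A] U).toRingHom Polynomial.X = z :=
      Polynomial.aeval_X _
    rw [h2] at h1
    rw [h1]
    exact Polynomial.eval₂_X _ _

end alg

/-! ### The series `[2]` of the multiplicative law -/

theorem subst_mulLaw {K : Type} [CommRing K] {σ : Type*} {a b : MvPowerSeries σ K}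
    (ha : PowerSeries.HasSubst a) (hb : PowerSeries.HasSubst b) :
    MvPowerSeries.subst ![a, b] (mulLaw K).ps = a + b + a * b := by
  have hs : MvPowerSeries.HasSubst ![a, b] := hasSubst_pair ha hb
  rw [mulLaw_ps, MvPowerSeries.subst_add hs, MvPowerSeries.subst_add hs, MvPowerSeries.subst_mul hs,
    MvPowerSeries.subst_X hs, MvPowerSeries.subst_X hs]
  simp only [Matrix.cons_val_zero, Matrix.cons_val_one]

theorem multSeries_two (K : Type) [CommRing K] :
    multSeries (mulLaw K).toFG 2 = 2 * PowerSeries.X + PowerSeries.X ^ 2 := by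
  have hX : PowerSeries.HasSubst (PowerSeries.X : PowerSeries K) := PowerSeries.HasSubst.X'
  have h0 : PowerSeries.HasSubst (0 : PowerSeries K) := PowerSeries.HasSubst.zero
  have h1 : multSeries (mulLaw K).toFG 2 = MvPowerSeries.subst
      ![(MvPowerSeries.subst ![(0 : PowerSeries K), PowerSeries.X] (mulLaw K).ps : PowerSeries K),
        PowerSeries.X] (mulLaw K).ps := rfl
  rw [h1, subst_mulLaw h0 hX, zero_add, zero_mul, add_zero, subst_mulLaw hX hX]
  ring

/-! ### The character -/

section chi

variable {E : MultTheory.{v}} (o : Orientation E) {K : Type} [CommRing K] (φ : E.A →+* K)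
  (I : Type) [Fintype I] [E.Good (CP I)] (x : K) (hx : x ^ Fintype.card I = 0)

theorem bijective_z : Function.Bijective fun c : Fin (Fintype.card I) → E.A =>
    ∑ i, c i • o.z I ^ (i : ℕ) :=
  (freeOn_z o _ I rfl).bijective_smul

theorem z_pow_card : o.z I ^ Fintype.card I = 0 := z_pow_eq_zero o _ I le_rfl

/-- The character. -/
def chi : E.U (CP I) →+* K := (exists_chi (z_pow_card o I) (bijective_z o I) φ hx).choose

theorem chi_algebraMap (a : E.A) : chi o φ I x hx (algebraMap E.A (E.U (CP I)) a) = φ a :=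
  (exists_chi (z_pow_card o I) (bijective_z o I) φ hx).choose_spec.1 a

theorem chi_z : chi o φ I x hx (o.z I) = x :=
  (exists_chi (z_pow_card o I) (bijective_z o I) φ hx).choose_spec.2

theorem chi_smul (a : E.A) (y : E.U (CP I)) :
    chi o φ I x hx (a • y) = φ a * chi o φ I x hx y := by
  rw [Algebra.smul_def, map_mul, chi_algebraMap]

theorem chi_nev1 (f : PowerSeries E.A) :
    chi o φ I x hx (nev1 (o.z I) f) = nev1 x (PowerSeries.map φ f) := by
  rw [map_nev1_semi φ (chi o φ I x hx) (chi_algebraMap o φ I x hx) ⟨_, z_pow_card o I⟩, chi_z]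

/-- The Euler class of the square of the tautological bundle goes to zero. -/
theorem chi_tpow_two (hlaw : o.law.map φ = mulLaw K) (hx2 : x = -2) :
    chi o φ I x hx (o.e (B := CP I) ((taut 1 I).tpow 2) ((taut_isRank 1 I).tpow1 2)) = 0 := by
  have hnil : ∀ _ : Unit, IsNilpotent x := fun _ => ⟨_, hx⟩
  have : GoodBase E (CP I) := inferInstance
  have h1 : o.e (B := CP I) ((taut 1 I).tpow 2) ((taut_isRank 1 I).tpow1 2) =
      nev1 (o.z I) (multSeries o.law.toFG 2) := by
    rw [e_tpow o (B := CP I) (hasLaw o) (taut 1 I) (taut_isRank 1 I) 2, e_taut_z]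
    rfl
  rw [h1, chi_nev1, map_multSeries]
  have h2 : o.law.toFG.map φ = (mulLaw K).toFG := congrArg Law.toFG hlaw
  rw [h2, multSeries_two]
  have h3 : (2 * PowerSeries.X + PowerSeries.X ^ 2 : PowerSeries K) =
      PowerSeries.X * (PowerSeries.C 2 + PowerSeries.X) := by
    rw [map_ofNat]
    ring
  have hX : nev1 x (PowerSeries.X : PowerSeries K) = x := nev1_X ⟨_, hx⟩
  have hC : nev1 x (PowerSeries.C (2 : K)) = 2 := nev_C hnil (2 : K)
  have hm : nev1 x (PowerSeries.X * (PowerSeries.C 2 + PowerSeries.X) : PowerSeries K) =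
      nev1 x (PowerSeries.X : PowerSeries K) *
        nev1 x (PowerSeries.C 2 + PowerSeries.X : PowerSeries K) := nev_mul hnil _ _
  have ha : nev1 x (PowerSeries.C 2 + PowerSeries.X : PowerSeries K) =
      nev1 x (PowerSeries.C (2 : K)) + nev1 x (PowerSeries.X : PowerSeries K) := nev_add hnil _ _
  rw [h3, hm, ha, hX, hC, hx2]
  ring

/-! ### Comparison of two orientations -/

variable (o' : Orientation E)

/-- The comparison series of two orientations. -/
def gcmp : InvSeries E.A :=
  CPSys.Coord.cmp (coordO o) (coordO o') (z_one_eq o' o)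

/-- The comparison series divided by the variable. -/
def gdiv : PowerSeries E.A := PowerSeries.mk fun i => (gcmp o o').c i

theorem gcmp_val : (gcmp o o').val = PowerSeries.X * gdiv o o' := by
  ext n
  rcases n with _ | n
  · rw [PowerSeries.coeff_zero_eq_constantCoeff_apply, (gcmp o o').cc,
      PowerSeries.coeff_zero_X_mul]
  · rw [PowerSeries.coeff_succ_X_mul, gdiv, PowerSeries.coeff_mk]
    rfl

/-- The ratio of the Thom classes of the tautological line bundle. -/
def rho : E.U (CP I) := nev1 (o.z I) (gdiv o o')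

theorem z_eq_rho_mul [DecidableEq I] [hI : Nonempty I] :
    o'.z I = rho o I o' * o.z I := by
  obtain ⟨n, hn⟩ : ∃ n, Fintype.card I = n + 1 :=
    ⟨Fintype.card I - 1, by have := Fintype.card_pos (α := I); omega⟩
  have : E.Good (CP (Fin (n + 1))) := good_gr_one o _
  have hz : IsNilpotent (o.z I) := ⟨_, z_pow_card o I⟩
  have h1 : o'.z (Fin (n + 1)) = nev1 (o.z (Fin (n + 1))) (gcmp o o').val :=
    CPSys.Coord.isCmp_cmp (coordO o) (coordO o') (z_one_eq o' o) n
  let e : I ≃ Fin (n + 1) := Fintype.equivFinOfCardEq hn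
  let f : E.U (CP (Fin (n + 1))) →ₐ[E.A] E.U (CP I) :=
    E.mapAlg (grMapC 1 (injMat e) (injMat_isom e.injective))
  have hf : ∀ o : Orientation E, f (o.z (Fin (n + 1))) = o.z I := fun o =>
    z_map o (injMat e) (injMat_isom e.injective)
  have h2 := congrArg f h1
  have hzn : IsNilpotent (o.z (Fin (n + 1))) := ⟨_, z_pow_card o (Fin (n + 1))⟩
  have h3 : f (nev1 (o.z (Fin (n + 1))) (gcmp o o').val) = nev1 (o.z I) (gcmp o o').val := by
    have := map_nev f (fun _ : Unit => hzn) (gcmp o o').val
    rw [hf] at this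
    exact this
  rw [hf, h3, gcmp_val] at h2
  rw [h2]
  have h4 : nev1 (o.z I) (PowerSeries.X * gdiv o o') =
      nev1 (o.z I) (PowerSeries.X : PowerSeries E.A) * nev1 (o.z I) (gdiv o o') :=
    nev_mul (fun _ : Unit => hz) _ _
  rw [h4, nev1_X hz, mul_comm]
  rfl

theorem chi_rho {u : Kˣ} (hu : (u : K) = 3) (hg : InvSeries.map φ (gcmp o o') = gser u hu)
    (hx2 : x = -2) : 3 * chi o φ I x hx (rho o I o') = 1 := by
  have hnil : ∀ _ : Unit, IsNilpotent x := fun _ => ⟨_, hx⟩
  rw [rho, chi_nev1]
  have h1 : PowerSeries.X * PowerSeries.map φ (gdiv o o') = (gser u hu).val := by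
    rw [← hg, InvSeries.map_val, gcmp_val, map_mul, PowerSeries.map_X]
  have h2 : PowerSeries.X * (PowerSeries.C (3 : K) * PowerSeries.map φ (gdiv o o')) =
      PowerSeries.X * (PowerSeries.C 3 + PowerSeries.X * (PowerSeries.C 3 + PowerSeries.X)) := by
    have h3 := gser_val u hu
    rw [← h1] at h3
    calc PowerSeries.X * (PowerSeries.C (3 : K) * PowerSeries.map φ (gdiv o o'))
        = PowerSeries.C (3 : K) * (PowerSeries.X * PowerSeries.map φ (gdiv o o')) := by ring
      _ = _ := by
        rw [h3, map_ofNat]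
        ring
  have h3 : PowerSeries.C (3 : K) * PowerSeries.map φ (gdiv o o') =
      PowerSeries.C 3 + PowerSeries.X * (PowerSeries.C 3 + PowerSeries.X) :=
    PowerSeries.X_mul_cancel h2
  have hX : nev1 x (PowerSeries.X : PowerSeries K) = x := nev1_X ⟨_, hx⟩
  have hC : nev1 x (PowerSeries.C (3 : K)) = 3 := nev_C hnil (3 : K)
  have hmul : ∀ f g : PowerSeries K, nev1 x (f * g) = nev1 x f * nev1 x g := nev_mul hnil
  have hadd : ∀ f g : PowerSeries K, nev1 x (f + g) = nev1 x f + nev1 x g := nev_add hnil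
  have h4 := congrArg (fun f : PowerSeries K => nev1 x f) h3
  simp only [hmul, hadd, hX, hC] at h4
  rw [h4, hx2]
  ring

end chi

end Vale.Agent.P263.AD
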