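import Vale.Agent.P251.M.PiZero
import Vale.Agent.P263.T0.Add
import Vale.Agent.P263.T0.SphH

/-!
# P263, block AD (ADG): stable degree, Brouwer degree and mod 2 homology of self maps of spheres

For `φ : LC.of E ⟶ LC.of E` (`E` a Euclidean space of dimension `n > 0`):

* `exists_degree` : there are `k : ℕ` and `m : ℤ` with `H_n(φ; 𝔽₂) = k`, `deg φ = m`, `m ≡ k (2)`;
* `deg_eq_of_S` : if `S φ = m` in a tensor triangulated category with a suspension spectrum functor
  then `deg φ = m`;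
* `H_eq_zero_iff_even` : if `S φ = m` then `H_n(φ; 𝔽₂) = 0` iff `m` is even.
-/

open CategoryTheory MonoidalCategory Limits Pretriangulated ZeroObject OnePoint Set Topology
open Vale.Agent.P251.T Vale.Agent.P251.S Vale.Agent.P251.H Vale.Agent.P251.G
  Vale.Agent.P251.G.LC Vale.Agent.P251.I Vale.Agent.P251.M

set_option linter.unusedSectionVars false

universe v u

namespace Vale.Agent.P263.AD.DG

open Vale.Agent.P263.T0 (H RF2 H_map_homotopy H_map_const H_map_add_of_cover hom_add_self)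

section Hom

/-- The pointed map underlying a morphism of `LC`, as a morphism of topological spaces. -/
def hm {X Y : LC} (f : X ⟶ Y) : TopCat.of (OnePoint X) ⟶ TopCat.of (OnePoint Y) :=
  TopCat.ofHom (Hom.toMap f)

@[simp] theorem hm_apply {X Y : LC} (f : X ⟶ Y) (x : OnePoint X) : hm f x = app f x := rfl

theorem hm_id (X : LC) : hm (𝟙 X) = 𝟙 (TopCat.of (OnePoint X)) := rfl

theorem hm_comp {X Y Z : LC} (f : X ⟶ Y) (g : Y ⟶ Z) : hm (f ≫ g) = hm f ≫ hm g := rfl

/-- the map in mod 2 homology -/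
noncomputable abbrev Hm (n : ℕ) {X Y : LC} (f : X ⟶ Y) :
    (H n).obj (TopCat.of (OnePoint X)) ⟶ (H n).obj (TopCat.of (OnePoint Y)) := (H n).map (hm f)

theorem Hm_id (n : ℕ) (X : LC) : Hm n (𝟙 X) = 𝟙 _ := by rw [Hm, hm_id, CategoryTheory.Functor.map_id]

theorem Hm_comp (n : ℕ) {X Y Z : LC} (f : X ⟶ Y) (g : Y ⟶ Z) :
    Hm n (f ≫ g) = Hm n f ≫ Hm n g := by rw [Hm, hm_comp, Functor.map_comp]

theorem Hm_homotopic (n : ℕ) {X Y : LC} {f g : X ⟶ Y} (h : Homotopic f g) : Hm n f = Hm n g := by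
  obtain ⟨F⟩ := (homotopic_iff f g).1 h
  have F' : TopCat.Homotopy (hm f) (hm g) := F.toHomotopy
  exact H_map_homotopy F' n

theorem Hm_zero {n : ℕ} (hn : n ≠ 0) (X Y : LC) : Hm n (0 : X ⟶ Y) = 0 := by
  have e : hm (0 : X ⟶ Y) =
      TopCat.ofHom (ContinuousMap.const (OnePoint X) (∞ : OnePoint Y)) := by
    apply TopCat.hom_ext
    apply ContinuousMap.ext
    intro x
    change app (0 : X ⟶ Y) x = ∞
    rw [app_zero]
  rw [Hm, e]
  exact H_map_const (S := TopCat.of (OnePoint X)) (X := TopCat.of (OnePoint Y)) _ hn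

end Hom

section Add

variable {E : Type} [NormedAddCommGroup E] [NormedSpace ℝ E] [FiniteDimensional ℝ E]
  [ProperSpace E]

/-- the collapse of all copies onto their unit balls -/
noncomputable def kappa (k : ℕ) : finProd (LC.of E) k ⟶ finProd (LC.of E) k :=
  𝟙 (LC.of (Fin k)) ⊗ₘ collapseBall (0 : E) 1 one_pos

theorem homotopic_kappa (k : ℕ) : Homotopic (kappa (E := E) k) (𝟙 (finProd (LC.of E) k)) := by
  have h := Homotopic.tensor (Homotopic.refl (𝟙 (LC.of (Fin k))))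
    (homotopic_collapseBall (0 : E) one_pos)
  rw [id_tensorHom_id] at h
  exact h

theorem app_kappa (k : ℕ) (i : Fin k) (y : E) :
    app (kappa (E := E) k) (((i, y) : Fin k × E) : OnePoint (Fin k × E)) =
      smash (i : OnePoint (Fin k)) (app (collapseBall (0 : E) 1 one_pos) (y : OnePoint E)) := rfl

theorem app_kappa_of_lt (k : ℕ) (i : Fin k) {y : E} (hy : 1 < ‖y‖) :
    app (kappa (E := E) k) (((i, y) : Fin k × E) : OnePoint (Fin k × E)) = ∞ := by
  rw [app_kappa]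
  have h : app (collapseBall (0 : E) 1 one_pos) (y : OnePoint E) = ∞ := by
    refine app_ofOpen_of_notMem (X := LC.of E) (Y := LC.of E) (ballEmb 0 1)
      (isOpenEmbedding_ballEmb 0 one_pos) (x := y) ?_
    intro h
    rw [mem_range_ballEmb' 0 one_pos, mem_ball_zero_iff] at h
    linarith
  rw [h, smash_infty_right]

/-- the closed unit balls of the copies in `S` -/
def cbl (k : ℕ) (S : Set (Fin k)) : Set (OnePoint (Fin k × E)) :=
  (↑) '' (S ×ˢ Metric.closedBall (0 : E) 1)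

theorem isClosed_cbl (k : ℕ) (S : Set (Fin k)) : IsClosed (cbl (E := E) k S) := by
  have : IsCompact (S ×ˢ Metric.closedBall (0 : E) 1) :=
    (Set.toFinite S).isCompact.prod (isCompact_closedBall _ _)
  exact (this.image OnePoint.continuous_coe).isClosed

theorem mem_cbl {k : ℕ} {S : Set (Fin k)} {i : Fin k} {y : E} (hi : i ∈ S) (hy : ‖y‖ ≤ 1) :
    (((i, y) : Fin k × E) : OnePoint (Fin k × E)) ∈ cbl (E := E) k S :=
  ⟨(i, y), ⟨hi, mem_closedBall_zero_iff.2 hy⟩, rfl⟩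

theorem fst_of_mem_cbl {k : ℕ} {S : Set (Fin k)} {p : Fin k × E}
    (h : (p : OnePoint (Fin k × E)) ∈ cbl (E := E) k S) : p.1 ∈ S := by
  obtain ⟨q, hq, h⟩ := h
  rw [OnePoint.coe_eq_coe.1 h] at hq
  exact hq.1

theorem app_finDrop_finCast (k : ℕ) {Y : LC} (g : finProd (LC.of E) (k + 1) ⟶ Y) (j : Fin k)
    (z : OnePoint E) :
    app (finDrop (LC.of E) k ≫ finCast (LC.of E) k ≫ g)
      (smash ((j.castSucc : Fin (k + 1)) : OnePoint (Fin (k + 1))) z) =
      app g (smash ((j.castSucc : Fin (k + 1)) : OnePoint (Fin (k + 1))) z) := by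
  induction z using OnePoint.rec with
  | infty => rw [smash_infty_right]; exact (app_infty _).trans (app_infty _).symm
  | coe z =>
    rw [smash_coe_coe, app_comp, app_comp, app_finDrop_castSucc, app_finCast_coe]

theorem app_finDrop_finCast_last (k : ℕ) {Y : LC} (g : finProd (LC.of E) (k + 1) ⟶ Y)
    (z : OnePoint E) :
    app (finDrop (LC.of E) k ≫ finCast (LC.of E) k ≫ g)
      (smash ((Fin.last k : Fin (k + 1)) : OnePoint (Fin (k + 1))) z) = ∞ := by
  induction z using OnePoint.rec with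
  | infty => rw [smash_infty_right]; exact app_infty _
  | coe z =>
    rw [smash_coe_coe, app_comp, app_comp, app_finDrop_last, app_infty, app_infty]

theorem app_finColl_finIncl (k : ℕ) {Y : LC} (g : finProd (LC.of E) (k + 1) ⟶ Y)
    (z : OnePoint E) :
    app (finColl (LC.of E) (k + 1) (Fin.last k) ≫ finIncl (LC.of E) (k + 1) (Fin.last k) ≫ g)
      (smash ((Fin.last k : Fin (k + 1)) : OnePoint (Fin (k + 1))) z) =
      app g (smash ((Fin.last k : Fin (k + 1)) : OnePoint (Fin (k + 1))) z) := by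
  induction z using OnePoint.rec with
  | infty => rw [smash_infty_right]; exact (app_infty _).trans (app_infty _).symm
  | coe z =>
    rw [smash_coe_coe, app_comp, app_comp, app_finColl_same, app_finIncl_coe]

theorem app_finColl_finIncl_cast (k : ℕ) {Y : LC} (g : finProd (LC.of E) (k + 1) ⟶ Y)
    (j : Fin k) (z : OnePoint E) :
    app (finColl (LC.of E) (k + 1) (Fin.last k) ≫ finIncl (LC.of E) (k + 1) (Fin.last k) ≫ g)
      (smash ((j.castSucc : Fin (k + 1)) : OnePoint (Fin (k + 1))) z) = ∞ := by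
  induction z using OnePoint.rec with
  | infty => rw [smash_infty_right]; exact app_infty _
  | coe z =>
    rw [smash_coe_coe, app_comp, app_comp, app_finColl_ne _ _ (Fin.castSucc_lt_last j).ne,
      app_infty, app_infty]

theorem split1 (k : ℕ) {Y : LC} (g : finProd (LC.of E) (k + 1) ⟶ Y)
    (x : OnePoint (Fin (k + 1) × E)) (hx : x ∉ cbl (E := E) (k + 1) {Fin.last k}) :
    app (kappa (k + 1) ≫ g) x =
      app (kappa (k + 1) ≫ finDrop (LC.of E) k ≫ finCast (LC.of E) k ≫ g) x := by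
  induction x using OnePoint.rec with
  | infty => exact (app_infty _).trans (app_infty _).symm
  | coe p =>
    obtain ⟨i, y⟩ := p
    rw [app_comp, app_comp]
    by_cases hy : 1 < ‖y‖
    · rw [app_kappa_of_lt _ _ hy, app_infty, app_infty]
    · rw [app_kappa]
      induction i using Fin.lastCases with
      | last => exact absurd (mem_cbl (mem_singleton _) (not_lt.1 hy)) hx
      | cast j => exact (app_finDrop_finCast k g j _).symm

theorem split2 (k : ℕ) {Y : LC} (g : finProd (LC.of E) (k + 1) ⟶ Y)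
    (x : OnePoint (Fin (k + 1) × E)) (hx : x ∉ cbl (E := E) (k + 1) {Fin.last k}) :
    app (kappa (k + 1) ≫ finColl (LC.of E) (k + 1) (Fin.last k) ≫
        finIncl (LC.of E) (k + 1) (Fin.last k) ≫ g) x =
      app (0 : finProd (LC.of E) (k + 1) ⟶ Y) x := by
  induction x using OnePoint.rec with
  | infty => exact (app_infty _).trans (app_infty _).symm
  | coe p =>
    obtain ⟨i, y⟩ := p
    rw [app_comp, app_zero]
    by_cases hy : 1 < ‖y‖
    · rw [app_kappa_of_lt _ _ hy, app_infty]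
    · rw [app_kappa]
      induction i using Fin.lastCases with
      | last => exact absurd (mem_cbl (mem_singleton _) (not_lt.1 hy)) hx
      | cast j => exact app_finColl_finIncl_cast k g j _

theorem split3 (k : ℕ) {Y : LC} (g : finProd (LC.of E) (k + 1) ⟶ Y)
    (x : OnePoint (Fin (k + 1) × E)) (hx : x ∉ cbl (E := E) (k + 1) {Fin.last k}ᶜ) :
    app (kappa (k + 1) ≫ g) x =
      app (kappa (k + 1) ≫ finColl (LC.of E) (k + 1) (Fin.last k) ≫
        finIncl (LC.of E) (k + 1) (Fin.last k) ≫ g) x := by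
  induction x using OnePoint.rec with
  | infty => exact (app_infty _).trans (app_infty _).symm
  | coe p =>
    obtain ⟨i, y⟩ := p
    rw [app_comp, app_comp]
    by_cases hy : 1 < ‖y‖
    · rw [app_kappa_of_lt _ _ hy, app_infty, app_infty]
    · rw [app_kappa]
      induction i using Fin.lastCases with
      | last => exact (app_finColl_finIncl k g _).symm
      | cast j => exact absurd (mem_cbl (Fin.castSucc_lt_last j).ne (not_lt.1 hy)) hx

theorem split4 (k : ℕ) {Y : LC} (g : finProd (LC.of E) (k + 1) ⟶ Y)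
    (x : OnePoint (Fin (k + 1) × E)) (hx : x ∉ cbl (E := E) (k + 1) {Fin.last k}ᶜ) :
    app (kappa (k + 1) ≫ finDrop (LC.of E) k ≫ finCast (LC.of E) k ≫ g) x =
      app (0 : finProd (LC.of E) (k + 1) ⟶ Y) x := by
  induction x using OnePoint.rec with
  | infty => exact (app_infty _).trans (app_infty _).symm
  | coe p =>
    obtain ⟨i, y⟩ := p
    rw [app_comp, app_zero]
    by_cases hy : 1 < ‖y‖
    · rw [app_kappa_of_lt _ _ hy, app_infty]
    · rw [app_kappa]
      induction i using Fin.lastCases with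
      | last => exact app_finDrop_finCast_last k g _
      | cast j => exact absurd (mem_cbl (Fin.castSucc_lt_last j).ne (not_lt.1 hy)) hx

/-- The last copy splits off in homology. -/
theorem Hm_split {n : ℕ} (hn : n ≠ 0) (k : ℕ) {Y : LC} (g : finProd (LC.of E) (k + 1) ⟶ Y) :
    Hm n g = Hm n (finDrop (LC.of E) k ≫ finCast (LC.of E) k ≫ g) +
      Hm n (finColl (LC.of E) (k + 1) (Fin.last k) ≫
        finIncl (LC.of E) (k + 1) (Fin.last k) ≫ g) := by
  have hk : ∀ {Z : LC} (f : finProd (LC.of E) (k + 1) ⟶ Z), Hm n (kappa (k + 1) ≫ f) = Hm n f := by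
    intro Z f
    rw [Hm_comp, Hm_homotopic n (homotopic_kappa (k + 1)), Hm_id, Category.id_comp]
  have key := H_map_add_of_cover (hm (kappa (E := E) (k + 1) ≫ g))
    (hm (kappa (k + 1) ≫ finDrop (LC.of E) k ≫ finCast (LC.of E) k ≫ g))
    (hm (kappa (k + 1) ≫ finColl (LC.of E) (k + 1) (Fin.last k) ≫
        finIncl (LC.of E) (k + 1) (Fin.last k) ≫ g))
    (hm (0 : finProd (LC.of E) (k + 1) ⟶ Y))
    (U := (cbl (E := E) (k + 1) {Fin.last k})ᶜ) (V := (cbl (E := E) (k + 1) {Fin.last k}ᶜ)ᶜ)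
    (isClosed_cbl _ _).isOpen_compl (isClosed_cbl _ _).isOpen_compl (by
      intro x
      by_cases hx : x ∈ cbl (E := E) (k + 1) {Fin.last k}
      · right
        intro h
        obtain ⟨p, hp, rfl⟩ := h
        exact hp.1 (fst_of_mem_cbl hx)
      · exact Or.inl hx)
    (split1 k g) (split2 k g) (split3 k g) (split4 k g) n
  have h0 : Hm n (0 : finProd (LC.of E) (k + 1) ⟶ Y) = 0 := Hm_zero hn _ _
  change Hm n _ + Hm n _ + (Hm n _ + Hm n _) = 0 at key
  rw [hk, hk, hk, h0, add_zero] at key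
  set a := Hm n g
  set b := Hm n (finDrop (LC.of E) k ≫ finCast (LC.of E) k ≫ g)
  set c := Hm n (finColl (LC.of E) (k + 1) (Fin.last k) ≫
      finIncl (LC.of E) (k + 1) (Fin.last k) ≫ g)
  have e1 := hom_add_self b
  have e2 := hom_add_self c
  calc a = (a + b + c) + (b + c) - (b + b) - (c + c) := by abel
    _ = b + c := by rw [key, e1, e2]; abel

/-- Morphisms out of a disjoint union of copies of `E` in mod 2 homology. -/
theorem Hm_finProd {n : ℕ} (hn : n ≠ 0) : ∀ (k : ℕ) {Y : LC} (g : finProd (LC.of E) k ⟶ Y),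
    Hm n g = ∑ i : Fin k, Hm n (finColl (LC.of E) k i ≫ finIncl (LC.of E) k i ≫ g)
  | 0, Y, g => by
    have : g = 0 := by
      apply hom_ext
      rintro ⟨i, _⟩
      exact i.elim0
    rw [this, Hm_zero hn, Finset.univ_eq_empty, Finset.sum_empty]
  | k + 1, Y, g => by
    rw [Hm_split hn k g, Fin.sum_univ_castSucc]
    congr 1
    rw [Hm_comp, Hm_finProd hn k (finCast (LC.of E) k ≫ g), Preadditive.comp_sum]
    refine Finset.sum_congr rfl fun i _ => ?_
    rw [← Hm_comp, ← finIncl_castSucc, Category.assoc, ← finDrop_finColl, Category.assoc]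

end Add

section Degree

variable {E : Type} [NormedAddCommGroup E] [NormedSpace ℝ E] [FiniteDimensional ℝ E]
  [ProperSpace E]

theorem eq_id_of_isIso {M : ModuleCat.{0} (ZMod 2)} (z : M) (hz : ∀ x : M, x = 0 ∨ x = z)
    (g : M ⟶ M) [IsIso g] : g = 𝟙 M := by
  ext x
  rcases hz x with rfl | rfl
  · exact map_zero g.hom
  · change g.hom x = x
    by_cases hx : x = 0
    · rw [hx]; exact map_zero g.hom
    · refine (hz (g.hom x)).resolve_left fun h => hx ?_
      have h1 : (inv g).hom (g.hom x) = x := by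
        have := congrArg (fun q : M ⟶ M => q.hom x) (IsIso.hom_inv_id g)
        exact this
      rw [← h1, h]
      exact map_zero (inv g).hom

/-- the isomorphism in homology induced by a linear isomorphism -/
noncomputable def linIso {F : Type} [NormedAddCommGroup F] [NormedSpace ℝ F]
    [FiniteDimensional ℝ F] [ProperSpace F] (a : E ≃L[ℝ] F) : LC.of E ≅ LC.of F where
  hom := lin a
  inv := lin a.symm
  hom_inv_id := by
    rw [← lin_trans, ContinuousLinearEquiv.self_trans_symm, lin_refl]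
  inv_hom_id := by
    rw [← lin_trans, ContinuousLinearEquiv.symm_trans_self, lin_refl]

instance isIso_Hm (n : ℕ) {X Y : LC} (e : X ⟶ Y) [IsIso e] : IsIso (Hm n e) :=
  ⟨Hm n (inv e), by rw [← Hm_comp, IsIso.hom_inv_id, Hm_id],
    by rw [← Hm_comp, IsIso.inv_hom_id, Hm_id]⟩

instance isIso_lin {F : Type} [NormedAddCommGroup F] [NormedSpace ℝ F]
    [FiniteDimensional ℝ F] [ProperSpace F] (a : E ≃L[ℝ] F) : IsIso (lin a) :=
  inferInstanceAs (IsIso (linIso a).hom)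

/-- the top homology of the compactification of `E` has one element besides zero -/
theorem exists_gen {n : ℕ} (hn : 0 < n) (hE : Module.finrank ℝ E = n) :
    ∃ z : (H n).obj (TopCat.of (OnePoint (LC.of E))), z ≠ 0 ∧ ∀ x, x = 0 ∨ x = z := by
  have e0 : Module.finrank ℝ E = Module.finrank ℝ (Fin n → ℝ) := by
    rw [hE, Module.finrank_fin_fun]
  let e : E ≃L[ℝ] (Fin n → ℝ) := ContinuousLinearEquiv.ofFinrankEq e0
  have hi := isIso_Hm n (lin e.symm)
  have hi' := isIso_Hm n (lin e)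
  have h1 : ∀ x, (Hm n (lin e.symm)).hom ((Hm n (lin e)).hom x) = x := by
    intro x
    have : Hm n (lin e) ≫ Hm n (lin e.symm) = 𝟙 _ := by
      rw [← Hm_comp, ← lin_trans, ContinuousLinearEquiv.self_trans_symm, lin_refl, Hm_id]
    exact congrArg (fun q => q.hom x) this
  have h2 : ∀ x, (Hm n (lin e)).hom ((Hm n (lin e.symm)).hom x) = x := by
    intro x
    have : Hm n (lin e.symm) ≫ Hm n (lin e) = 𝟙 _ := by
      rw [← Hm_comp, ← lin_trans, ContinuousLinearEquiv.symm_trans_self, lin_refl, Hm_id]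
    exact congrArg (fun q => q.hom x) this
  refine ⟨(Hm n (lin e.symm)).hom (T0.SphH.iota hn), fun h => ?_, fun x => ?_⟩
  · refine T0.SphH.iota_ne_zero hn ?_
    have h3 := h2 (T0.SphH.iota hn)
    rw [h] at h3
    rw [← h3]
    exact map_zero _
  · rcases T0.SphH.eq_zero_or_iota hn ((Hm n (lin e)).hom x) with h | h
    · left
      rw [← h1 x, h]
      exact map_zero _
    · right
      rw [← h1 x, h]

theorem Hm_lin {n : ℕ} (hn : 0 < n) (hE : Module.finrank ℝ E = n) (a : E ≃L[ℝ] E) :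
    Hm n (lin a) = 𝟙 _ := by
  obtain ⟨z, -, hz⟩ := exists_gen hn hE
  have hi : IsIso (Hm n (lin a)) := isIso_Hm n (lin a)
  exact @eq_id_of_isIso ((H n).obj (TopCat.of (OnePoint (LC.of E)))) z hz (Hm n (lin a)) hi

theorem deg_lin (a : E ≃L[ℝ] E) : ∃ ε : ℤ, Odd ε ∧ deg (lin a) = ε := by
  have h : deg (lin a) = (Vale.Agent.P205.TI.Deg.sg (a : E →L[ℝ] E).det : ℝ) := deg_linear a
  have hdet : (a : E →L[ℝ] E).det ≠ 0 := a.toLinearEquiv.isUnit_det'.ne_zero
  rcases lt_or_gt_of_ne hdet with h1 | h1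
  · refine ⟨-1, by decide, ?_⟩
    rw [h, Vale.Agent.P205.TI.Deg.sg_neg h1]
  · refine ⟨1, by decide, ?_⟩
    rw [h, Vale.Agent.P205.TI.Deg.sg_pos h1]

/-- **Homological degree and Brouwer degree.** -/
theorem exists_degree {n : ℕ} (hn : 0 < n) (hE : Module.finrank ℝ E = n)
    (φ : LC.of E ⟶ LC.of E) : ∃ (k : ℕ) (m : ℤ), Hm n φ = k • 𝟙 _ ∧ deg φ = m ∧
      (m : ZMod 2) = (k : ZMod 2) := by
  obtain ⟨k, a, c, hc, hf⟩ := exists_branches φ
  choose ε hε1 hε2 using fun i => deg_lin (a i)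
  refine ⟨k, ∑ i, ε i, ?_, ?_, ?_⟩
  · rw [Hm_homotopic n hf, Hm_comp, Hm_finProd hn.ne' k (fold a), Preadditive.comp_sum]
    have h1 : ∀ i : Fin k, Hm n c ≫ Hm n (finColl (LC.of E) k i ≫ finIncl (LC.of E) k i ≫ fold a) =
        𝟙 _ := by
      intro i
      have h2 : finIncl (LC.of E) k i ≫ fold a = lin (a i) := by
        apply hom_ext
        intro x
        rfl
      rw [h2, ← Hm_comp, ← Category.assoc, Hm_comp, Hm_lin hn hE, Category.comp_id]
      have h3 : Homotopic (c ≫ finColl (LC.of E) k i) (𝟙 (LC.of E)) := hc i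
      rw [Hm_homotopic n h3, Hm_id]
    rw [Finset.sum_congr rfl fun i _ => h1 i, Finset.sum_const, Finset.card_univ,
      Fintype.card_fin]
  · have h4 : ∀ i, deg (c ≫ comp' i ≫ lin (a i)) = ε i := by
      intro i
      rw [← hε2 i]
      refine deg_homotopic ?_
      have := (hc i).comp_right (lin (a i))
      rw [Category.id_comp, Category.assoc] at this
      exact this
    rw [deg_homotopic hf, deg_sum Finset.univ (g := fun i => c ≫ comp' i ≫ lin (a i))
      (U := fun i => {x : E | ∃ y : E, app c (x : OnePoint E) =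
        (((i, y) : Fin k × E) : OnePoint (Fin k × E))}) ?_ ?_ ?_ ?_]
    · rw [Finset.sum_congr rfl fun i _ => h4 i]
      push_cast
      rfl
    · intro i _ j _ hij
      refine Set.disjoint_left.2 ?_
      rintro x ⟨y, hy⟩ ⟨y', hy'⟩
      rw [hy] at hy'
      exact hij (Prod.ext_iff.1 (OnePoint.coe_eq_coe.1 hy')).1
    · rintro i _ x ⟨y, hy⟩
      rw [app_comp, app_comp, app_comp, hy]
      have h5 : app (comp' i) (((i, y) : Fin k × E) : OnePoint (Fin k × E)) = (y : OnePoint E) :=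
        app_finColl_same (LC.of E) k i y
      rw [h5]
      rfl
    · intro i _ x hx
      rw [app_comp, app_comp]
      have h5 : app (comp' i) (app c (x : OnePoint E)) = (∞ : OnePoint E) := by
        generalize h6 : app c (x : OnePoint E) = w
        induction w using OnePoint.rec with
        | infty => exact app_infty _
        | coe p =>
          obtain ⟨j, y⟩ := p
          have hij : j ≠ i := by
            rintro rfl
            exact hx ⟨y, h6⟩
          exact app_finColl_ne (LC.of E) k hij y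
      rw [h5, app_infty]
    · intro x hx
      rw [app_comp]
      generalize h6 : app c (x : OnePoint E) = w
      induction w using OnePoint.rec with
      | infty => exact app_infty _
      | coe p =>
        obtain ⟨j, y⟩ := p
        exact absurd ⟨y, h6⟩ (hx j (Finset.mem_univ j))
  · rw [Int.cast_sum]
    have h7 : ∀ i, ((ε i : ℤ) : ZMod 2) = 1 := by
      intro i
      obtain ⟨r, hr⟩ := hε1 i
      rw [hr]
      push_cast
      rw [show (2 : ZMod 2) = 0 from rfl, zero_mul, zero_add]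
    rw [Finset.sum_congr rfl fun i _ => h7 i]
    simp

/-- the mod 2 homology of a self map in terms of an integral degree -/
theorem Hm_eq_zero_iff {n : ℕ} (hn : 0 < n) (hE : Module.finrank ℝ E = n)
    (φ : LC.of E ⟶ LC.of E) {m : ℤ} (h : deg φ = m) : Hm n φ = 0 ↔ Even m := by
  obtain ⟨k, m', h1, h2, h3⟩ := exists_degree hn hE φ
  have hm : m = m' := by
    rw [h] at h2
    exact_mod_cast h2
  subst hm
  have h4 : (Hm n φ = 0) ↔ ((k : ℕ) : ZMod 2) = 0 := by
    have h5 : Hm n φ = ((k : ℕ) : ZMod 2) • 𝟙 _ := by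
      rw [h1, Nat.cast_smul_eq_nsmul]
    constructor
    · intro h6
      obtain ⟨z, hz0, -⟩ := exists_gen hn hE
      rw [h5] at h6
      have h7 : ((k : ℕ) : ZMod 2) • z = 0 := by
        have := congrArg (fun q => q.hom z) h6
        exact this
      rcases T0.SphH.zmod_two ((k : ℕ) : ZMod 2) with h8 | h8
      · exact h8
      · rw [h8, one_smul] at h7
        exact absurd h7 hz0
    · intro h6
      rw [h5, h6, zero_smul]
  rw [h4, ← h3, ZMod.intCast_zmod_eq_zero_iff_dvd, even_iff_two_dvd]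
  rfl

end Degree

section Stable

variable {T : Type u} [Category.{v} T] [Preadditive T] [HasZeroObject T]
    [HasShift T ℤ] [∀ n : ℤ, (shiftFunctor T n).Additive] [Pretriangulated T]
    [MonoidalCategory T] [SymmetricCategory T] [TensorTriangulated T] (F : SpaceFunctor T)

theorem zsmul_whiskerRight' {X Y : T} (m : ℤ) (f : X ⟶ Y) (Z : T) :
    (m • f) ▷ Z = m • (f ▷ Z) := ((tensoringRight T).obj Z).map_zsmul (f := f) (r := m)

theorem whiskerLeft_zsmul' (Z : T) {X Y : T} (m : ℤ) (f : X ⟶ Y) :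
    Z ◁ (m • f) = m • (Z ◁ f) := ((tensoringLeft T).obj Z).map_zsmul (f := f) (r := m)

theorem S_whiskerRight_zsmul {X : FCat} (Y : FCat) {f : X ⟶ X} {a : ℤ}
    (hf : F.S.map f = a • 𝟙 (F.S.obj X)) : F.S.map (f ▷ Y) = a • 𝟙 (F.S.obj (X ⊗ Y)) := by
  rw [S_whiskerRight, hf, zsmul_whiskerRight', id_whiskerRight, Preadditive.zsmul_comp,
    Category.id_comp, Preadditive.comp_zsmul, Iso.inv_hom_id]

theorem S_whiskerLeft_zsmul (X : FCat) {Y : FCat} {g : Y ⟶ Y} {b : ℤ}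
    (hg : F.S.map g = b • 𝟙 (F.S.obj Y)) : F.S.map (X ◁ g) = b • 𝟙 (F.S.obj (X ⊗ Y)) := by
  rw [S_whiskerLeft, hg, whiskerLeft_zsmul', whiskerLeft_id, Preadditive.zsmul_comp,
    Category.id_comp, Preadditive.comp_zsmul, Iso.inv_hom_id]

theorem S_tensor_zsmul {X Y : FCat} {f : X ⟶ X} {g : Y ⟶ Y} {a b : ℤ}
    (hf : F.S.map f = a • 𝟙 (F.S.obj X)) (hg : F.S.map g = b • 𝟙 (F.S.obj Y)) :
    F.S.map (f ⊗ₘ g) = (a * b) • 𝟙 (F.S.obj (X ⊗ Y)) := by
  rw [MonoidalCategory.tensorHom_def, Functor.map_comp, S_whiskerRight_zsmul F Y hf,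
    S_whiskerLeft_zsmul F X hg, Preadditive.zsmul_comp, Category.id_comp, smul_smul]

/-- the swap of the plane -/
def sw : (ℝ × ℝ) ≃L[ℝ] (ℝ × ℝ) := ContinuousLinearEquiv.prodComm ℝ ℝ ℝ

theorem det_sw : (sw : (ℝ × ℝ) →L[ℝ] (ℝ × ℝ)).det = -1 := by
  rw [ContinuousLinearMap.det, ← LinearMap.det_toMatrix (Module.Basis.finTwoProd ℝ),
    Matrix.det_fin_two]
  simp [LinearMap.toMatrix_apply, sw]

theorem deg_sw : LC.deg (lin sw) = -1 := by
  have h0 : LC.deg (lin sw) =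
      (Vale.Agent.P205.TI.Deg.sg (sw : (ℝ × ℝ) →L[ℝ] (ℝ × ℝ)).det : ℝ) := deg_linear sw
  rw [h0, det_sw, Vale.Agent.P205.TI.Deg.sg_neg (by norm_num)]
  norm_num

theorem braiding_eq : (β_ RR RR).hom = (lin sw : LC.of (ℝ × ℝ) ⟶ LC.of (ℝ × ℝ)) := by
  apply hom_ext
  rintro ⟨x, y⟩
  rfl

theorem deg_mfold_id (n : ℕ) :
    LC.deg (E := ℝ × (ℝ × ℝ)) (mfold n ⊗ₘ 𝟙 (LC.of (ℝ × ℝ))) = n := by
  have h : LC.deg (E := ℝ × (ℝ × ℝ)) (mfold n ⊗ₘ 𝟙 (LC.of (ℝ × ℝ))) =
      LC.deg (mfold n) * LC.deg (𝟙 (LC.of (ℝ × ℝ))) := deg_tensor _ _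
  rw [h, deg_mfold, LC.deg_id, mul_one]

theorem deg_mfold_sw (n : ℕ) :
    LC.deg (E := ℝ × (ℝ × ℝ)) (mfold n ⊗ₘ lin sw) = -n := by
  have h : LC.deg (E := ℝ × (ℝ × ℝ)) (mfold n ⊗ₘ lin sw) =
      LC.deg (mfold n) * LC.deg (lin sw) := deg_tensor _ _
  rw [h, deg_mfold, deg_sw, mul_neg_one]

/-- Every integer is realized on `ℝ × (ℝ × ℝ)`. -/
theorem exists_int_map (m : ℤ) : ∃ ψ : LC.of (ℝ × (ℝ × ℝ)) ⟶ LC.of (ℝ × (ℝ × ℝ)),
    F.S.map (FCat.hom ψ : (RRF ⊗ (RRF ⊗ RRF) : FCat) ⟶ RRF ⊗ (RRF ⊗ RRF)) = m • 𝟙 _ ∧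
      LC.deg ψ = m := by
  obtain ⟨n, rfl | rfl⟩ := m.eq_nat_or_neg
  · refine ⟨mfold n ⊗ₘ 𝟙 (LC.of (ℝ × ℝ)), ?_, ?_⟩
    · have h := S_tensor_zsmul F (S_mfold F n) (b := 1) (g := 𝟙 (RRF ⊗ RRF))
        (by rw [F.S.map_id, one_smul])
      rw [mul_one] at h
      exact h
    · rw [deg_mfold_id]
      push_cast
      rfl
  · refine ⟨mfold n ⊗ₘ lin sw, ?_, ?_⟩
    · have h := S_tensor_zsmul F (S_mfold F n) (b := -1) (g := (β_ RRF RRF).hom)
        (by rw [S_swap, neg_one_smul])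
      rw [mul_neg_one] at h
      rw [← h]
      congr 1
    · rw [deg_mfold_sw]
      push_cast
      ring

variable {E : Type} [NormedAddCommGroup E] [NormedSpace ℝ E] [FiniteDimensional ℝ E]
  [ProperSpace E]

theorem deg_id_tensor (ψ : LC.of (ℝ × (ℝ × ℝ)) ⟶ LC.of (ℝ × (ℝ × ℝ))) (j : ℕ) :
    LC.deg (E := (E × (ℝ × (ℝ × ℝ))) × (Fin j → ℝ))
      ((𝟙 (LC.of E) ⊗ₘ ψ) ▷ LC.of (Fin j → ℝ)) = LC.deg ψ := by
  have h3 : LC.deg (E := (E × (ℝ × (ℝ × ℝ))) × (Fin j → ℝ))
      ((𝟙 (LC.of E) ⊗ₘ ψ) ▷ LC.of (Fin j → ℝ)) =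
      LC.deg (E := E × (ℝ × (ℝ × ℝ))) (𝟙 (LC.of E) ⊗ₘ ψ) := deg_whiskerRight _
  have h4 : LC.deg (E := E × (ℝ × (ℝ × ℝ))) (𝟙 (LC.of E) ⊗ₘ ψ) =
      LC.deg (𝟙 (LC.of E)) * LC.deg ψ := deg_tensor _ _
  rw [h3, h4, LC.deg_id, one_mul]

theorem deg_tensor_id (φ : LC.of E ⟶ LC.of E) (j : ℕ) :
    LC.deg (E := (E × (ℝ × (ℝ × ℝ))) × (Fin j → ℝ))
      ((φ ⊗ₘ 𝟙 (LC.of (ℝ × (ℝ × ℝ)))) ▷ LC.of (Fin j → ℝ)) = LC.deg φ := by
  have h3 : LC.deg (E := (E × (ℝ × (ℝ × ℝ))) × (Fin j → ℝ))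
      ((φ ⊗ₘ 𝟙 (LC.of (ℝ × (ℝ × ℝ)))) ▷ LC.of (Fin j → ℝ)) =
      LC.deg (E := E × (ℝ × (ℝ × ℝ))) (φ ⊗ₘ 𝟙 (LC.of (ℝ × (ℝ × ℝ)))) := deg_whiskerRight _
  have h5 : LC.deg (E := E × (ℝ × (ℝ × ℝ))) (φ ⊗ₘ 𝟙 (LC.of (ℝ × (ℝ × ℝ)))) =
      LC.deg φ * LC.deg (𝟙 (LC.of (ℝ × (ℝ × ℝ)))) := deg_tensor _ _
  rw [h3, h5, LC.deg_id, mul_one]

/-- **The stable degree is the Brouwer degree.** -/
theorem deg_eq_of_S (hE : FC (LC.of E)) (φ : LC.of E ⟶ LC.of E) {m : ℤ}
    (h : F.S.map (FCat.hom φ : FCat.mk hE ⟶ FCat.mk hE) = m • 𝟙 (F.S.obj (FCat.mk hE))) :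
    LC.deg φ = m := by
  obtain ⟨ψ, hψ, hd⟩ := exists_int_map F m
  have h1 := S_tensor_zsmul F h (b := 1) (g := 𝟙 (RRF ⊗ (RRF ⊗ RRF)))
    (by rw [F.S.map_id, one_smul])
  have h2 := S_tensor_zsmul F (f := 𝟙 (FCat.mk hE)) (a := 1) (by rw [F.S.map_id, one_smul]) hψ
  rw [mul_one] at h1
  rw [one_mul, ← h1] at h2
  obtain ⟨j, hj⟩ := F.faithful _ _ h2
  have hj' : Homotopic ((𝟙 (LC.of E) ⊗ₘ ψ) ▷ LC.of (Fin j → ℝ))
      ((φ ⊗ₘ 𝟙 (LC.of (ℝ × (ℝ × ℝ)))) ▷ LC.of (Fin j → ℝ)) := hj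
  have h3 := deg_homotopic (E := (E × (ℝ × (ℝ × ℝ))) × (Fin j → ℝ)) hj'
  have h4 := (deg_id_tensor (E := E) ψ j).symm.trans (h3.trans (deg_tensor_id φ j))
  rw [← h4, hd]

/-- **ADG.** If the stable class of a self map of the sphere `E ∪ ∞` of dimension `n > 0` is `m`,
then the map is zero in `H_n(-; 𝔽₂)` iff `m` is even. -/
theorem Hm_eq_zero_iff_even {n : ℕ} (hn : 0 < n) (hd : Module.finrank ℝ E = n)
    (hE : FC (LC.of E)) (φ : LC.of E ⟶ LC.of E) {m : ℤ}
    (h : F.S.map (FCat.hom φ : FCat.mk hE ⟶ FCat.mk hE) = m • 𝟙 (F.S.obj (FCat.mk hE))) :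
    Hm n φ = 0 ↔ Even m := Hm_eq_zero_iff hn hd φ (deg_eq_of_S F hE φ h)

include F in
/-- Every endomorphism of a shift of the unit is an integer. -/
theorem exists_int_endo {Z : T} (n : ℤ) (e : Z ≅ (𝟙_ T)⟦n⟧) (g : Z ⟶ Z) :
    ∃ m : ℤ, g = m • 𝟙 Z := by
  obtain ⟨g', hg'⟩ := (shiftFunctor T n).map_surjective (e.inv ≫ g ≫ e.hom)
  obtain ⟨m, hm⟩ := exists_int_unit F g'
  refine ⟨m, ?_⟩
  rw [hm, Functor.map_zsmul, CategoryTheory.Functor.map_id] at hg'
  have h1 : g = e.hom ≫ (e.inv ≫ g ≫ e.hom) ≫ e.inv := by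
    simp
  rw [h1, ← hg', Preadditive.zsmul_comp, Category.id_comp, Preadditive.comp_zsmul, Iso.hom_inv_id]

/-- `S (E ∪ ∞)` is a shift of the unit. -/
noncomputable def euIso (hE : FC (LC.of E)) :
    F.S.obj (FCat.mk hE) ≅ (𝟙_ T)⟦((Module.finrank ℝ E : ℕ) : ℤ)⟧ :=
  F.S.mapIso (fcIso (X := FCat.mk hE) (Y := SphF (Module.finrank ℝ E))
    (linIso (ContinuousLinearEquiv.ofFinrankEq (by rw [Module.finrank_fin_fun])))) ≪≫
    sphIso F (Module.finrank ℝ E)

variable {E' : Type} [NormedAddCommGroup E'] [NormedSpace ℝ E'] [FiniteDimensional ℝ E']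
  [ProperSpace E']

/-- **ADG, two spaces.** For `δ : E ∪ ∞ ⟶ E' ∪ ∞` and a linear isomorphism `e : E ≃ E'` the stable
class of `δ` is an integral multiple `m` of the class of `e`, and `δ` is zero in `H_n(-; 𝔽₂)` iff
`m` is even. -/
theorem exists_int_of_lin {n : ℕ} (hn : 0 < n) (hd : Module.finrank ℝ E = n)
    (hE : FC (LC.of E)) (hE' : FC (LC.of E')) (e : E ≃L[ℝ] E') (δ : LC.of E ⟶ LC.of E') :
    ∃ m : ℤ, F.S.map (FCat.hom δ : FCat.mk hE ⟶ FCat.mk hE') =
        m • F.S.map (FCat.hom (lin e) : FCat.mk hE ⟶ FCat.mk hE') ∧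
      (Hm n δ = 0 ↔ Even m) := by
  let φ : LC.of E ⟶ LC.of E := δ ≫ lin e.symm
  obtain ⟨m, hm⟩ := exists_int_endo F _ (euIso F hE)
    (F.S.map (FCat.hom φ : FCat.mk hE ⟶ FCat.mk hE))
  have hφ : φ ≫ lin e = δ := by
    rw [Category.assoc, ← lin_trans, ContinuousLinearEquiv.symm_trans_self, lin_refl,
      Category.comp_id]
  refine ⟨m, ?_, ?_⟩
  · have h1 : (FCat.hom δ : FCat.mk hE ⟶ FCat.mk hE') =
        (FCat.hom φ : FCat.mk hE ⟶ FCat.mk hE) ≫
          (FCat.hom (lin e) : FCat.mk hE ⟶ FCat.mk hE') := by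
      apply ObjectProperty.hom_ext
      exact hφ.symm
    rw [h1, Functor.map_comp, hm, Preadditive.zsmul_comp, Category.id_comp]
  · rw [← Hm_eq_zero_iff_even F hn hd hE φ hm]
    have h2 : Hm n φ = Hm n δ ≫ Hm n (lin e.symm) := Hm_comp n δ (lin e.symm)
    have h3 : Hm n δ = Hm n φ ≫ Hm n (lin e) := by rw [← Hm_comp, hφ]
    constructor
    · intro h
      rw [h2, h, zero_comp]
    · intro h
      rw [h3, h, zero_comp]

/-- **Odd degree.** -/
theorem exists_odd_of_Hm_ne_zero {n : ℕ} (hn : 0 < n) (hd : Module.finrank ℝ E = n)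
    (hE : FC (LC.of E)) (hE' : FC (LC.of E')) (e : E ≃L[ℝ] E') (δ : LC.of E ⟶ LC.of E')
    (h : Hm n δ ≠ 0) :
    ∃ m : ℤ, Odd m ∧ F.S.map (FCat.hom δ : FCat.mk hE ⟶ FCat.mk hE') =
        m • F.S.map (FCat.hom (lin e) : FCat.mk hE ⟶ FCat.mk hE') := by
  obtain ⟨m, h1, h2⟩ := exists_int_of_lin F hn hd hE hE' e δ
  exact ⟨m, Int.not_even_iff_odd.1 fun h3 => h (h2.2 h3), h1⟩

end Stable

end Vale.Agent.P263.AD.DG
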