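import Vale.Agent.P251.G.LensFrames
import Vale.Agent.P251.G.BlockSum

/-!
# P263, block AD: the map `δ` over the real projective space

`k` finite, `V = k → ℂ`, `Lens 2 k = S(V)/±1`, `bun k` the sum of `k` copies of the complexified
tautological line bundle over `Lens 2 k`.  For a pointed map `f : (A × V)⁺ → V⁺` the pointed map
`delta f : (Lens 2 k × (A × V × ℝ))⁺ → (V × bun k)⁺` is, at `([v], (t, c, ρ))`,

* `ρ ≥ 0` : half sum and half difference of `f (t, c + ρ v)` and `f (t, c - ρ v)`;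
* `ρ ≤ 0` : `f (t, c)` and `- ρ v`,

the second component `d` being the vector `d ⊗ v` of the bundle.
-/

open Matrix Filter Topology CategoryTheory MonoidalCategory OnePoint
open Vale.Agent.P251.G Vale.Agent.P251.G.LC

namespace Vale.Agent.P263.AD

noncomputable section

set_option linter.unusedSectionVars false

/-! ### Gluing and descent of morphisms of `LC` -/

section general

variable {X Y Z : LC}

/-- the morphism equal to `G₁` where `0 ≤ r` and to `G₂` elsewhere -/
def glueLC (G₁ G₂ : X ⟶ Y) (r : X → ℝ) (hr : Continuous r)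
    (h : ∀ x : X, r x = 0 → app G₁ (x : OnePoint X) = app G₂ (x : OnePoint X)) : X ⟶ Y :=
  LC.mk' (fun x => if 0 ≤ r x then app G₁ (x : OnePoint X) else app G₂ (x : OnePoint X))
    (Continuous.if_le ((continuous_app G₁).comp OnePoint.continuous_coe)
      ((continuous_app G₂).comp OnePoint.continuous_coe) continuous_const hr
      (fun x hx => h x hx.symm)) (by
      have h1 : ∀ G : X ⟶ Y, Tendsto (fun x : X => app G (x : OnePoint X)) (cocompact X)
          (𝓝 ∞) := fun G => by
        have h2 : Tendsto ((↑) : X → OnePoint X) (cocompact X) (𝓝 ∞) := by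
          rw [← coclosedCompact_eq_cocompact]
          exact OnePoint.tendsto_coe_infty
        have h3 := (continuous_app G).tendsto ∞
        rw [app_infty] at h3
        exact h3.comp h2
      exact (h1 G₁).if' (h1 G₂))

theorem app_glueLC_of_nonneg {G₁ G₂ : X ⟶ Y} {r : X → ℝ} {hr : Continuous r}
    {h : ∀ x : X, r x = 0 → app G₁ (x : OnePoint X) = app G₂ (x : OnePoint X)} {x : X}
    (hx : 0 ≤ r x) : app (glueLC G₁ G₂ r hr h) (x : OnePoint X) = app G₁ (x : OnePoint X) :=
  if_pos hx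

theorem app_glueLC_of_nonpos {G₁ G₂ : X ⟶ Y} {r : X → ℝ} {hr : Continuous r}
    {h : ∀ x : X, r x = 0 → app G₁ (x : OnePoint X) = app G₂ (x : OnePoint X)} {x : X}
    (hx : r x ≤ 0) : app (glueLC G₁ G₂ r hr h) (x : OnePoint X) = app G₂ (x : OnePoint X) := by
  rcases hx.eq_or_lt with h1 | h1
  · exact (app_glueLC_of_nonneg h1.ge).trans (h x h1)
  · exact if_neg (not_le.2 h1)

/-- descent along a surjective morphism -/
def descLC (p : X ⟶ Y) (hp : Function.Surjective (app p)) (h : X ⟶ Z)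
    (hh : ∀ x x', app p x = app p x' → app h x = app h x') : Y ⟶ Z :=
  ⟨⟨fun y => app h (hp y).choose, by
    have h1 : IsQuotientMap (app p) :=
      IsQuotientMap.of_surjective_continuous hp (continuous_app p)
    rw [h1.continuous_iff]
    refine (continuous_app h).congr fun x => ?_
    exact hh _ _ (hp (app p x)).choose_spec.symm⟩, by
    have h2 := hh _ _ ((hp ∞).choose_spec.trans (app_infty p).symm)
    exact h2.trans (app_infty h)⟩

theorem app_descLC (p : X ⟶ Y) (hp : Function.Surjective (app p)) (h : X ⟶ Z)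
    (hh : ∀ x x', app p x = app p x' → app h x = app h x') (x : OnePoint X) :
    app (descLC p hp h hh) (app p x) = app h x :=
  hh _ _ (hp (app p x)).choose_spec

theorem comp_descLC (p : X ⟶ Y) (hp : Function.Surjective (app p)) (h : X ⟶ Z)
    (hh : ∀ x x', app p x = app p x' → app h x = app h x') : p ≫ descLC p hp h hh = h :=
  LC.hom_ext fun x => by rw [app_comp, app_descLC]

end general

/-! ### The bundle -/

variable (k : Type) [Fintype k] [DecidableEq k]

/-- the sum of `k` copies of the tautological line bundle over `Lens 2 k` -/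
def bun : Bun (Lens 2 k) (k × k) :=
  Bun.blockSum fun _ : k => (taut 1 k).pullback (Lens.toGr 2 k)

variable {k}

/-- the vector `d ⊗ v` of the bundle -/
def outer (v : SS k) (d : k → ℂ) : (bun k).E :=
  (bun k).mkE (v.lens 2) (fun p => d p.2 * v.v p.1) (by
    unfold bun
    rw [Bun.blockSum_fixed]
    intro a
    change (v.lens 2).Q.P *ᵥ (fun i => d a * v.v i) = fun i => d a * v.v i
    have h : (fun i => d a * v.v i) = d a • v.v := rfl
    rw [h, mulVec_smul, SS.lens_Q, SS.line_P, lineP_mulVec_self v.nsq_v])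

@[simp] theorem base_outer (v : SS k) (d : k → ℂ) : Bun.base (outer v d) = v.lens 2 := rfl

@[simp] theorem vec_outer (v : SS k) (d : k → ℂ) :
    Bun.vec (outer v d) = fun p => d p.2 * v.v p.1 := rfl

theorem continuous_outer : Continuous fun p : SS k × (k → ℂ) => outer p.1 p.2 := by
  unfold outer
  refine Bun.continuous_mkE ((SS.continuous_lens 2).comp continuous_fst) ?_ _
  refine continuous_pi fun q => ?_
  exact ((continuous_apply q.2).comp continuous_snd).mul
    ((continuous_apply q.1).comp (SS.continuous_v.comp continuous_fst))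

/-- `-v` -/
def neg (v : SS k) : SS k := SS.smul (-1) (by simp) v

omit [DecidableEq k] in
@[simp] theorem neg_v (v : SS k) : (neg v).v = -v.v := by
  rw [neg, SS.smul_v, neg_smul, one_smul]

theorem lens_neg (v : SS k) : (neg v).lens 2 = v.lens 2 :=
  ((SS.lens_eq_iff two_ne_zero).2 ⟨-1, by norm_num, by rw [neg_v, neg_smul, one_smul]⟩).symm

theorem eq_or_eq_neg {v w : SS k} (h : v.lens 2 = w.lens 2) : w = v ∨ w = neg v := by
  obtain ⟨c, hc, hw⟩ := (SS.lens_eq_iff two_ne_zero).1 h
  have h1 : (c - 1) * (c + 1) = 0 := by ring_nf; rw [hc]; ring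
  rcases mul_eq_zero.1 h1 with h2 | h2
  · left
    apply SS.ext
    rw [hw, sub_eq_zero.1 h2, one_smul]
  · right
    apply SS.ext
    rw [hw, eq_neg_of_add_eq_zero_left h2, neg_v, neg_smul, one_smul]

theorem outer_neg (v : SS k) (d : k → ℂ) : outer (neg v) (-d) = outer v d := by
  apply Bun.E_ext
  · rw [base_outer, base_outer, lens_neg]
  · rw [vec_outer, vec_outer]
    funext p
    rw [neg_v, Pi.neg_apply, Pi.neg_apply, neg_mul_neg]

/-- the real inner product -/
def rip (v : SS k) (d : k → ℂ) : ℝ := (star v.v ⬝ᵥ d).re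

theorem continuous_rip : Continuous fun p : SS k × (k → ℂ) => rip p.1 p.2 := by
  unfold rip
  exact Complex.continuous_re.comp
    ((SS.continuous_v.comp continuous_fst).star.dotProduct continuous_snd)

theorem rip_smul (v : SS k) (r : ℝ) : rip v (r • v.v) = r := by
  unfold rip
  rw [dotProduct_smul, star_dotProduct_self v.nsq_v]
  simp

/-- `(v, c, d) ↦ (c, d ⊗ v)` -/
def theta (q : SS k × ((k → ℂ) × (k → ℂ))) : (k → ℂ) × (bun k).E := (q.2.1, outer q.1 q.2.2)

theorem continuous_theta : Continuous (theta (k := k)) := by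
  unfold theta
  exact (continuous_fst.comp continuous_snd).prodMk (continuous_outer.comp
    (continuous_fst.prodMk (continuous_snd.comp continuous_snd)))

/-- the vector with a given tensor product with `v` -/
def unouter (v : SS k) (w : k × k → ℂ) : k → ℂ := fun a => ∑ i, star (v.v i) * w (i, a)

theorem unouter_outer (v : SS k) (d : k → ℂ) : unouter v (Bun.vec (outer v d)) = d := by
  funext a
  unfold unouter
  rw [vec_outer]
  have h : ∀ i, star (v.v i) * (d a * v.v i) = d a * (star (v.v i) * v.v i) := fun i => by ring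
  simp only [h]
  rw [← Finset.mul_sum]
  have h2 : ∑ i, star (v.v i) * v.v i = 1 := star_dotProduct_self v.nsq_v
  rw [h2, mul_one]

theorem continuous_unouter : Continuous fun p : SS k × (k × k → ℂ) => unouter p.1 p.2 := by
  unfold unouter
  refine continuous_pi fun a => continuous_finsetSum _ fun i _ => ?_
  exact ((continuous_apply i).comp (SS.continuous_v.comp continuous_fst)).star.mul
    ((continuous_apply (i, a)).comp continuous_snd)

theorem isProperMap_theta : IsProperMap (theta (k := k)) := by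
  have h1 : IsClosedEmbedding (fun q : SS k × ((k → ℂ) × (k → ℂ)) => (q.1, theta q)) := by
    refine Function.LeftInverse.isClosedEmbedding
      (f := fun p : SS k × ((k → ℂ) × (bun k).E) => (p.1, (p.2.1, unouter p.1 (Bun.vec p.2.2))))
      ?_ ?_ (continuous_fst.prodMk continuous_theta)
    · rintro ⟨v, c, d⟩
      change (v, (c, unouter v (Bun.vec (outer v d)))) = (v, c, d)
      rw [unouter_outer]
    · refine continuous_fst.prodMk ((continuous_fst.comp continuous_snd).prodMk ?_)
      exact continuous_unouter.comp (continuous_fst.prodMk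
        (Bun.continuous_vec.comp (continuous_snd.comp continuous_snd)))
  exact (isProperMap_snd_of_compactSpace (X := SS k)).comp h1.isProperMap

/-! ### The two halves -/

variable (k) in
/-- `ℂ^k` as an object of `LC` -/
abbrev VV : LC := LC.of (k → ℂ)

/-- `(c, d ⊗ v)` as a morphism -/
def thetaLC : LC.of (SS k) ⊗ (VV k ⊗ VV k) ⟶ VV k ⊗ (bun k).tot :=
  ofProper (X := LC.of (SS k × ((k → ℂ) × (k → ℂ)))) (Y := LC.of ((k → ℂ) × (bun k).E)) theta
    continuous_theta (isProperMap_iff_tendsto_cocompact.1 isProperMap_theta).2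

/-- half sum and half difference -/
def halfs : (k → ℂ) × (k → ℂ) ≃ₜ (k → ℂ) × (k → ℂ) where
  toFun p := ((2⁻¹ : ℝ) • (p.1 + p.2), (2⁻¹ : ℝ) • (p.1 - p.2))
  invFun p := (p.1 + p.2, p.1 - p.2)
  left_inv p := by
    refine Prod.ext ?_ ?_
    · change (2⁻¹ : ℝ) • (p.1 + p.2) + (2⁻¹ : ℝ) • (p.1 - p.2) = p.1
      module
    · change (2⁻¹ : ℝ) • (p.1 + p.2) - (2⁻¹ : ℝ) • (p.1 - p.2) = p.2
      module
  right_inv p := by
    refine Prod.ext ?_ ?_
    · change (2⁻¹ : ℝ) • ((p.1 + p.2) + (p.1 - p.2)) = p.1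
      module
    · change (2⁻¹ : ℝ) • ((p.1 + p.2) - (p.1 - p.2)) = p.2
      module
  continuous_toFun := by fun_prop
  continuous_invFun := (continuous_fst.add continuous_snd).prodMk
    (continuous_fst.sub continuous_snd)

/-- half sum and half difference as a morphism -/
def halfsLC : VV k ⊗ VV k ⟶ VV k ⊗ VV k :=
  (ofHomeo (X := LC.of ((k → ℂ) × (k → ℂ))) (Y := LC.of ((k → ℂ) × (k → ℂ))) halfs).hom

variable (A : LC)

variable (k) in
/-- the source `A × ℂ^k × ℝ` -/
abbrev MM : LC := A ⊗ (VV k ⊗ LC.of ℝ)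

/-- `(v, (t, c, ρ)) ↦ (v, (t, c + ρ v), (t, c - ρ v))` -/
def phi1 (q : SS k × (A × ((k → ℂ) × ℝ))) : SS k × ((A × (k → ℂ)) × (A × (k → ℂ))) :=
  (q.1, ((q.2.1, q.2.2.1 + q.2.2.2 • q.1.v), (q.2.1, q.2.2.1 - q.2.2.2 • q.1.v)))

/-- `(v, (t, c, ρ)) ↦ (v, (t, c), - ρ v)` -/
def phi2 (q : SS k × (A × ((k → ℂ) × ℝ))) : SS k × ((A × (k → ℂ)) × (k → ℂ)) :=
  (q.1, ((q.2.1, q.2.2.1), -(q.2.2.2 • q.1.v)))

theorem isClosedEmbedding_phi1 : IsClosedEmbedding (phi1 (k := k) A) := by
  have hv : Continuous fun q : SS k × (A × ((k → ℂ) × ℝ)) => q.1.v :=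
    SS.continuous_v.comp continuous_fst
  have hr : Continuous fun q : SS k × (A × ((k → ℂ) × ℝ)) => q.2.2.2 := by fun_prop
  have hc : Continuous fun q : SS k × (A × ((k → ℂ) × ℝ)) => q.2.2.1 := by fun_prop
  have ht : Continuous fun q : SS k × (A × ((k → ℂ) × ℝ)) => q.2.1 := by fun_prop
  refine Function.LeftInverse.isClosedEmbedding
    (f := fun p : SS k × ((A × (k → ℂ)) × (A × (k → ℂ))) =>
      (p.1, (p.2.1.1, ((2⁻¹ : ℝ) • (p.2.1.2 + p.2.2.2),
        rip p.1 ((2⁻¹ : ℝ) • (p.2.1.2 - p.2.2.2)))))) ?_ ?_ ?_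
  · rintro ⟨v, t, c, r⟩
    have h1 : (2⁻¹ : ℝ) • ((c + r • v.v) + (c - r • v.v)) = c := by module
    have h2 : (2⁻¹ : ℝ) • ((c + r • v.v) - (c - r • v.v)) = r • v.v := by module
    change (v, (t, ((2⁻¹ : ℝ) • ((c + r • v.v) + (c - r • v.v)),
      rip v ((2⁻¹ : ℝ) • ((c + r • v.v) - (c - r • v.v)))))) = (v, t, c, r)
    rw [h1, h2, rip_smul]
  · refine continuous_fst.prodMk (Continuous.prodMk (by fun_prop) (Continuous.prodMk
      (by fun_prop) ?_))
    exact continuous_rip.comp (continuous_fst.prodMk (by fun_prop))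
  · exact continuous_fst.prodMk ((ht.prodMk (hc.add (hr.smul hv))).prodMk
      (ht.prodMk (hc.sub (hr.smul hv))))

theorem isClosedEmbedding_phi2 : IsClosedEmbedding (phi2 (k := k) A) := by
  have hv : Continuous fun q : SS k × (A × ((k → ℂ) × ℝ)) => q.1.v :=
    SS.continuous_v.comp continuous_fst
  have hr : Continuous fun q : SS k × (A × ((k → ℂ) × ℝ)) => q.2.2.2 := by fun_prop
  have hc : Continuous fun q : SS k × (A × ((k → ℂ) × ℝ)) => q.2.2.1 := by fun_prop
  have ht : Continuous fun q : SS k × (A × ((k → ℂ) × ℝ)) => q.2.1 := by fun_prop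
  refine Function.LeftInverse.isClosedEmbedding
    (f := fun p : SS k × ((A × (k → ℂ)) × (k → ℂ)) =>
      (p.1, (p.2.1.1, (p.2.1.2, rip p.1 (-p.2.2))))) ?_ ?_ ?_
  · rintro ⟨v, t, c, r⟩
    change (v, (t, (c, rip v (-(-(r • v.v)))))) = (v, t, c, r)
    rw [neg_neg, rip_smul]
  · refine continuous_fst.prodMk (Continuous.prodMk (by fun_prop) (Continuous.prodMk
      (by fun_prop) ?_))
    exact continuous_rip.comp (continuous_fst.prodMk (by fun_prop))
  · exact continuous_fst.prodMk ((ht.prodMk hc).prodMk (hr.smul hv).neg)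

variable {A} (f : A ⊗ VV k ⟶ VV k)

/-- the part `ρ ≥ 0` -/
def del1 : LC.of (SS k) ⊗ MM k A ⟶ VV k ⊗ (bun k).tot :=
  ofClosed (X := LC.of (SS k × (A × ((k → ℂ) × ℝ))))
      (Y := LC.of (SS k × ((A × (k → ℂ)) × (A × (k → ℂ))))) (phi1 A) (isClosedEmbedding_phi1 A) ≫
    (LC.of (SS k) ◁ (f ⊗ₘ f)) ≫ (LC.of (SS k) ◁ halfsLC) ≫ thetaLC

/-- the part `ρ ≤ 0` -/
def del2 : LC.of (SS k) ⊗ MM k A ⟶ VV k ⊗ (bun k).tot :=
  ofClosed (X := LC.of (SS k × (A × ((k → ℂ) × ℝ))))
      (Y := LC.of (SS k × ((A × (k → ℂ)) × (k → ℂ)))) (phi2 A) (isClosedEmbedding_phi2 A) ≫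
    (LC.of (SS k) ◁ (f ▷ VV k)) ≫ thetaLC

/-- half sum and half difference of two points of `V⁺` -/
def hs (x y : OnePoint (k → ℂ)) : OnePoint ((k → ℂ) × (k → ℂ)) :=
  app (halfsLC (k := k)) (smash x y)

/-- `(c, d) ↦ (c, d ⊗ v)` -/
def thv (v : SS k) (z : OnePoint ((k → ℂ) × (k → ℂ))) : OnePoint ((k → ℂ) × (bun k).E) :=
  z.map fun p => (p.1, outer v p.2)

theorem app_thetaLC_smash (v : SS k) (z : OnePoint ((k → ℂ) × (k → ℂ))) :
    app (thetaLC (k := k)) (smash (X := SS k) (v : OnePoint (SS k)) z) = thv v z := by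
  induction z using OnePoint.rec with
  | infty => rw [smash_infty_right]; exact app_infty _
  | coe z => rfl

theorem app_del1 (v : SS k) (t : A) (c : k → ℂ) (r : ℝ) :
    app (del1 f) (((v, (t, (c, r))) : SS k × (A × ((k → ℂ) × ℝ))) :
        OnePoint (SS k × (A × ((k → ℂ) × ℝ)))) =
      thv v (hs (app f ((t, c + r • v.v) : A × (k → ℂ)))
        (app f ((t, c - r • v.v) : A × (k → ℂ)))) := by
  rw [del1, app_comp, app_comp, app_comp]
  change app thetaLC (app (LC.of (SS k) ◁ halfsLC) (app (LC.of (SS k) ◁ (f ⊗ₘ f))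
    (smash (X := SS k) (v : OnePoint (SS k))
      (smash (((t, c + r • v.v) : A × (k → ℂ)) : OnePoint (A × (k → ℂ)))
        (((t, c - r • v.v) : A × (k → ℂ)) : OnePoint (A × (k → ℂ))))))) = _
  rw [app_whiskerLeft_smash (LC.of (SS k)) (f ⊗ₘ f), app_tensorHom_smash f f,
    app_whiskerLeft_smash (LC.of (SS k)) halfsLC, app_thetaLC_smash]
  rfl

theorem app_del2 (v : SS k) (t : A) (c : k → ℂ) (r : ℝ) :
    app (del2 f) (((v, (t, (c, r))) : SS k × (A × ((k → ℂ) × ℝ))) :
        OnePoint (SS k × (A × ((k → ℂ) × ℝ)))) =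
      thv v (smash (app f ((t, c) : A × (k → ℂ)))
        ((-(r • v.v) : k → ℂ) : OnePoint (k → ℂ))) := by
  rw [del2, app_comp, app_comp]
  change app thetaLC (app (LC.of (SS k) ◁ (f ▷ VV k))
    (smash (X := SS k) (v : OnePoint (SS k))
      (smash (((t, c) : A × (k → ℂ)) : OnePoint (A × (k → ℂ)))
        ((-(r • v.v) : k → ℂ) : OnePoint (k → ℂ))))) = _
  rw [app_whiskerLeft_smash (LC.of (SS k)) (f ▷ VV k), app_whiskerRight_smash f (VV k),
    app_thetaLC_smash]

/-- the value at a smash product with `∞` -/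
theorem hs_infty_left (y : OnePoint (k → ℂ)) : hs ∞ y = ∞ := by
  unfold hs
  rw [smash_infty_left]
  exact app_infty _

theorem hs_infty_right (x : OnePoint (k → ℂ)) : hs x ∞ = ∞ := by
  unfold hs
  rw [smash_infty_right]
  exact app_infty _

theorem hs_coe (x y : k → ℂ) : hs (x : OnePoint (k → ℂ)) (y : OnePoint (k → ℂ)) =
    (((2⁻¹ : ℝ) • (x + y), (2⁻¹ : ℝ) • (x - y)) : (k → ℂ) × (k → ℂ)) := rfl

/-- the two halves agree at `ρ = 0` -/
theorem hs_self (x : OnePoint (k → ℂ)) : hs x x = smash x ((0 : k → ℂ) : OnePoint (k → ℂ)) := by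
  induction x using OnePoint.rec with
  | infty => rw [hs_infty_left, smash_infty_left]
  | coe x =>
    rw [hs_coe, smash_coe_coe, sub_self, smul_zero]
    have h : (2⁻¹ : ℝ) • (x + x) = x := by module
    rw [h]

/-- exchanging the two points changes the sign of the difference -/
theorem thv_neg_hs (v : SS k) (x y : OnePoint (k → ℂ)) : thv (neg v) (hs y x) = thv v (hs x y) := by
  induction x using OnePoint.rec with
  | infty => rw [hs_infty_left, hs_infty_right]; rfl
  | coe x =>
    induction y using OnePoint.rec with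
    | infty => rw [hs_infty_left, hs_infty_right]; rfl
    | coe y =>
      rw [hs_coe, hs_coe]
      change ((((2⁻¹ : ℝ) • (y + x), outer (neg v) ((2⁻¹ : ℝ) • (y - x))) :
        (k → ℂ) × (bun k).E) : OnePoint ((k → ℂ) × (bun k).E)) =
        (((2⁻¹ : ℝ) • (x + y), outer v ((2⁻¹ : ℝ) • (x - y))) : (k → ℂ) × (bun k).E)
      have h : (2⁻¹ : ℝ) • (y - x) = -((2⁻¹ : ℝ) • (x - y)) := by module
      rw [h, outer_neg, add_comm y x]

theorem thv_neg_smash (v : SS k) (x : OnePoint (k → ℂ)) (d : k → ℂ) :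
    thv (neg v) (smash x ((-d : k → ℂ) : OnePoint (k → ℂ))) =
      thv v (smash x (d : OnePoint (k → ℂ))) := by
  induction x using OnePoint.rec with
  | infty => rfl
  | coe x =>
    change (((x, outer (neg v) (-d)) : (k → ℂ) × (bun k).E) : OnePoint ((k → ℂ) × (bun k).E)) =
      (((x, outer v d)) : (k → ℂ) × (bun k).E)
    rw [outer_neg]

/-- the map over the sphere -/
def delS : LC.of (SS k) ⊗ MM k A ⟶ VV k ⊗ (bun k).tot :=
  glueLC (X := LC.of (SS k × (A × ((k → ℂ) × ℝ)))) (del1 f) (del2 f)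
    (fun q : SS k × (A × ((k → ℂ) × ℝ)) => q.2.2.2) (by fun_prop) (by
      rintro ⟨v, t, c, r⟩ (hr : r = 0)
      subst hr
      rw [app_del1, app_del2, zero_smul, add_zero, sub_zero, neg_zero, hs_self])

/-- the value of `delta` at `(v, (t, c, ρ))`, as a point of `V⁺ ∧ V⁺` (before tensoring the second
vector with `v`) -/
def dval (v : SS k) (t : A) (c : k → ℂ) (r : ℝ) : OnePoint ((k → ℂ) × (k → ℂ)) :=
  if 0 ≤ r then hs (app f ((t, c + r • v.v) : A × (k → ℂ)))
    (app f ((t, c - r • v.v) : A × (k → ℂ)))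
  else smash (app f ((t, c) : A × (k → ℂ))) ((-(r • v.v) : k → ℂ) : OnePoint (k → ℂ))

theorem app_delS (v : SS k) (t : A) (c : k → ℂ) (r : ℝ) :
    app (delS f) (((v, (t, (c, r))) : SS k × (A × ((k → ℂ) × ℝ))) :
        OnePoint (SS k × (A × ((k → ℂ) × ℝ)))) = thv v (dval f v t c r) := by
  unfold dval
  split_ifs with hr
  · rw [← app_del1]
    exact app_glueLC_of_nonneg hr
  · rw [← app_del2]
    exact app_glueLC_of_nonpos (not_le.1 hr).le

theorem thv_dval_neg (v : SS k) (t : A) (c : k → ℂ) (r : ℝ) :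
    thv (neg v) (dval f (neg v) t c r) = thv v (dval f v t c r) := by
  unfold dval
  split_ifs with hr
  · rw [neg_v, smul_neg, sub_neg_eq_add, ← sub_eq_add_neg, thv_neg_hs]
  · rw [neg_v, smul_neg, thv_neg_smash]

/-! ### Descent to the lens space -/

/-- the projection `S(V) → Lens` times the identity -/
def prL (k : Type) [Fintype k] [DecidableEq k] (M : LC) : LC.of (SS k) ⊗ M ⟶ LC.of (Lens 2 k) ⊗ M :=
  (ofCompact (X := LC.of (SS k)) (Y := LC.of (Lens 2 k)) (SS.lens 2) (SS.continuous_lens 2)) ▷ M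

theorem app_prL (M : LC) (v : SS k) (m : M) :
    app (prL k M) (((v, m) : SS k × M) : OnePoint (SS k × M)) =
      (((v.lens 2, m) : Lens 2 k × M) : OnePoint (Lens 2 k × M)) := rfl

theorem prL_surjective (M : LC) : Function.Surjective (app (prL k M)) := by
  intro y
  induction y using OnePoint.rec with
  | infty => exact ⟨∞, app_infty _⟩
  | coe y =>
    obtain ⟨v, hv⟩ := SS.lens_surjective two_ne_zero y.1
    refine ⟨((v, y.2) : SS k × M), ?_⟩
    rw [app_prL, hv]
    rfl

/-- **The map `δ`**, over the real projective space. -/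
def delta : LC.of (Lens 2 k) ⊗ MM k A ⟶ VV k ⊗ (bun k).tot :=
  descLC (prL k (MM k A)) (prL_surjective _) (delS f) (by
    intro x y h
    induction x using OnePoint.rec with
    | infty =>
      induction y using OnePoint.rec with
      | infty => rfl
      | coe y =>
        obtain ⟨w, m⟩ := y
        rw [app_infty] at h
        exact absurd h.symm (OnePoint.coe_ne_infty _)
    | coe x =>
      obtain ⟨v, m⟩ := x
      induction y using OnePoint.rec with
      | infty =>
        rw [app_infty] at h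
        exact absurd h (OnePoint.coe_ne_infty _)
      | coe y =>
        obtain ⟨w, m'⟩ := y
        have h1 : ((v.lens 2, m) : Lens 2 k × MM k A) = (w.lens 2, m') :=
          OnePoint.coe_injective h
        have h2 : m = m' := congrArg Prod.snd h1
        have h3 : v.lens 2 = w.lens 2 := congrArg Prod.fst h1
        subst h2
        obtain ⟨t, c, r⟩ := m
        rcases eq_or_eq_neg h3 with h4 | h4
        · rw [h4]
        · rw [h4]
          exact (app_delS f v t c r).trans ((thv_dval_neg f v t c r).symm.trans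
            (app_delS f (neg v) t c r).symm))

/-- **The values of `δ`.** -/
theorem app_delta (v : SS k) (t : A) (c : k → ℂ) (r : ℝ) :
    app (delta f) (((v.lens 2, (t, (c, r))) : Lens 2 k × (A × ((k → ℂ) × ℝ))) :
        OnePoint (Lens 2 k × (A × ((k → ℂ) × ℝ)))) = thv v (dval f v t c r) := by
  rw [← app_delS]
  exact app_descLC (prL k (MM k A)) _ (delS f) _
    (((v, (t, (c, r))) : SS k × (A × ((k → ℂ) × ℝ))) :
      OnePoint (SS k × (A × ((k → ℂ) × ℝ))))

theorem app_delta_of_nonneg (v : SS k) (t : A) (c : k → ℂ) {r : ℝ} (hr : 0 ≤ r) :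
    app (delta f) (((v.lens 2, (t, (c, r))) : Lens 2 k × (A × ((k → ℂ) × ℝ))) :
        OnePoint (Lens 2 k × (A × ((k → ℂ) × ℝ)))) =
      thv v (hs (app f ((t, c + r • v.v) : A × (k → ℂ)))
        (app f ((t, c - r • v.v) : A × (k → ℂ)))) := by
  rw [app_delta, dval, if_pos hr]

theorem app_delta_of_nonpos (v : SS k) (t : A) (c : k → ℂ) {r : ℝ} (hr : r ≤ 0) :
    app (delta f) (((v.lens 2, (t, (c, r))) : Lens 2 k × (A × ((k → ℂ) × ℝ))) :
        OnePoint (Lens 2 k × (A × ((k → ℂ) × ℝ)))) =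
      thv v (smash (app f ((t, c) : A × (k → ℂ)))
        ((-(r • v.v) : k → ℂ) : OnePoint (k → ℂ))) := by
  rw [app_delta, dval]
  split_ifs with h
  · have h0 : r = 0 := le_antisymm hr h
    rw [h0, zero_smul, add_zero, sub_zero, neg_zero, hs_self]
  · rfl

/-- `δ` is over the base -/
theorem base_delta (y : Lens 2 k) (m : MM k A) {w : (k → ℂ) × (bun k).E}
    (h : app (delta f) (((y, m) : Lens 2 k × MM k A) : OnePoint (Lens 2 k × MM k A)) =
      (w : OnePoint ((k → ℂ) × (bun k).E))) : Bun.base w.2 = y := by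
  obtain ⟨v, rfl⟩ := SS.lens_surjective two_ne_zero y
  obtain ⟨t, c, r⟩ := m
  have h1 := (app_delta f v t c r).symm.trans h
  generalize dval f v t c r = z at h1
  induction z using OnePoint.rec with
  | infty => exact absurd h1.symm (OnePoint.coe_ne_infty _)
  | coe z =>
    have h2 : ((z.1, outer v z.2) : (k → ℂ) × (bun k).E) = w := OnePoint.coe_injective h1
    rw [← h2, base_outer]

/-! ### The fibre at `v` -/

/-- `(c, d) ↦ (c, d ⊗ v)` as a morphism -/
def thvLC (v : SS k) : VV k ⊗ VV k ⟶ VV k ⊗ (bun k).tot :=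
  ofClosed (X := LC.of ((k → ℂ) × (k → ℂ))) (Y := LC.of ((k → ℂ) × (bun k).E))
    (fun p => (p.1, outer v p.2)) (by
      refine Function.LeftInverse.isClosedEmbedding
        (f := fun p : (k → ℂ) × (bun k).E => (p.1, unouter v (Bun.vec p.2))) ?_ ?_ ?_
      · rintro ⟨c, d⟩
        change (c, unouter v (Bun.vec (outer v d))) = (c, d)
        rw [unouter_outer]
      · exact continuous_fst.prodMk (continuous_unouter.comp (continuous_const.prodMk
          (Bun.continuous_vec.comp continuous_snd)))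
      · exact continuous_fst.prodMk (continuous_outer.comp
          (continuous_const.prodMk continuous_snd)))

theorem app_thvLC (v : SS k) (z : OnePoint ((k → ℂ) × (k → ℂ))) : app (thvLC v) z = thv v z := rfl

/-- the inclusion of the fibre over `v` -/
def inV (M : LC) (v : SS k) : M ⟶ LC.of (SS k) ⊗ M :=
  ofClosed (X := M) (Y := LC.of (SS k × M)) (fun m => (v, m)) (by
    refine Function.LeftInverse.isClosedEmbedding (f := fun p : SS k × M => p.2) (fun _ => rfl)
      continuous_snd (continuous_const.prodMk continuous_id))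

/-- the part `ρ ≥ 0` of the fibre map -/
def dv1 (v : SS k) : MM k A ⟶ VV k ⊗ VV k :=
  ofClosed (X := LC.of (A × ((k → ℂ) × ℝ))) (Y := LC.of ((A × (k → ℂ)) × (A × (k → ℂ))))
      (fun m => ((m.1, m.2.1 + m.2.2 • v.v), (m.1, m.2.1 - m.2.2 • v.v))) (by
        refine Function.LeftInverse.isClosedEmbedding
          (f := fun p : (A × (k → ℂ)) × (A × (k → ℂ)) =>
            (p.1.1, ((2⁻¹ : ℝ) • (p.1.2 + p.2.2), rip v ((2⁻¹ : ℝ) • (p.1.2 - p.2.2))))) ?_ ?_ ?_
        · rintro ⟨t, c, r⟩
          have h1 : (2⁻¹ : ℝ) • ((c + r • v.v) + (c - r • v.v)) = c := by module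
          have h2 : (2⁻¹ : ℝ) • ((c + r • v.v) - (c - r • v.v)) = r • v.v := by module
          change (t, ((2⁻¹ : ℝ) • ((c + r • v.v) + (c - r • v.v)),
            rip v ((2⁻¹ : ℝ) • ((c + r • v.v) - (c - r • v.v))))) = (t, c, r)
          rw [h1, h2, rip_smul]
        · refine Continuous.prodMk (by fun_prop) (Continuous.prodMk (by fun_prop) ?_)
          exact continuous_rip.comp (continuous_const.prodMk (by fun_prop))
        · fun_prop) ≫
    (f ⊗ₘ f) ≫ halfsLC

/-- the part `ρ ≤ 0` of the fibre map -/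
def dv2 (v : SS k) : MM k A ⟶ VV k ⊗ VV k :=
  ofClosed (X := LC.of (A × ((k → ℂ) × ℝ))) (Y := LC.of ((A × (k → ℂ)) × (k → ℂ)))
      (fun m => ((m.1, m.2.1), -(m.2.2 • v.v))) (by
        refine Function.LeftInverse.isClosedEmbedding
          (f := fun p : (A × (k → ℂ)) × (k → ℂ) => (p.1.1, (p.1.2, rip v (-p.2)))) ?_ ?_ ?_
        · rintro ⟨t, c, r⟩
          change (t, (c, rip v (-(-(r • v.v))))) = (t, c, r)
          rw [neg_neg, rip_smul]
        · refine Continuous.prodMk (by fun_prop) (Continuous.prodMk (by fun_prop) ?_)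
          exact continuous_rip.comp (continuous_const.prodMk (by fun_prop))
        · fun_prop) ≫
    (f ▷ VV k)

theorem app_dv1 (v : SS k) (t : A) (c : k → ℂ) (r : ℝ) :
    app (dv1 f v) (((t, (c, r)) : A × ((k → ℂ) × ℝ)) : OnePoint (A × ((k → ℂ) × ℝ))) =
      hs (app f ((t, c + r • v.v) : A × (k → ℂ))) (app f ((t, c - r • v.v) : A × (k → ℂ))) := by
  rw [dv1, app_comp, app_comp]
  change app halfsLC (app (f ⊗ₘ f)
      (smash (((t, c + r • v.v) : A × (k → ℂ)) : OnePoint (A × (k → ℂ)))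
        (((t, c - r • v.v) : A × (k → ℂ)) : OnePoint (A × (k → ℂ))))) = _
  rw [app_tensorHom_smash f f]
  rfl

theorem app_dv2 (v : SS k) (t : A) (c : k → ℂ) (r : ℝ) :
    app (dv2 f v) (((t, (c, r)) : A × ((k → ℂ) × ℝ)) : OnePoint (A × ((k → ℂ) × ℝ))) =
      smash (app f ((t, c) : A × (k → ℂ))) ((-(r • v.v) : k → ℂ) : OnePoint (k → ℂ)) := by
  rw [dv2, app_comp]
  change app (f ▷ VV k) (smash (((t, c) : A × (k → ℂ)) : OnePoint (A × (k → ℂ)))
        ((-(r • v.v) : k → ℂ) : OnePoint (k → ℂ))) = _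
  rw [app_whiskerRight_smash f (VV k)]

/-- **The fibre map** `δ_v : (A × V × ℝ)⁺ → (V × V)⁺`. -/
def deltaV (v : SS k) : MM k A ⟶ VV k ⊗ VV k :=
  glueLC (X := LC.of (A × ((k → ℂ) × ℝ))) (dv1 f v) (dv2 f v)
    (fun m : A × ((k → ℂ) × ℝ) => m.2.2) (by fun_prop) (by
      rintro ⟨t, c, r⟩ (hr : r = 0)
      subst hr
      rw [app_dv1, app_dv2, zero_smul, add_zero, sub_zero, neg_zero, hs_self])

theorem app_deltaV (v : SS k) (t : A) (c : k → ℂ) (r : ℝ) :
    app (deltaV f v) (((t, (c, r)) : A × ((k → ℂ) × ℝ)) : OnePoint (A × ((k → ℂ) × ℝ))) =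
      dval f v t c r := by
  unfold dval
  split_ifs with hr
  · rw [← app_dv1]
    exact app_glueLC_of_nonneg hr
  · rw [← app_dv2]
    exact app_glueLC_of_nonpos (not_le.1 hr).le

theorem app_deltaV_of_nonneg (v : SS k) (t : A) (c : k → ℂ) {r : ℝ} (hr : 0 ≤ r) :
    app (deltaV f v) (((t, (c, r)) : A × ((k → ℂ) × ℝ)) : OnePoint (A × ((k → ℂ) × ℝ))) =
      hs (app f ((t, c + r • v.v) : A × (k → ℂ)))
        (app f ((t, c - r • v.v) : A × (k → ℂ))) := by
  rw [app_deltaV, dval, if_pos hr]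

theorem app_deltaV_of_nonpos (v : SS k) (t : A) (c : k → ℂ) {r : ℝ} (hr : r ≤ 0) :
    app (deltaV f v) (((t, (c, r)) : A × ((k → ℂ) × ℝ)) : OnePoint (A × ((k → ℂ) × ℝ))) =
      smash (app f ((t, c) : A × (k → ℂ))) ((-(r • v.v) : k → ℂ) : OnePoint (k → ℂ)) := by
  rw [app_deltaV, dval]
  split_ifs with h
  · have h0 : r = 0 := le_antisymm hr h
    rw [h0, zero_smul, add_zero, sub_zero, neg_zero, hs_self]
  · rfl

/-- **The restriction of `δ` to the fibre over `v`.** -/
theorem inV_prL_delta (v : SS k) : inV (MM k A) v ≫ prL k (MM k A) ≫ delta f =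
    deltaV f v ≫ thvLC v := by
  refine LC.hom_ext fun m => ?_
  obtain ⟨t, c, r⟩ := m
  rw [app_comp, app_comp, app_comp, app_thvLC]
  exact (app_delta f v t c r).trans (congrArg (thv v) (app_deltaV f v t c r).symm)

end

end Vale.Agent.P263.AD
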