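import Vale.Agent.P263.AD.Thom
import Vale.Agent.P263.AD.Delta

/-!
# P263, part AD: the class `θ` of the fibrewise map `δ`

For an oriented theory `(E, o)`, `f : (A × V)⁺ → V⁺`, `V = ℂ^κ`, and an isomorphism
`s : A × V × ℝ ≅ V × V`:

* `theta o s f : E.U (Lens 2 κ)` with `δ^* (lin × Φ(1)) = θ × s^* (lin × lin)`;
* `theta_rat` : for another orientation `θ' = (ratio) θ`;
* `theta_fibre` : the restriction of `θ` to a point is the degree of the fibre map `δ_v`;
* `theta_deg`, `theta_hom`.
-/

set_option linter.unusedSectionVars false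
set_option linter.style.haveILetI false

open CategoryTheory MonoidalCategory Limits Matrix Topology Finset OnePoint
open Vale.Agent.P251.G Vale.Agent.P251.G.LC Vale.Agent.P251.G.Bun
open Vale.Agent.P251.Q Vale.Agent.P251.Q.MultTheory Vale.Agent.P251.M

universe v w

noncomputable section

namespace Vale.Agent.P263.AD

variable {E : MultTheory.{v}} (o o' : Orientation E)
variable {κ : Type} [Fintype κ] [DecidableEq κ] {A : LC}

theorem lensL2_isRank (κ : Type) [Fintype κ] [DecidableEq κ] :
    ((taut 1 κ).pullback (Lens.toGr 2 κ)).IsRank 1 := fun _ => taut_isRank 1 κ _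

theorem bun_isRank (κ : Type) [Fintype κ] [DecidableEq κ] :
    (bun κ).IsRank (Fintype.card κ) := Bun.blockSum_isRank_one fun _ => lensL2_isRank κ

instance good_lens : E.Good (LC.of (Lens 2 κ)) :=
  (inferInstance : GoodBase E (LC.of (Lens 2 κ))).toGood

instance good_bun : E.Good (Bun.tot (X := (LC.of (Lens 2 κ) : LC)) (bun κ)) :=
  (inferInstance : GoodBase E (LC.of (Lens 2 κ))).tot (B := LC.of (Lens 2 κ)) (bun κ)
    (bun_isRank κ)

/-- the class on the target of `δ` -/
def cls : E.U (VV κ ⊗ (Bun.tot (X := (LC.of (Lens 2 κ) : LC)) (bun κ))) :=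
  E.cross (o.lin κ) (o.phi (Z := LC.of (Lens 2 κ)) (bun κ) (bun_isRank κ)
    (E.oneU (LC.of (Lens 2 κ))))

variable (s : MM κ A ≅ VV κ ⊗ VV κ)

/-- the class on the source of `δ` -/
def lam : E.U (MM κ A) := E.map s.hom (E.cross (o.lin κ) (o.lin κ))

include s in
theorem good_MM (E : MultTheory.{v}) : E.Good (MM κ A) :=
  haveI : E.Good (VV κ) := good_Cpow E κ
  MultTheory.Good.of_iso E s.symm

theorem lam_bijective (X : LC) [E.Good X] :
    Function.Bijective fun x : E.U X => E.cross x (lam o s) := by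
  haveI := good_MM s E
  haveI : E.Good (VV κ) := good_Cpow E κ
  refine cross_bijective_of_iso X s _ ?_
  have h2 : (fun x : E.U X => E.cross x (E.cross (o.lin κ) (o.lin κ))) =
      (fun y => E.map (α_ X (Cpow κ) (Cpow κ)).inv y) ∘
        (fun y => E.cross y (o.lin κ)) ∘ fun x : E.U X => E.cross x (o.lin κ) := by
    funext x
    exact (cross_assoc_inv x _ _).symm
  rw [h2]
  exact (map_iso_bijective (α_ X (Cpow κ) (Cpow κ)).symm).comp
    ((lin_bijective o κ _).comp (lin_bijective o κ _))

theorem lam_deg : lam o s ∈ E.deg (MM κ A) (Fintype.card κ + Fintype.card κ : ℤ) := by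
  haveI := good_MM s E
  haveI : E.Good (VV κ) := good_Cpow E κ
  haveI := o.goodTh
  have h : o.lin κ ∈ E.deg (Cpow κ) (Fintype.card κ : ℤ) := map_deg _ (o.tau_deg _ _)
  exact map_deg _ (cross_deg h h)

theorem cls_deg : cls (κ := κ) o ∈ E.deg _ (Fintype.card κ + Fintype.card κ : ℤ) := by
  haveI : E.Good (VV κ) := good_Cpow E κ
  haveI := o.goodTh
  have h : o.lin κ ∈ E.deg (Cpow κ) (Fintype.card κ : ℤ) := map_deg _ (o.tau_deg _ _)
  have h2 := phi_deg o (Z := LC.of (Lens 2 κ)) (bun κ) (bun_isRank κ)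
    (oneU_deg (E := E) (LC.of (Lens 2 κ)))
  rw [zero_add] at h2
  exact cross_deg h h2

theorem lam_eq : lam o s = lam o' s := by
  unfold lam
  rw [lin_eq o o']

variable (f : A ⊗ VV κ ⟶ VV κ)

/-- **The class `θ` of the map `δ`.** -/
def thCls : E.U (LC.of (Lens 2 κ)) :=
  ((lam_bijective o s (LC.of (Lens 2 κ))).2 (E.map (delta f) (cls o))).choose

theorem thCls_spec : E.cross (thCls o s f) (lam o s) = E.map (delta f) (cls o) :=
  ((lam_bijective o s (LC.of (Lens 2 κ))).2 (E.map (delta f) (cls o))).choose_spec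

theorem thCls_unique {x : E.U (LC.of (Lens 2 κ))}
    (h : E.cross x (lam o s) = E.map (delta f) (cls o)) : thCls o s f = x :=
  (lam_bijective o s (LC.of (Lens 2 κ))).1 ((thCls_spec o s f).trans h.symm)

theorem thCls_deg : thCls o s f ∈ E.deg (LC.of (Lens 2 κ)) 0 := by
  haveI := good_MM s E
  haveI : E.Good (VV κ) := good_Cpow E κ
  have h1 : E.map (delta f) (cls o) ∈ E.deg (LC.of (Lens 2 κ) ⊗ MM κ A)
      (Fintype.card κ + Fintype.card κ : ℤ) := map_deg _ (cls_deg o)
  rw [← thCls_spec o s f] at h1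
  have hinj : Function.Injective (AddMonoidHom.flip
      (E.cross (X := LC.of (Lens 2 κ)) (Y := MM κ A)) (lam o s)) :=
    (lam_bijective o s (LC.of (Lens 2 κ))).1
  have hdeg : ∀ k, ∀ x ∈ E.deg (LC.of (Lens 2 κ)) k, (AddMonoidHom.flip
      (E.cross (X := LC.of (Lens 2 κ)) (Y := MM κ A)) (lam o s)) x ∈
        E.deg (LC.of (Lens 2 κ) ⊗ MM κ A) (k + (Fintype.card κ + Fintype.card κ : ℤ)) :=
    fun _ _ hx => cross_deg hx (lam_deg o s)
  refine mem_deg_of_injective hdeg hinj ?_
  rw [zero_add]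
  exact h1

/-- linearity of `δ^*` over the base -/
theorem map_delta_phi (u : E.U (LC.of (Lens 2 κ))) :
    E.map (delta f) (E.cross (o.lin κ) (o.phi (Z := LC.of (Lens 2 κ)) (bun κ) (bun_isRank κ) u)) =
      E.cross (u * thCls o s f) (lam o s) := by
  haveI := good_MM s E
  haveI : E.Good (VV κ) := good_Cpow E κ
  rw [phi_eq_act_thom, ← act_cross_right, MultTheory.mul_def, ← act_cross_left, thCls_spec]
  refine map_act (W := LC.of (Lens 2 κ) ⊗ MM κ A)
    (Z := VV κ ⊗ (Bun.tot (X := (LC.of (Lens 2 κ) : LC)) (bun κ))) (delta f) _ _ ?_ _ _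
  rintro ⟨y, m⟩ w hw
  exact base_delta f y m hw

/-- **The classes of two orientations.** -/
theorem thCls_rat : thCls o' s f =
    rat (B := LC.of (Lens 2 κ)) o o' (bun κ) (bun_isRank κ) * thCls o s f := by
  refine thCls_unique o' s f ?_
  rw [← lam_eq o o' s, ← map_delta_phi, cls, lin_eq o' o, phi_rat]

/-! ### The fibre -/

/-- the inclusion of the fibre of `bun κ` over `v` -/
def ivLC (v : SS κ) : VV κ ⟶ Bun.tot (X := (LC.of (Lens 2 κ) : LC)) (bun κ) :=
  ofClosed (X := LC.of (κ → ℂ)) (Y := LC.of (bun κ).E) (fun d => outer v d) (by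
    refine Function.LeftInverse.isClosedEmbedding
      (f := fun p : (bun κ).E => unouter v (Bun.vec p)) ?_ ?_ ?_
    · intro d
      exact unouter_outer v d
    · exact continuous_unouter.comp (continuous_const.prodMk Bun.continuous_vec)
    · exact continuous_outer.comp (continuous_const.prodMk continuous_id))

theorem thvLC_eq (v : SS κ) : thvLC v = VV κ ◁ ivLC v := by
  refine LC.hom_ext fun p => ?_
  obtain ⟨c, d⟩ := p
  change _ = app (VV κ ◁ ivLC v) (smash (c : OnePoint (κ → ℂ)) (d : OnePoint (κ → ℂ)))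
  rw [app_whiskerLeft_smash]
  rfl

/-- the isometry `d ↦ d ⊗ v` -/
def uv (v : SS κ) : Matrix (κ × κ) κ ℂ := fun p a => if p.2 = a then v.v p.1 else 0

theorem uv_isom (v : SS κ) : (uv v)ᴴ * uv v = 1 := by
  ext a b
  rw [Matrix.mul_apply, Fintype.sum_prod_type]
  simp only [conjTranspose_apply, uv]
  have h1 : ∀ i c : κ, star (if c = a then v.v i else 0) * (if c = b then v.v i else 0) =
      if c = a then (if a = b then star (v.v i) * v.v i else 0) else 0 := by
    intro i c
    by_cases hc : c = a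
    · subst hc
      rw [if_pos rfl, if_pos rfl]
      split_ifs <;> simp
    · rw [if_neg hc, if_neg hc, star_zero, zero_mul]
  simp only [h1, Finset.sum_ite_eq', Finset.mem_univ, if_true]
  by_cases hab : a = b
  · subst hab
    simp only [if_true, Matrix.one_apply_eq]
    have h2 := v.nsq_v
    have h3 : ∀ i, star (v.v i) * v.v i = ((Complex.normSq (v.v i) : ℝ) : ℂ) := fun i => by
      rw [Complex.star_def, ← Complex.normSq_eq_conj_mul_self]
    rw [Finset.sum_congr rfl fun i _ => h3 i, ← Complex.ofReal_sum]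
    change ((nsq v.v : ℝ) : ℂ) = 1
    rw [h2, Complex.ofReal_one]
  · simp [hab]

theorem ivLC_toTh (v : SS κ) :
    ivLC v ≫ toThHom (B := LC.of (Lens 2 κ)) (bun κ) (bun_isRank κ) =
      linMap κ ≫ Th.map (uv v) (uv_isom v) := by
  refine LC.hom_ext fun d => ?_
  have h1 : Bun.toTh (Z := LC.of (Lens 2 κ)) (bun κ) (bun_isRank κ) (outer v d) =
      Th.mapFun (uv v) (uv_isom v) (Th.mk 1 d IsProj.one (one_mulVec d)) := by
    refine Th.ext ?_ ?_
    · change (bun κ).P (v.lens 2) = uv v * 1 * (uv v)ᴴ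
      ext ⟨i, a⟩ ⟨j, b⟩
      rw [Matrix.mul_one, Matrix.mul_apply]
      unfold bun
      rw [Bun.blockSum_P, Matrix.blockDiagonal_apply]
      change (if a = b then lineP v.v i j else 0) = _
      simp only [conjTranspose_apply, uv, lineP_apply]
      by_cases hab : a = b
      · subst hab
        simp
      · rw [if_neg hab]
        symm
        refine Finset.sum_eq_zero fun c _ => ?_
        by_cases hc : a = c
        · subst hc
          rw [if_neg (Ne.symm hab), star_zero, mul_zero]
        · rw [if_neg hc, zero_mul]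
    · change (fun p : κ × κ => d p.2 * v.v p.1) = uv v *ᵥ d
      funext p
      simp only [mulVec, dotProduct, uv, ite_mul, zero_mul, Finset.sum_ite_eq, Finset.mem_univ,
        if_true]
      exact mul_comm _ _
  exact congrArg (fun a : Th (Fintype.card κ) (κ × κ) =>
    (a : OnePoint (Th (Fintype.card κ) (κ × κ)))) h1

/-- The Thom class restricts to the linear class on each fibre. -/
theorem map_ivLC (v : SS κ) : E.map (ivLC v) (o.phi (Z := LC.of (Lens 2 κ)) (bun κ) (bun_isRank κ)
    (E.oneU (LC.of (Lens 2 κ)))) = o.lin κ := by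
  haveI := o.goodTh
  haveI : E.Good (VV κ) := good_Cpow E κ
  change E.map (ivLC v) (o.thom (B := LC.of (Lens 2 κ)) (bun κ) (bun_isRank κ)) = _
  rw [thom_eq, ← MultTheory.map_comp, ivLC_toTh, MultTheory.map_comp, tau_map]
  rfl

theorem map_thvLC (v : SS κ) : E.map (thvLC v) (cls o) = E.cross (o.lin κ) (o.lin κ) := by
  haveI : E.Good (VV κ) := good_Cpow E κ
  rw [thvLC_eq, cls, ← cross_map_right, map_ivLC]

theorem inV_prL (M : LC) (v : SS κ) : inV M v ≫ prL κ M =
    (λ_ M).inv ≫ (point (X := LC.of (Lens 2 κ)) (v.lens 2) ▷ M) :=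
  LC.hom_ext fun _ => rfl

/-- **The restriction of `θ` to a point is the degree of the fibre map.** -/
theorem thCls_point (v : SS κ) (d : ℤ) (hd : ∀ x : E.U (VV κ ⊗ VV κ),
    E.map (deltaV f v) x = d • E.map s.hom x) :
    E.map (point (X := LC.of (Lens 2 κ)) (v.lens 2)) (thCls o s f) = d • E.one := by
  haveI := good_MM s E
  haveI : E.Good (VV κ) := good_Cpow E κ
  have h1 : E.map ((λ_ (MM κ A)).inv ≫ (point (X := LC.of (Lens 2 κ)) (v.lens 2) ▷ MM κ A))
      (E.cross (thCls o s f) (lam o s)) = d • lam o s := by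
    rw [thCls_spec, ← inV_prL, ← MultTheory.map_comp, Category.assoc, inV_prL_delta,
      MultTheory.map_comp, map_thvLC, hd]
    rfl
  refine (lam_bijective o s (𝟙_ LC)).1 ?_
  change E.cross _ _ = E.cross _ _
  rw [map_zsmul, AddMonoidHom.zsmul_apply, one_cross, ← map_zsmul, ← h1, MultTheory.map_comp,
    map_hom_inv, ← cross_map_left]

/-! ### Morphisms of theories -/

section hom

variable {E' : MultTheory.{w}} (φ : MultTheory.Hom E E')

theorem push_lin (I : Type) [Fintype I] [DecidableEq I] :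
    (φ.push o).lin I = φ.app _ (o.lin I) := by
  haveI := o.goodTh
  haveI : E.Good (Cpow I) := good_Cpow E I
  unfold Orientation.lin
  rw [φ.app_map]
  rfl

theorem push_phi {Z : LC} [E.Good Z] {ι : Type} [Fintype ι] {n : ℕ} (W : Bun Z ι)
    [E.Good W.tot] (hW : W.IsRank n) (u : E.U Z) :
    (φ.push o).phi W hW (φ.app Z u) = φ.app _ (o.phi W hW u) := by
  haveI := o.goodTh
  rw [phi_apply, phi_apply, φ.app_map, φ.app_cross]
  rfl

theorem push_lam : lam (φ.push o) s = φ.app _ (lam o s) := by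
  haveI := good_MM s E
  haveI : E.Good (VV κ) := good_Cpow E κ
  unfold lam
  rw [push_lin, φ.app_map, φ.app_cross]

theorem push_cls : cls (κ := κ) (φ.push o) = φ.app _ (cls o) := by
  haveI : E.Good (VV κ) := good_Cpow E κ
  have h := push_phi (Z := LC.of (Lens 2 κ)) o φ (bun κ) (bun_isRank κ)
    (E.oneU (LC.of (Lens 2 κ)))
  rw [φ.app_oneU] at h
  unfold cls
  rw [push_lin, φ.app_cross, h]

theorem thCls_push : thCls (φ.push o) s f = φ.app _ (thCls o s f) := by
  haveI := good_MM s E
  haveI : E.Good (VV κ) := good_Cpow E κ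
  refine thCls_unique _ s f ?_
  rw [push_lam, push_cls, ← φ.app_cross, thCls_spec, φ.app_map]

end hom

end Vale.Agent.P263.AD
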