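import Vale.Agent.P251.Q.LensInst
import Vale.Agent.P251.Q.MooreAlg
import Vale.Agent.P251.G.Polar

/-!
# P263, part AD: the Gysin sequence of a sphere bundle in a multiplicative theory

For a bundle `W` over a compact `B` with sphere bundle `S = W.Sph`, projection `p : S → B`:
* `gysin_surj` : if `U (B ⊗ ℝ)` and `U (W.tot ⊗ ℝ)` are uniquely `n`-divisible then every class of
  `S` is `p^* a + n y`;
* `gysin_ker` : if `p^* a = n y` then `a = c e(W) + n a'`.
-/

set_option linter.unusedSectionVars false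
set_option linter.style.haveILetI false

open CategoryTheory MonoidalCategory Limits Matrix Topology Finset OnePoint
open Vale.Agent.P251.G Vale.Agent.P251.G.LC Vale.Agent.P251.G.Bun
open Vale.Agent.P251.Q Vale.Agent.P251.Q.MultTheory

universe v

noncomputable section

namespace Vale.Agent.P263.AD

variable {E : MultTheory.{v}}

/-! ### Double suspension on the right -/

/-- `(Z ⊗ ℝ) ⊗ ℝ ≅ Z ⊗ ℂ` -/
def dsIso (Z : LC) : (Z ⊗ RR) ⊗ RR ≅ Z ⊗ LC.of ℂ := α_ Z RR RR ≪≫ whiskerLeftIso Z rrIso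

/-- the double suspension -/
def ds (E : MultTheory.{v}) (Z : LC) : E.U Z →+ E.U ((Z ⊗ RR) ⊗ RR) :=
  (E.map (dsIso Z).hom).comp ((AddMonoidHom.flip E.cross) E.sg)

theorem ds_apply {Z : LC} (z : E.U Z) : ds E Z z = E.map (dsIso Z).hom (E.cross z E.sg) := rfl

theorem ds_injective {Z : LC} [hZ : E.Good Z] : Function.Injective (ds E Z) := by
  intro a b h
  have h1 := congrArg (E.map (dsIso Z).inv) h
  rw [ds_apply, ds_apply, map_inv_hom, map_inv_hom] at h1
  exact cross_sg_injective h1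

theorem ds_surjective {Z : LC} [hZ : E.Good Z] : Function.Surjective (ds E Z) := by
  intro w
  obtain ⟨z, hz⟩ := (E.sg_bijective' hZ.out).2 (E.map (dsIso Z).inv w)
  refine ⟨z, ?_⟩
  have hz' : E.cross z E.sg = E.map (dsIso Z).inv w := hz
  rw [ds_apply, hz', map_hom_inv]

theorem ds_map {Z Z' : LC} [E.Good Z] [E.Good Z'] (g : Z ⟶ Z') (z : E.U Z') :
    ds E Z (E.map g z) = E.map ((g ▷ RR) ▷ RR) (ds E Z' z) := by
  rw [ds_apply, ds_apply, cross_map_left, ← MultTheory.map_comp, ← MultTheory.map_comp]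
  congr 2
  simp [dsIso, whisker_exchange]

/-! ### The cofibre sequence of the zero section -/

section seq

variable {B : LC} {ι : Type} [Fintype ι] (W : Bun B ι)

/-- The zero section and the collapse to the sphere bundle times `ℝ`. -/
theorem cofSeq_polar : CofSeq (A := B) (B := W.tot) W.zeroHom W.polarConn := by
  refine ⟨W.cofib_zeroHom, ?_⟩
  have h1 : IsPushout (coneBase W.sph) (0 : W.sph ⟶ LC.of Empty) (W.sph ◁ collHH)
      (0 : LC.of Empty ⟶ W.sph ⊗ RR) := isPushout_collHH isZero_empty 0 0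
  have h2 := W.isPushout_polar
  have h3 : IsPushout (coneBase W.sph) (W.sphHom ≫ (0 : LC.of B ⟶ LC.of Empty))
      (W.polarHom ≫ W.polarConn) (0 : LC.of Empty ⟶ W.sph ⊗ RR) := by
    rw [comp_zero, polarHom_conn]
    exact h1
  exact IsPushout.of_top h3 (by rw [zeroHom_conn, zero_comp]) h2

end seq

/-! ### The boundary of `X → X ⊗ [0,∞) → X ⊗ ℝ` -/

section base

/-- the cofibre sequence of the cone, tensored with `ℝ` -/
theorem baseSeq (X : LC) : CofSeq (coneBase X ▷ RR) ((X ◁ collHH) ▷ RR) :=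
  (CofSeq.base X).whiskerRight RR

variable {X Y : LC} [hX : E.Good X] [hY : E.Good Y]

/-- the boundary -/
def bb (E : MultTheory.{v}) (X : LC) : E.U ((X ⊗ RR) ⊗ RR) →+ E.U ((X ⊗ RR) ⊗ RR) :=
  E.map (baseSeq X).bd

theorem bb_natural (g : X ⟶ Y) (y : E.U ((Y ⊗ RR) ⊗ RR)) :
    E.map ((g ▷ RR) ▷ RR) (bb E Y y) = bb E X (E.map ((g ▷ RR) ▷ RR) y) := by
  refine map_bd (baseSeq X) (baseSeq Y) (g ▷ RR) ((g ▷ HH) ▷ RR) ((g ▷ RR) ▷ RR) ?_ ?_ y
  · rw [← MonoidalCategory.comp_whiskerRight, ← MonoidalCategory.comp_whiskerRight,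
      coneBase_naturality]
  · rw [← MonoidalCategory.comp_whiskerRight, ← MonoidalCategory.comp_whiskerRight,
      whisker_exchange]

theorem bb_surjective : Function.Surjective (bb E X) := by
  intro c
  have h0 : E.map ((X ◁ collHH) ▷ RR) c = 0 :=
    eq_zero_of_contr ((contr_tensor_HH X).tensor RR) _
  obtain ⟨x, hx⟩ := (exact_cof (baseSeq X) c).mp h0
  exact ⟨x, hx⟩

theorem bb_injective : Function.Injective (bb E X) := by
  rw [injective_iff_map_eq_zero]
  intro x hx
  obtain ⟨y, rfl⟩ := (exact_susp (baseSeq X) x).mp hx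
  have : y = 0 := eq_zero_of_contr (((contr_tensor_HH X).tensor RR).tensor RR) _
  rw [this, map_zero]

end base

/-! ### The Gysin sequence -/

section gysin

variable {B : LC} [hB : E.Good B] {ι : Type} [Fintype ι] (W : Bun B ι) [hT : E.Good W.tot]
  [hS : E.Good W.sph]

/-- the sequence of the zero section, tensored with `ℝ` -/
theorem zSeq : CofSeq (A := B ⊗ RR) (B := W.tot ⊗ RR) (W.zeroHom ▷ RR) (W.polarConn ▷ RR) :=
  (cofSeq_polar W).whiskerRight RR

/-- the projection of the sphere bundle -/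
def pr (W : Bun B ι) : W.sph ⟶ B := W.sphHom

theorem map_bd_zSeq (x : E.U ((B ⊗ RR) ⊗ RR)) :
    E.map (zSeq W).bd x = bb E W.sph (E.map ((pr W ▷ RR) ▷ RR) x) := by
  have h := map_bd (E := E) (baseSeq W.sph) (zSeq W) (pr W ▷ RR) (W.polarHom ▷ RR) (𝟙 _) (by
      rw [← MonoidalCategory.comp_whiskerRight, ← MonoidalCategory.comp_whiskerRight]
      exact congrArg (· ▷ RR) W.coneBase_polarHom) (by
      rw [← MonoidalCategory.comp_whiskerRight, polarHom_conn, Category.comp_id]) x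
  rw [MultTheory.map_id] at h
  exact h

/-- exactness at `S` -/
theorem exact_S (c : E.U W.sph) (h : E.map (W.polarConn ▷ RR) (ds E W.sph c) = 0) :
    ∃ a : E.U B, E.map (pr W) a = c := by
  obtain ⟨x, hx⟩ := (exact_cof (zSeq W) (ds E W.sph c)).mp h
  rw [map_bd_zSeq, ← bb_natural] at hx
  obtain ⟨a, ha⟩ := ds_surjective (E := E) (bb E B x)
  refine ⟨a, ds_injective ?_⟩
  rw [ds_map, ha, hx]

/-- exactness at `S`, the other inclusion -/
theorem conn_pr (a : E.U B) : E.map (W.polarConn ▷ RR) (ds E W.sph (E.map (pr W) a)) = 0 := by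
  obtain ⟨x, hx⟩ := bb_surjective (E := E) (ds E B a)
  refine (exact_cof (zSeq W) _).mpr ⟨x, ?_⟩
  rw [map_bd_zSeq, ← bb_natural, hx, ds_map]

/-- exactness at `B` -/
theorem exact_B (a : E.U B) (h : E.map (pr W) a = 0) :
    ∃ t : E.U W.tot, E.map (zeroMor W) t = a := by
  obtain ⟨x, hx⟩ := bb_surjective (E := E) (ds E B a)
  have h1 : E.map (zSeq W).bd x = 0 := by
    rw [map_bd_zSeq, ← bb_natural, hx, ← ds_map, h, map_zero]
  obtain ⟨y, hy⟩ := (exact_susp (zSeq W) x).mp h1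
  obtain ⟨t, ht⟩ := ds_surjective (E := E) (bb E W.tot y)
  refine ⟨t, ds_injective ?_⟩
  rw [ds_map, ht]
  have h2 := bb_natural (E := E) (zeroMor W) y
  rw [h2, ← hx]
  exact congrArg (bb E B) hy

/-- exactness at the Thom space -/
theorem exact_tot (t : E.U (W.tot ⊗ RR)) (h : E.map (W.zeroHom ▷ RR) t = 0) :
    ∃ c : E.U W.sph, E.map (W.polarConn ▷ RR) (ds E W.sph c) = t := by
  obtain ⟨c, hc⟩ := (exact_mid (zSeq W) t).mp h
  obtain ⟨c', rfl⟩ := ds_surjective (E := E) c
  exact ⟨c', hc⟩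

/-- The first consequence: classes of the sphere bundle modulo `n`. -/
theorem gysin_surj {n : ℕ} (hdiv : ∀ t : E.U (W.tot ⊗ RR), ∃ t', t = n • t')
    (htf : ∀ w : E.U (B ⊗ RR), n • w = 0 → w = 0)
    (c : E.U W.sph) : ∃ (a : E.U B) (y : E.U W.sph), c = E.map (pr W) a + n • y := by
  obtain ⟨t, ht⟩ := hdiv (E.map (W.polarConn ▷ RR) (ds E W.sph c))
  have h1 : E.map (W.zeroHom ▷ RR) t = 0 := by
    refine htf _ ?_
    rw [← map_nsmul, ← ht]
    exact (exact_mid (zSeq W) _).mpr ⟨_, rfl⟩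
  obtain ⟨y, hy⟩ := exact_tot W t h1
  obtain ⟨a, ha⟩ := exact_S W (c - n • y) (by
    rw [map_sub, map_sub, map_nsmul, map_nsmul, hy, ht, sub_self])
  exact ⟨a, y, by rw [ha, sub_add_cancel]⟩

/-- The second consequence: classes of the base which become divisible. -/
theorem gysin_ker {n : ℕ} (htf : ∀ t : E.U (W.tot ⊗ RR), n • t = 0 → t = 0)
    {a : E.U B} {y : E.U W.sph} (h : E.map (pr W) a = n • y) :
    ∃ (t : E.U W.tot) (a' : E.U B), a = E.map (zeroMor W) t + n • a' := by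
  have h1 : E.map (W.polarConn ▷ RR) (ds E W.sph y) = 0 := by
    refine htf _ ?_
    rw [← map_nsmul, ← map_nsmul, ← h]
    exact conn_pr W a
  obtain ⟨a', rfl⟩ := exact_S W y h1
  obtain ⟨t, ht⟩ := exact_B W (a - n • a') (by rw [map_sub, map_nsmul, h, sub_self])
  exact ⟨t, a', by rw [ht, sub_add_cancel]⟩

end gysin

/-! ### Divisibility -/

/-- no `n`-torsion -/
def TF (n : ℕ) (A : Type*) [AddCommGroup A] : Prop := ∀ w : A, n • w = 0 → w = 0

/-- `n`-divisible -/
def DV (n : ℕ) (A : Type*) [AddCommGroup A] : Prop := ∀ w : A, ∃ w' : A, w = n • w'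

section

variable {A A' : Type*} [AddCommGroup A] [AddCommGroup A'] {n : ℕ}

theorem TF.of_bijective {f : A →+ A'} (hf : Function.Bijective f) (h : TF n A) : TF n A' := by
  intro w hw
  obtain ⟨a, rfl⟩ := hf.2 w
  rw [h a (hf.1 (by rw [map_nsmul, hw, map_zero])), map_zero]

theorem DV.of_bijective {f : A →+ A'} (hf : Function.Bijective f) (h : DV n A) : DV n A' := by
  intro w
  obtain ⟨a, rfl⟩ := hf.2 w
  obtain ⟨b, rfl⟩ := h a
  exact ⟨f b, map_nsmul f n b⟩

theorem TF.pi {T : Type*} (h : TF n A) : TF n (T → A) := by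
  intro w hw
  funext t
  exact h _ (congrFun hw t)

theorem DV.pi {T : Type*} (h : DV n A) : DV n (T → A) := by
  intro w
  choose g hg using fun t => h (w t)
  exact ⟨g, funext hg⟩

theorem TF.pow (h : TF n A) (k : ℕ) : TF (n ^ k) A := by
  induction k with
  | zero => intro w hw; rwa [pow_zero, one_smul] at hw
  | succ k ih => intro w hw; exact ih w (h _ (by rwa [smul_smul, ← pow_succ']))

theorem DV.pow (h : DV n A) (k : ℕ) : DV (n ^ k) A := by
  induction k with
  | zero => intro w; exact ⟨w, by rw [pow_zero, one_smul]⟩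
  | succ k ih =>
    intro w
    obtain ⟨w', rfl⟩ := ih w
    obtain ⟨w'', rfl⟩ := h w'
    exact ⟨w'', by rw [smul_smul, ← pow_succ]⟩

end

section free

variable {P : LC} [E.Good P] {n : ℕ}

theorem bij_of_freeOn {T : Type} [Fintype T] {b : T → E.U P} (h : E.FreeOn b) (Z : LC) [E.Good Z] :
    Function.Bijective ((E.map (β_ P Z).hom).comp (E.comb b Z)) :=
  (map_iso_bijective (β_ P Z)).comp (h Z)

theorem TF.of_freeOn {T : Type} [Fintype T] {b : T → E.U P} (h : E.FreeOn b) {Z : LC} [E.Good Z]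
    (hZ : TF n (E.U Z)) : TF n (E.U (P ⊗ Z)) := TF.of_bijective (bij_of_freeOn h Z) hZ.pi

theorem DV.of_freeOn {T : Type} [Fintype T] {b : T → E.U P} (h : E.FreeOn b) {Z : LC} [E.Good Z]
    (hZ : DV n (E.U Z)) : DV n (E.U (P ⊗ Z)) := DV.of_bijective (bij_of_freeOn h Z) hZ.pi

end free

/-! ### Line bundles over projective spaces -/

section line

variable (o : Orientation E) {I : Type} [Fintype I]
  {ι : Type} [Fintype ι] (W : Bun (LC.of (Gr 1 I) : LC) ι) (hW : W.IsRank 1)

include hW o in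
/-- classes of the sphere bundle of a line bundle over a projective space, modulo `n` -/
theorem sph_surj {n : ℕ} (hd : DV n (E.U RR)) (ht : TF n (E.U RR)) (c : E.U W.sph) :
    ∃ (a : E.U (LC.of (Gr 1 I))) (y : E.U W.sph), c = E.map (pr W) a + n • y := by
  haveI hG : GoodBase E (LC.of (Gr 1 I)) := inferInstance
  haveI : E.Good W.tot := hG.tot W hW
  haveI : CellSp W.Sph := CellSp.sph W hW
  haveI hG2 : GoodBase E (LC.of W.Sph) := inferInstance
  haveI : E.Good W.sph := hG2.toGood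
  have hf := freeOn_z o _ I rfl
  have h1 : TF n (E.U (LC.of (Gr 1 I) ⊗ RR)) := TF.of_freeOn hf ht
  have h2 : DV n (E.U (LC.of (Gr 1 I) ⊗ RR)) := DV.of_freeOn hf hd
  have h3 : DV n (E.U (W.tot ⊗ RR)) :=
    DV.of_bijective (thom_bijective (B := LC.of (Gr 1 I)) o W hW RR) h2
  exact gysin_surj W h3 h1 c

include hW in
/-- classes of a projective space which become divisible on the sphere bundle of a line bundle -/
theorem sph_ker {n : ℕ} (ht : TF n (E.U RR)) {a : E.U (LC.of (Gr 1 I))} {y : E.U W.sph}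
    (h : E.map (pr W) a = n • y) :
    ∃ c a' : E.U (LC.of (Gr 1 I)), a = o.e (B := LC.of (Gr 1 I)) W hW * c + n • a' := by
  haveI hG : GoodBase E (LC.of (Gr 1 I)) := inferInstance
  haveI : E.Good W.tot := hG.tot W hW
  haveI : CellSp W.Sph := CellSp.sph W hW
  haveI hG2 : GoodBase E (LC.of W.Sph) := inferInstance
  haveI : E.Good W.sph := hG2.toGood
  have hf := freeOn_z o _ I rfl
  have h1 : TF n (E.U (LC.of (Gr 1 I) ⊗ RR)) := TF.of_freeOn hf ht
  have h3 : TF n (E.U (W.tot ⊗ RR)) :=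
    TF.of_bijective (thom_bijective (B := LC.of (Gr 1 I)) o W hW RR) h1
  obtain ⟨t, a', ha⟩ := gysin_ker W h3 h
  obtain ⟨c, rfl⟩ := (phi_bijective (Z := LC.of (Gr 1 I)) o W hW).2 t
  exact ⟨c, a', by rw [ha, ← euler_apply, euler_eq_mul (B := LC.of (Gr 1 I))]⟩

end line

end Vale.Agent.P263.AD
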