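import Vale.Agent.P263.AD.Chi
import Vale.Agent.P263.AD.Seq
import Vale.Agent.P263.AD.Alg

/-!
# P263, part ADE: the end of the proof of Adams' theorem, for abstract theories

`E₁`, `E₂` multiplicative theories, `hL`, `hR : E₁ ⟶ E₂`, `o` an orientation of `E₁`,
`φ : E₂.A → ZMod (2^m)` (multiplicative law, see `Theta`).  A class `θ` of degree `0` of the
projective space `Lens 2 I`, `|I| = m`, with `hR θ = rho^m hL θ` and odd degree, exists only for
`m = 1, 2, 4` (`Theta.final`).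
-/

open CategoryTheory MonoidalCategory OnePoint Matrix Topology
open Vale.Agent.P251.G Vale.Agent.P251.G.LC Vale.Agent.P251.M
open Vale.Agent.P251.Q hiding nev1 nev1_X
open Vale.Agent.P251.F Vale.Agent.P217

universe v w

noncomputable section

namespace Vale.Agent.P263.AD

open MultTheory

/-! ### Coefficients -/

section coeffs

variable {E : MultTheory.{v}} (o : Orientation E) (I : Type) [Fintype I] [E.Good (CP I)]

/-- The coefficients of a homogeneous class of degree `0` are homogeneous. -/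
theorem exists_coeffs {α : E.U (CP I)} (hα : α ∈ E.deg (CP I) 0) :
    ∃ a : Fin (Fintype.card I) → E.A, (∀ i : Fin (Fintype.card I), a i ∈ E.degA (-((i : ℕ) : ℤ))) ∧
      α = ∑ i, a i • o.z I ^ (i : ℕ) := by
  obtain ⟨c, hc⟩ := (bijective_z o I).2 α
  refine ⟨fun i => E.toA (E.proj (𝟙_ LC) (-((i : ℕ) : ℤ)) (E.ofA (c i))), fun i => proj_mem _ _, ?_⟩
  have h1 := congrArg (E.proj _ 0) hc
  rw [proj_of_mem hα] at h1
  rw [← h1]
  dsimp only
  rw [map_sum]
  refine Finset.sum_congr rfl fun i _ => ?_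
  have hi := pow_deg (z_deg o I) (i : ℕ)
  rw [mul_one] at hi
  exact proj_smul (by ring) _ hi

end coeffs

/-! ### The twist -/

section twist

variable {E₁ : MultTheory.{v}} {E₂ : MultTheory.{w}} (hL hR : MultTheory.Hom E₁ E₂)
  (o : Orientation E₁) {K : Type} [CommRing K] (φ : E₂.A →+* K) (I : Type) [Fintype I]
  [E₁.Good (CP I)] [E₂.Good (CP I)] (x : K) (hx : x ^ Fintype.card I = 0)

theorem app_sum_z (h : MultTheory.Hom E₁ E₂) (a : Fin (Fintype.card I) → E₁.A) :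
    h.app _ (∑ i, a i • o.z I ^ (i : ℕ)) = ∑ i, h.mapA (a i) • (h.push o).z I ^ (i : ℕ) := by
  rw [map_sum]
  refine Finset.sum_congr rfl fun i _ => ?_
  rw [h.app_smul, push_z]
  congr 1
  exact map_pow (h.mapU (CP I)) (o.z I) (i : ℕ)

theorem chi_push (a : Fin (Fintype.card I) → E₁.A) :
    chi (hL.push o) φ I x hx (hL.app _ (∑ i, a i • o.z I ^ (i : ℕ))) =
      ∑ i, φ (hL.mapA (a i)) * x ^ (i : ℕ) := by
  rw [app_sum_z, map_sum]
  refine Finset.sum_congr rfl fun i _ => ?_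
  rw [chi_smul, map_pow, chi_z]

/-- The two images of a class of degree `0` have the same character. -/
theorem chi_twist {u : Kˣ} (hu : (u : K) = 3)
    (hg : InvSeries.map φ (gcmp (hL.push o) (hR.push o)) = gser u hu) (hx2 : x = -2)
    (hφ : ∀ (w : ℕ) (a : E₁.A), a ∈ E₁.degA (-(w : ℤ)) →
      φ (hR.mapA a) = (u : K) ^ w * φ (hL.mapA a))
    {α : E₁.U (CP I)} (hα : α ∈ E₁.deg (CP I) 0) :
    chi (hL.push o) φ I x hx (hR.app _ α) = chi (hL.push o) φ I x hx (hL.app _ α) := by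
  classical
  obtain ⟨a, ha, rfl⟩ := exists_coeffs o I hα
  rw [chi_push, app_sum_z, map_sum]
  refine Finset.sum_congr rfl fun i _ => ?_
  have : Nonempty I := Fintype.card_pos_iff.1 (lt_of_le_of_lt (Nat.zero_le _) i.2)
  have h1 := chi_rho (hL.push o) φ I x hx (hR.push o) hu hg hx2
  rw [chi_smul, map_pow, z_eq_rho_mul (hL.push o) I (hR.push o), map_mul, chi_z, hφ _ _ (ha i)]
  have h2 : (u : K) * (chi (hL.push o) φ I x hx (rho (hL.push o) I (hR.push o)) * x) = x := by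
    rw [hu, ← mul_assoc, h1, one_mul]
  calc (u : K) ^ (i : ℕ) * φ (hL.mapA (a i)) *
        (chi (hL.push o) φ I x hx (rho (hL.push o) I (hR.push o)) * x) ^ (i : ℕ)
      = φ (hL.mapA (a i)) *
        ((u : K) * (chi (hL.push o) φ I x hx (rho (hL.push o) I (hR.push o)) * x)) ^ (i : ℕ) := by
        ring
    _ = _ := by rw [h2]

end twist

/-! ### Arithmetic -/

section arith

theorem two_pow_eq_zero (m : ℕ) : (2 : ZMod (2 ^ m)) ^ m = 0 := by
  have := ZMod.natCast_self (2 ^ m)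
  push_cast at this
  exact this

theorem neg_two_pow_eq_zero (m : ℕ) : (-2 : ZMod (2 ^ m)) ^ m = 0 := by
  rw [neg_pow, two_pow_eq_zero, mul_zero]

theorem isUnit_odd (m : ℕ) {d : ℤ} (hd : Odd d) : IsUnit (d : ZMod (2 ^ m)) := by
  obtain ⟨k, rfl⟩ := hd
  have hn : IsNilpotent (2 * (k : ZMod (2 ^ m))) := ⟨m, by rw [mul_pow, two_pow_eq_zero, zero_mul]⟩
  have := IsNilpotent.isUnit_add_left_of_commute hn isUnit_one (Commute.all _ _)
  push_cast
  rw [add_comm]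
  exact this

/-- The last step. -/
theorem arith_final {m : ℕ} (hm : m ≠ 0) {Θ : ZMod (2 ^ m)} (hΘ : IsUnit Θ)
    (h : 3 ^ m * Θ = Θ) : m = 1 ∨ m = 2 ∨ m = 4 := by
  have h3 : (3 : ZMod (2 ^ m)) ^ m - 1 = 0 := by
    have h1 : ((3 : ZMod (2 ^ m)) ^ m - 1) * Θ = 0 := by rw [sub_mul, h, one_mul, sub_self]
    exact hΘ.mul_left_eq_zero.1 h1
  have h4 : 2 ^ m ∣ 3 ^ m - 1 := by
    rw [← ZMod.natCast_eq_zero_iff, Nat.cast_sub (Nat.one_le_pow _ _ (by norm_num))]
    push_cast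
    exact h3
  rcases dvd_three_pow h4 with h | h | h | h
  · exact absurd h hm
  · exact Or.inl h
  · exact Or.inr (Or.inl h)
  · exact Or.inr (Or.inr h)

end arith

/-! ### The final argument -/

section final

variable {E₁ : MultTheory.{v}} {E₂ : MultTheory.{w}} (hL hR : MultTheory.Hom E₁ E₂)
  (o : Orientation E₁) (I : Type) [Fintype I]

/-- The final argument, on the projective space. -/
theorem chi_final [E₁.Good (CP I)] [E₂.Good (CP I)] {m : ℕ} (hm : Fintype.card I = m)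
    (hm0 : m ≠ 0) (φ : E₂.A →+* ZMod (2 ^ m)) {u : (ZMod (2 ^ m))ˣ}
    (hu : (u : ZMod (2 ^ m)) = 3) (hlaw : (hL.push o).law.map φ = mulLaw (ZMod (2 ^ m)))
    (hg : InvSeries.map φ (gcmp (hL.push o) (hR.push o)) = gser u hu)
    (hφ : ∀ (w : ℕ) (a : E₁.A), a ∈ E₁.degA (-(w : ℤ)) →
      φ (hR.mapA a) = (u : ZMod (2 ^ m)) ^ w * φ (hL.mapA a))
    {α : E₁.U (CP I)} (hα : α ∈ E₁.deg (CP I) 0) {d : ℤ} (hd : Odd d) (a : Fin (Fintype.card I) → E₁.A)
    (ha : α = ∑ i, a i • o.z I ^ (i : ℕ)) (y₀ : E₁.A)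
    (ha0 : ∀ i : Fin (Fintype.card I), (i : ℕ) = 0 → a i = d • (1 : E₁.A) + (2 ^ m) • y₀)
    (c w : E₂.U (CP I))
    (H : hR.app _ α = rho (hL.push o) I (hR.push o) ^ m * hL.app _ α +
      (hL.push o).e (B := CP I) ((taut 1 I).tpow 2) ((taut_isRank 1 I).tpow1 2) * c +
        (2 ^ m) • w) :
    m = 1 ∨ m = 2 ∨ m = 4 := by
  have hx : (-2 : ZMod (2 ^ m)) ^ Fintype.card I = 0 := by rw [hm]; exact neg_two_pow_eq_zero m
  have h2 : ((2 ^ m : ℕ) : ZMod (2 ^ m)) = 0 := ZMod.natCast_self _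
  have h1 := congrArg (chi (hL.push o) φ I (-2) hx) H
  rw [map_add, map_add, map_mul, map_mul, map_pow, chi_tpow_two _ φ I _ hx hlaw rfl, zero_mul,
    add_zero, map_nsmul, nsmul_eq_mul, h2, zero_mul, add_zero,
    chi_twist hL hR o φ I _ hx hu hg rfl hφ hα] at h1
  have h3 := chi_rho (hL.push o) φ I (-2) hx (hR.push o) hu hg rfl
  refine arith_final hm0 (Θ := chi (hL.push o) φ I (-2) hx (hL.app _ α)) ?_ ?_
  · rw [ha, chi_push]
    have hpos : 0 < Fintype.card I := by omega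
    rw [← Finset.add_sum_erase Finset.univ _ (Finset.mem_univ (⟨0, hpos⟩ : Fin (Fintype.card I))),
      ha0 ⟨0, hpos⟩ rfl, map_add, map_zsmul, map_one, map_nsmul, map_add, map_zsmul, map_one,
      map_nsmul, pow_zero, mul_one, nsmul_eq_mul, h2, zero_mul, add_zero, zsmul_one]
    refine IsNilpotent.isUnit_add_left_of_commute ?_ (isUnit_odd m hd) (Commute.all _ _)
    have h4 : ∀ i ∈ Finset.univ.erase (⟨0, hpos⟩ : Fin (Fintype.card I)),
        φ (hL.mapA (a i)) * (-2 : ZMod (2 ^ m)) ^ (i : ℕ) =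
          -2 * (φ (hL.mapA (a i)) * (-2 : ZMod (2 ^ m)) ^ ((i : ℕ) - 1)) := by
      intro i hi
      have hi' : (i : ℕ) ≠ 0 := fun h => (Finset.mem_erase.1 hi).1 (Fin.ext h)
      obtain ⟨j, hj⟩ := Nat.exists_eq_succ_of_ne_zero hi'
      rw [hj, Nat.succ_sub_one, pow_succ]
      ring
    rw [Finset.sum_congr rfl h4, ← Finset.mul_sum]
    exact ⟨m, by rw [mul_pow, neg_two_pow_eq_zero, zero_mul]⟩
  · conv_lhs => rw [h1]
    rw [← mul_assoc, ← mul_pow, h3, one_pow, one_mul]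

variable {I}

/-- The projection of the lens space. -/
theorem pr_eq_toGr : pr (B := LC.of (Gr 1 I)) ((taut 1 I).tpow 2) =
    (cmap (X := LC.of (Lens 2 I)) (Y := LC.of (Gr 1 I)) (Lens.toGr 2 I)) :=
  LC.hom_ext fun _ => rfl

/-- Restriction to a point of the real projective space. -/
theorem map_point_sum {E : MultTheory.{v}} (o : Orientation E) [E.Good (LC.of (Lens 2 I))]
    [E.Good (CP I)] (y : Lens 2 I) (a : Fin (Fintype.card I) → E.A) (h0 : 0 < Fintype.card I) :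
    E.map (point (X := LC.of (Lens 2 I)) y)
      (E.map (cmap (X := LC.of (Lens 2 I)) (Y := LC.of (Gr 1 I)) (Lens.toGr 2 I))
        (∑ i, a i • o.z I ^ (i : ℕ))) = E.ofA (a ⟨0, h0⟩) := by
  have hv : E.map (point (X := LC.of (Lens 2 I)) y)
      (E.map (cmap (X := LC.of (Lens 2 I)) (Y := LC.of (Gr 1 I)) (Lens.toGr 2 I)) (o.z I)) = 0 := by
    have h1 := vL_point o (p := 2) I y
    rw [vL_eq_map_z] at h1
    exact h1
  have h1 : E.map (point (X := LC.of (Lens 2 I)) y)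
      (E.map (cmap (X := LC.of (Lens 2 I)) (Y := LC.of (Gr 1 I)) (Lens.toGr 2 I))
        (1 : E.U (CP I))) = E.one := by
    have h2 : E.map (cmap (X := LC.of (Lens 2 I)) (Y := LC.of (Gr 1 I)) (Lens.toGr 2 I))
        (1 : E.U (CP I)) = E.oneU (LC.of (Lens 2 I)) :=
      map_oneU (X := LC.of (Lens 2 I)) (Y := LC.of (Gr 1 I)) (Lens.toGr 2 I)
    rw [h2, oneU, ← MultTheory.map_comp]
    have h3 : point (X := LC.of (Lens 2 I)) y ≫ cmap (toPt (LC.of (Lens 2 I))) = 𝟙 _ :=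
      LC.hom_ext fun _ => rfl
    rw [h3, MultTheory.map_id]
  rw [map_sum, map_sum, Finset.sum_eq_single (⟨0, h0⟩ : Fin (Fintype.card I))]
  · rw [MultTheory.map_smul, MultTheory.map_smul, pow_zero, h1]
    have h2 := ofA_mul (E := E) (a ⟨0, h0⟩) 1
    rw [mul_one, ofA_one] at h2
    exact h2.symm
  · intro i _ hi
    have hi' : (i : ℕ) ≠ 0 := fun h => hi (Fin.ext h)
    obtain ⟨j, hj⟩ := Nat.exists_eq_succ_of_ne_zero hi'
    rw [MultTheory.map_smul, MultTheory.map_smul, hj, pow_succ, map_mul', map_mul', hv, mul_zero,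
      smul_zero]
  · intro h; exact absurd (Finset.mem_univ _) h

variable (I)

/-- **The final argument**, on the real projective space. -/
theorem theta_final {m : ℕ} (hm : Fintype.card I = m)
    (hm0 : m ≠ 0) (φ : E₂.A →+* ZMod (2 ^ m)) {u : (ZMod (2 ^ m))ˣ}
    (hu : (u : ZMod (2 ^ m)) = 3) (hlaw : (hL.push o).law.map φ = mulLaw (ZMod (2 ^ m)))
    (hg : InvSeries.map φ (gcmp (hL.push o) (hR.push o)) = gser u hu)
    (hφ : ∀ (w : ℕ) (a : E₁.A), a ∈ E₁.degA (-(w : ℤ)) →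
      φ (hR.mapA a) = (u : ZMod (2 ^ m)) ^ w * φ (hL.mapA a))
    (hd1 : DV 2 (E₁.U RR)) (ht1 : TF 2 (E₁.U RR)) (ht2 : TF 2 (E₂.U RR))
    [E₁.Good (LC.of (Lens 2 I))] [E₂.Good (LC.of (Lens 2 I))] [E₁.Good (CP I)] [E₂.Good (CP I)]
    {θ : E₁.U (LC.of (Lens 2 I))} (hθ : θ ∈ E₁.deg (LC.of (Lens 2 I)) 0) (y : Lens 2 I) {d : ℤ}
    (hd : Odd d) (hpt : E₁.map (point (X := LC.of (Lens 2 I)) y) θ = d • E₁.one)
    (H : hR.app _ θ = E₂.mapAlg (X := LC.of (Lens 2 I)) (Y := LC.of (Gr 1 I)) (Lens.toGr 2 I)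
      (rho (hL.push o) I (hR.push o)) ^ m * hL.app _ θ) :
    m = 1 ∨ m = 2 ∨ m = 4 := by
  set q : LC.of (Lens 2 I) ⟶ LC.of (Gr 1 I) :=
    cmap (X := LC.of (Lens 2 I)) (Y := LC.of (Gr 1 I)) (Lens.toGr 2 I) with hq
  have hW := (taut_isRank 1 I).tpow1 2
  obtain ⟨α₀, β₀, h0⟩ := sph_surj o ((taut 1 I).tpow 2) hW
    (hd1.pow m) (ht1.pow m) θ
  rw [pr_eq_toGr, ← hq] at h0
  have h1 : θ = E₁.map q (E₁.proj _ 0 α₀) + (2 ^ m) • E₁.proj (LC.of (Lens 2 I)) 0 β₀ := by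
    have := congrArg (E₁.proj (LC.of (Lens 2 I)) 0) h0
    rw [proj_of_mem hθ, map_add, map_nsmul] at this
    rw [← proj_map]
    exact this
  set α := E₁.proj (CP I) 0 α₀ with hαdef
  set β := E₁.proj (LC.of (Lens 2 I)) 0 β₀ with hβdef
  have hα : α ∈ E₁.deg (CP I) 0 := proj_mem _ _
  -- the images in `E₂`
  have h2 : ∀ h : MultTheory.Hom E₁ E₂, h.app _ θ = E₂.map q (h.app _ α) + (2 ^ m) • h.app _ β := by
    intro h
    rw [h1, map_add, map_nsmul, h.app_map]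
  have h3 : E₂.map q (hR.app _ α - rho (hL.push o) I (hR.push o) ^ m * hL.app _ α) =
      (2 ^ m) • (E₂.map q (rho (hL.push o) I (hR.push o)) ^ m * hL.app _ β - hR.app _ β) := by
    have h4 : E₂.map q (rho (hL.push o) I (hR.push o) ^ m * hL.app _ α) =
        E₂.map q (rho (hL.push o) I (hR.push o)) ^ m * E₂.map q (hL.app _ α) := by
      have := map_mul (E₂.mapAlg (X := LC.of (Lens 2 I)) (Y := LC.of (Gr 1 I)) (Lens.toGr 2 I))
        (rho (hL.push o) I (hR.push o) ^ m) (hL.app _ α)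
      rw [map_pow] at this
      exact this
    have h5 : hR.app _ θ = E₂.map q (rho (hL.push o) I (hR.push o)) ^ m * hL.app _ θ := H
    rw [h2 hR, h2 hL, mul_add, mul_smul_comm] at h5
    rw [map_sub, h4, smul_sub, sub_eq_sub_iff_add_eq_add, h5]
    exact add_comm _ _
  rw [← pr_eq_toGr] at hq
  rw [hq] at h3
  obtain ⟨c, w, hcw⟩ := sph_ker (hL.push o) ((taut 1 I).tpow 2) hW
    (ht2.pow m) h3
  obtain ⟨a, ha, haα⟩ := exists_coeffs o I hα
  -- the restriction to the point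
  have hpos : 0 < Fintype.card I := by omega
  have hpr : E₁.map (point (X := LC.of (Lens 2 I)) y) (E₁.map q α) = E₁.ofA (a ⟨0, hpos⟩) := by
    rw [haα, hq, pr_eq_toGr]
    exact map_point_sum o y a hpos
  refine chi_final hL hR o I hm hm0 φ hu hlaw hg hφ hα hd a haα
    (-E₁.toA (E₁.map (point (X := LC.of (Lens 2 I)) y) β)) ?_ c w ?_
  · intro i hi
    have h6 := congrArg (E₁.map (point (X := LC.of (Lens 2 I)) y)) h1
    rw [map_add, map_nsmul, hpt, hpr] at h6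
    have hi0 : i = ⟨0, hpos⟩ := Fin.ext hi
    have h7 : d • (1 : E₁.A) = a ⟨0, hpos⟩ +
        (2 ^ m) • E₁.toA (E₁.map (point (X := LC.of (Lens 2 I)) y) β) := h6
    rw [hi0, h7, smul_neg]
    abel
  · rw [sub_eq_iff_eq_add] at hcw
    rw [hcw]
    abel

end final

end Vale.Agent.P263.AD
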