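import Vale.Agent.P263.AD.HopfCore
import Vale.Agent.P263.AD.Adams
import Mathlib.Analysis.Normed.Module.HahnBanach

/-!
# P263, block AD (ADH): the degree of the fibre map `δ_v` is the Hopf invariant, mod 2

`fibreDeg` : if the Hopf invariant of `f : (A × V)⁺ → V⁺` is one (`Su.Odd`) then `δ_v^*` of the
generator of `(V × V)⁺` is not a coboundary.
-/

open Finset OnePoint Topology CategoryTheory MonoidalCategory

namespace Vale.Agent.P263.AD.HC

open Vale.Agent.P263.S Vale.Agent.P263.E Vale.Agent.P263.H83 Vale.Agent.P263.G2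
  Vale.Agent.P263.T0 Vale.Agent.P263.TJ Vale.Agent.P251.G

open Vale.Agent.P251.G.LC hiding Sph

set_option linter.unusedSectionVars false

/-! ### the chart of the interval -/

theorem loopE_mono {u w a b : ℝ} (h : w ≤ u) (ha : GB.loopE u = (a : OnePoint ℝ))
    (hb : GB.loopE w = (b : OnePoint ℝ)) : b ≤ a := by
  have hu := GB.loopE_ne_infty (u := u) (by rw [ha]; exact OnePoint.coe_ne_infty a)
  have hw := GB.loopE_ne_infty (u := w) (by rw [hb]; exact OnePoint.coe_ne_infty b)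
  rw [GB.loopE, if_pos hu] at ha
  rw [GB.loopE, if_pos hw] at hb
  have ha' : Real.tan (Real.pi * (u - 1 / 2)) = a := OnePoint.coe_injective ha
  have hb' : Real.tan (Real.pi * (w - 1 / 2)) = b := OnePoint.coe_injective hb
  have hp := Real.pi_pos
  rw [← ha', ← hb']
  refine Real.strictMonoOn_tan.monotoneOn ⟨?_, ?_⟩ ⟨?_, ?_⟩ ?_ <;> nlinarith [hu.1, hu.2, hw.1, hw.2]

theorem loopE_half : GB.loopE (1 / 2) = ((0 : ℝ) : OnePoint ℝ) := by
  rw [GB.loopE, if_pos ⟨by norm_num, by norm_num⟩, sub_self, mul_zero, Real.tan_zero]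

/-- the half of the chart -/
noncomputable def om : C(unitInterval, OnePoint ℝ) :=
  ⟨fun t => GB.loopE (t / 2), GB.continuous_loopE.comp (by fun_prop)⟩

theorem om_apply (t : unitInterval) : om t = GB.loopE (t / 2) := rfl

theorem om_zero : om 0 = ∞ := by
  rw [om_apply]
  change GB.loopE (0 / 2) = ∞
  rw [zero_div, GB.loopE_zero]

theorem om_one : om 1 = ((0 : ℝ) : OnePoint ℝ) := loopE_half

theorem om_nonpos {t : unitInterval} {r : ℝ} (h : om t = (r : OnePoint ℝ)) : r ≤ 0 :=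
  loopE_mono (u := 1 / 2) (w := t / 2) (by linarith [t.2.2]) loopE_half h

/-! ### linear coordinates -/

/-- a linear isomorphism with a given value -/
theorem exists_coord {E : Type} [NormedAddCommGroup E] [NormedSpace ℝ E] [FiniteDimensional ℝ E]
    {m : ℕ} (hm : Module.finrank ℝ E = m + 1) {e : E} (he : e ≠ 0) :
    ∃ Ψ : ((Fin m → ℝ) × ℝ) ≃L[ℝ] E, Ψ (0, 1) = e := by
  have h1 : Module.finrank ℝ ((Fin m → ℝ) × ℝ) = Module.finrank ℝ E := by
    rw [hm, Module.finrank_prod, Module.finrank_fin_fun, Module.finrank_self]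
  have Ψ0 : ((Fin m → ℝ) × ℝ) ≃L[ℝ] E := ContinuousLinearEquiv.ofFinrankEq h1
  have h2 : Ψ0 (0, 1) ≠ 0 := by
    intro h
    have h3 := Ψ0.map_eq_zero_iff.1 h
    exact one_ne_zero (congrArg Prod.snd h3)
  obtain ⟨A, hA⟩ := SeparatingDual.exists_continuousLinearEquiv_apply_eq (R := ℝ) h2 he
  exact ⟨Ψ0.trans A, hA⟩

/-! ### the loop coordinate -/

theorem jl_infty (m : ℕ) (s : unitInterval) : jl m (∞, s) = ∞ := by
  rw [jl_apply, join2_infty_left]

theorem jl_of_infty {m : ℕ} (x : T0.Sph m) {s : unitInterval} (h : GB.loopU s = ∞) :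
    jl m (x, s) = ∞ := by
  have h1 : lp s = ∞ := tup_of_eq_infty (i := 0) h
  rw [jl_apply, h1, join2_infty_right]

theorem jl_coe {m : ℕ} (x : Fin m → ℝ) {s : unitInterval} {a : ℝ}
    (h : GB.loopU s = (a : OnePoint ℝ)) :
    jl m ((x : T0.Sph m), s) = ((Su.ap m (x, a) : Fin (m + 1) → ℝ) : T0.Sph (m + 1)) := by
  have h1 : lp s = ((fun _ => a : Fin 1 → ℝ) : T0.Sph 1) := by
    rw [← tup_coe]
    exact congrArg tup (funext fun _ => h)
  rw [jl_apply, h1, join2_coe]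
  rfl

/-! ### the coordinates -/

section inst

variable {κ : Type} [Fintype κ] [DecidableEq κ]

/-- the coordinates of the source and of the target -/
structure Crd (d m n : ℕ) (v : SS κ) where
  /-- the coordinates of the source; the last one is the direction `v` -/
  Ψ : ((Fin m → ℝ) × ℝ) ≃L[ℝ] (Fin d → ℝ) × (κ → ℂ)
  hΨ : Ψ (0, 1) = (0, v.v)
  /-- the coordinates of the target -/
  Φ : (κ → ℂ) ≃L[ℝ] (Fin n → ℝ)

namespace Crd

variable {d m n : ℕ} {v : SS κ} (C : Crd d m n v)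

theorem Ψ_add (x : Fin m → ℝ) (a r : ℝ) :
    C.Ψ (x, a + r) = ((C.Ψ (x, a)).1, (C.Ψ (x, a)).2 + r • v.v) := by
  have h1 : ((x, a + r) : (Fin m → ℝ) × ℝ) = (x, a) + r • (0, 1) := by
    ext i
    · simp
    · simp
  rw [h1, map_add, _root_.map_smul, C.hΨ]
  ext i
  · simp
  · simp

/-- the coordinates of the source, on the sphere -/
noncomputable def ΨS : T0.Sph (m + 1) ≃ₜ OnePoint ((Fin d → ℝ) × (κ → ℂ)) :=
  ((Su.ap m).symm.trans C.Ψ.toHomeomorph).onePointCongr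

theorem ΨS_jl (x : Fin m → ℝ) {s : unitInterval} {a : ℝ}
    (h : GB.loopU s = (a : OnePoint ℝ)) :
    C.ΨS (jl m ((x : T0.Sph m), s)) = ((C.Ψ (x, a) : (Fin d → ℝ) × (κ → ℂ)) :
      OnePoint ((Fin d → ℝ) × (κ → ℂ))) := by
  rw [jl_coe x h]
  change ((C.Ψ ((Su.ap m).symm (Su.ap m (x, a))) : (Fin d → ℝ) × (κ → ℂ)) :
      OnePoint ((Fin d → ℝ) × (κ → ℂ))) = _
  rw [Homeomorph.symm_apply_apply]

/-- the coordinates of the target, on the sphere -/
noncomputable def ΦS : OnePoint (κ → ℂ) ≃ₜ T0.Sph n := C.Φ.toHomeomorph.onePointCongr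

/-- the coordinates of the source of `δ_v` -/
noncomputable def LQ : ((Fin m → ℝ) × (ℝ × ℝ)) ≃ₜ ((Fin d → ℝ) × ((κ → ℂ) × ℝ)) :=
  (Homeomorph.prodAssoc _ _ _).symm.trans
    ((C.Ψ.toHomeomorph.prodCongr (Homeomorph.refl ℝ)).trans (Homeomorph.prodAssoc _ _ _))

theorem LQ_apply (x : Fin m → ℝ) (a r : ℝ) :
    C.LQ (x, (a, r)) = ((C.Ψ (x, a)).1, ((C.Ψ (x, a)).2, r)) := rfl

/-- half sum and half difference -/
noncomputable def hd : (ℝ × ℝ) ≃ₜ (ℝ × ℝ) where
  toFun p := ((p.1 + p.2) / 2, (p.1 - p.2) / 2)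
  invFun p := (p.1 + p.2, p.1 - p.2)
  left_inv p := by
    refine Prod.ext ?_ ?_
    · change (p.1 + p.2) / 2 + (p.1 - p.2) / 2 = p.1
      ring
    · change (p.1 + p.2) / 2 - (p.1 - p.2) / 2 = p.2
      ring
  right_inv p := by
    refine Prod.ext ?_ ?_
    · change ((p.1 + p.2) + (p.1 - p.2)) / 2 = p.1
      ring
    · change ((p.1 + p.2) - (p.1 - p.2)) / 2 = p.2
      ring
  continuous_toFun := by fun_prop
  continuous_invFun := (continuous_fst.add continuous_snd).prodMk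
    (continuous_fst.sub continuous_snd)

/-- the coordinates of the upper half of the source of `δ_v` -/
noncomputable def LP : ((Fin m → ℝ) × (ℝ × ℝ)) ≃ₜ ((Fin d → ℝ) × ((κ → ℂ) × ℝ)) :=
  ((Homeomorph.refl (Fin m → ℝ)).prodCongr hd).trans C.LQ

theorem LP_apply (x : Fin m → ℝ) (a b : ℝ) :
    C.LP (x, (a, b)) = ((C.Ψ (x, (a + b) / 2)).1, ((C.Ψ (x, (a + b) / 2)).2, (a - b) / 2)) := rfl

/-- the upper half -/
noncomputable def P : C(T0.Sph m × unitInterval × unitInterval,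
    OnePoint ((Fin d → ℝ) × ((κ → ℂ) × ℝ))) :=
  ⟨fun z => C.LP.onePointCongr (smash z.1 (smash (GB.loopU z.2.1) (GB.loopU (z.2.1 * z.2.2)))),
    (Homeomorph.continuous _).comp (continuous_smash.comp (continuous_fst.prodMk
      (continuous_smash.comp ((GB.loopU.continuous.comp (continuous_fst.comp continuous_snd)).prodMk
        (GB.loopU.continuous.comp ((continuous_fst.comp continuous_snd).mul
          (continuous_snd.comp continuous_snd)))))))⟩

theorem P_apply (x : T0.Sph m) (s t : unitInterval) : C.P (x, s, t) =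
    C.LP.onePointCongr (smash x (smash (GB.loopU s) (GB.loopU (s * t)))) := rfl

/-- the lower half -/
noncomputable def Q : C(T0.Sph m × unitInterval × unitInterval,
    OnePoint ((Fin d → ℝ) × ((κ → ℂ) × ℝ))) :=
  ⟨fun z => C.LQ.onePointCongr (smash z.1 (smash (GB.loopU z.2.1) (om z.2.2))),
    (Homeomorph.continuous _).comp (continuous_smash.comp (continuous_fst.prodMk
      (continuous_smash.comp ((GB.loopU.continuous.comp (continuous_fst.comp continuous_snd)).prodMk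
        (om.continuous.comp (continuous_snd.comp continuous_snd))))))⟩

theorem Q_apply (x : T0.Sph m) (s t : unitInterval) : C.Q (x, s, t) =
    C.LQ.onePointCongr (smash x (smash (GB.loopU s) (om t))) := rfl

/-- the coordinates of the target of `δ_v` -/
noncomputable def LT : ((κ → ℂ) × (κ → ℂ)) ≃ₜ (Fin (n + n) → ℝ) :=
  halfs.symm.trans ((C.Φ.toHomeomorph.prodCongr C.Φ.toHomeomorph).trans
    (Fin.appendHomeomorph (X := ℝ) n n))

/-- the coordinates of the target of `δ_v`, on the sphere -/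
noncomputable def TS : OnePoint ((κ → ℂ) × (κ → ℂ)) ≃ₜ T0.Sph (n + n) := C.LT.onePointCongr

theorem TS_hs (x y : OnePoint (κ → ℂ)) : C.TS (hs x y) = join2 (C.ΦS x) (C.ΦS y) := by
  induction x using OnePoint.rec with
  | infty =>
    rw [hs_infty_left]
    exact (join2_infty_left _).symm
  | coe x =>
    induction y using OnePoint.rec with
    | infty =>
      rw [hs_infty_right]
      exact (join2_infty_right _).symm
    | coe y =>
      change ((Fin.appendHomeomorph (X := ℝ) n n ((C.Φ.toHomeomorph.prodCongr C.Φ.toHomeomorph)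
        (halfs.symm (halfs (x, y)))) : Fin (n + n) → ℝ) : T0.Sph (n + n)) = _
      rw [Homeomorph.symm_apply_apply]
      rfl

end Crd

/-- the ray `- r v` -/
noncomputable def ray (v : SS κ) : LC.of ℝ ⟶ VV κ :=
  ofClosed (X := LC.of ℝ) (Y := LC.of (κ → ℂ)) (fun r : ℝ => -(r • v.v)) (by
    refine Function.LeftInverse.isClosedEmbedding (f := fun p : κ → ℂ => rip v (-p)) ?_ ?_ ?_
    · intro r
      change rip v (-(-(r • v.v))) = r
      rw [_root_.neg_neg, rip_smul]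
    · exact continuous_rip.comp (continuous_const.prodMk (by fun_prop))
    · fun_prop)

theorem ray_coe (v : SS κ) (r : ℝ) :
    app (ray v) (r : OnePoint ℝ) = ((-(r • v.v) : κ → ℂ) : OnePoint (κ → ℂ)) := rfl

namespace Crd

variable {d m n : ℕ} {v : SS κ} (C : Crd d m n v)
  (f : LC.of (Fin d → ℝ) ⊗ VV κ ⟶ VV κ)

/-- `f` in coordinates -/
noncomputable def fS : C(T0.Sph (m + 1), T0.Sph n) :=
  (C.ΦS : C(OnePoint (κ → ℂ), T0.Sph n)).comp
    ((LC.Hom.toMap f : C(OnePoint ((Fin d → ℝ) × (κ → ℂ)), OnePoint (κ → ℂ))).comp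
      (C.ΨS : C(T0.Sph (m + 1), OnePoint ((Fin d → ℝ) × (κ → ℂ)))))

theorem fS_apply (y : T0.Sph (m + 1)) : C.fS f y = C.ΦS (app f (C.ΨS y)) := rfl

theorem fS_infty : C.fS f ∞ = ∞ := by
  rw [fS_apply]
  change C.ΦS (app f ∞) = ∞
  rw [app_infty]
  rfl

/-- `δ_v` in coordinates -/
noncomputable def dS : C(OnePoint ((Fin d → ℝ) × ((κ → ℂ) × ℝ)), T0.Sph (n + n)) :=
  (C.TS : C(OnePoint ((κ → ℂ) × (κ → ℂ)), T0.Sph (n + n))).comp
    (LC.Hom.toMap (deltaV f v) :
      C(OnePoint ((Fin d → ℝ) × ((κ → ℂ) × ℝ)), OnePoint ((κ → ℂ) × (κ → ℂ))))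

theorem dS_apply (y : OnePoint ((Fin d → ℝ) × ((κ → ℂ) × ℝ))) :
    C.dS f y = C.TS (app (deltaV f v) y) := rfl

theorem dS_infty : C.dS f ∞ = ∞ := by
  rw [dS_apply, app_infty]
  rfl

/-- the null homotopy of the diagonal -/
noncomputable def GS : C(T0.Sph n × unitInterval, T0.Sph (n + n)) :=
  ⟨fun z => C.TS (smash (C.ΦS.symm z.1) (app (ray v) (om z.2))), by
    have h1 : Continuous fun r : OnePoint ℝ => (app (ray v) r : OnePoint (κ → ℂ)) :=
      continuous_app (ray v)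
    have h2 : Continuous fun z : OnePoint (κ → ℂ) × OnePoint (κ → ℂ) => smash z.1 z.2 :=
      continuous_smash
    exact C.TS.continuous.comp (h2.comp ((C.ΦS.symm.continuous.comp continuous_fst).prodMk
      (h1.comp (om.continuous.comp continuous_snd))))⟩

theorem GS_apply (x : T0.Sph n) (t : unitInterval) :
    C.GS (x, t) = C.TS (smash (C.ΦS.symm x) (app (ray v) (om t))) := rfl

theorem GS_one (x : T0.Sph n) : C.GS (x, 1) = join2 x x := by
  rw [GS_apply, om_one, ray_coe, zero_smul, _root_.neg_zero, ← hs_self, C.TS_hs,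
    Homeomorph.apply_symm_apply]

theorem GS_zero (x : T0.Sph n) : C.GS (x, 0) = ∞ := by
  rw [GS_apply, om_zero, app_infty, smash_infty_right]
  rfl

theorem GS_infty (t : unitInterval) : C.GS (∞, t) = ∞ := by
  rw [GS_apply]
  have h : C.ΦS.symm ∞ = ∞ := rfl
  rw [h, smash_infty_left]
  rfl

theorem P_of_infty (x : T0.Sph m) (s t : unitInterval)
    (h : x = ∞ ∨ GB.loopU s = ∞ ∨ GB.loopU (s * t) = ∞) : C.P (x, s, t) = ∞ := by
  rw [P_apply]
  rcases h with h | h | h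
  · rw [h, smash_infty_left]; rfl
  · rw [h, smash_infty_left, smash_infty_right]; rfl
  · rw [h, smash_infty_right, smash_infty_right]; rfl

theorem Q_of_infty (x : T0.Sph m) (s t : unitInterval)
    (h : x = ∞ ∨ GB.loopU s = ∞ ∨ om t = ∞) : C.Q (x, s, t) = ∞ := by
  rw [Q_apply]
  rcases h with h | h | h
  · rw [h, smash_infty_left]; rfl
  · rw [h, smash_infty_left, smash_infty_right]; rfl
  · rw [h, smash_infty_right, smash_infty_right]; rfl

theorem dS_P (x : T0.Sph m) (s t : unitInterval) : C.dS f (C.P (x, s, t)) =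
    join2 (C.fS f (jl m (x, s))) (C.fS f (jl m (x, s * t))) := by
  by_cases h : x = ∞ ∨ GB.loopU s = ∞ ∨ GB.loopU (s * t) = ∞
  · rw [C.P_of_infty x s t h, dS_infty]
    rcases h with h | h | h
    · rw [h, jl_infty, fS_infty, join2_infty_left]
    · rw [jl_of_infty x h, fS_infty, join2_infty_left]
    · rw [jl_of_infty x h, fS_infty, join2_infty_right]
  · push Not at h
    obtain ⟨h1, h2, h3⟩ := h
    obtain ⟨x, rfl⟩ := OnePoint.ne_infty_iff_exists.1 h1
    obtain ⟨a, ha⟩ := OnePoint.ne_infty_iff_exists.1 h2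
    obtain ⟨b, hb⟩ := OnePoint.ne_infty_iff_exists.1 h3
    have hab : b ≤ a := by
      refine loopE_mono (u := s) (w := (s * t : unitInterval)) ?_ ha.symm hb.symm
      change (s : ℝ) * t ≤ s
      exact mul_le_of_le_one_right s.2.1 t.2.2
    rw [P_apply, ← ha, ← hb, smash_coe_coe, smash_coe_coe]
    change C.dS f ((C.LP (x, (a, b)) : (Fin d → ℝ) × ((κ → ℂ) × ℝ)) :
      OnePoint ((Fin d → ℝ) × ((κ → ℂ) × ℝ))) = _
    have hr : (0 : ℝ) ≤ (a - b) / 2 := by linarith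
    rw [LP_apply, dS_apply, app_deltaV_of_nonneg f v _ _ hr, C.TS_hs, fS_apply, fS_apply,
      C.ΨS_jl x ha.symm, C.ΨS_jl x hb.symm]
    have e1 : C.Ψ (x, a) = ((C.Ψ (x, (a + b) / 2)).1, (C.Ψ (x, (a + b) / 2)).2 +
        ((a - b) / 2) • v.v) := by
      rw [← C.Ψ_add]
      congr 2
      ring
    have e2 : C.Ψ (x, b) = ((C.Ψ (x, (a + b) / 2)).1, (C.Ψ (x, (a + b) / 2)).2 -
        ((a - b) / 2) • v.v) := by
      rw [sub_eq_add_neg, ← neg_smul, ← C.Ψ_add]
      congr 2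
      ring
    rw [e1, e2]

theorem dS_Q (x : T0.Sph m) (s t : unitInterval) : C.dS f (C.Q (x, s, t)) =
    C.GS (C.fS f (jl m (x, s)), t) := by
  rw [GS_apply, fS_apply, Homeomorph.symm_apply_apply]
  by_cases h : x = ∞ ∨ GB.loopU s = ∞ ∨ om t = ∞
  · rw [C.Q_of_infty x s t h, dS_infty]
    have h0 : C.ΨS ∞ = ∞ := rfl
    rcases h with h | h | h
    · rw [h, jl_infty, h0, app_infty, smash_infty_left]; rfl
    · rw [jl_of_infty x h, h0, app_infty, smash_infty_left]; rfl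
    · rw [h, app_infty, smash_infty_right]; rfl
  · push Not at h
    obtain ⟨h1, h2, h3⟩ := h
    obtain ⟨x, rfl⟩ := OnePoint.ne_infty_iff_exists.1 h1
    obtain ⟨a, ha⟩ := OnePoint.ne_infty_iff_exists.1 h2
    obtain ⟨r, hr⟩ := OnePoint.ne_infty_iff_exists.1 h3
    rw [Q_apply, ← ha, ← hr, smash_coe_coe, smash_coe_coe, ray_coe]
    change C.dS f ((C.LQ (x, (a, r)) : (Fin d → ℝ) × ((κ → ℂ) × ℝ)) :
      OnePoint ((Fin d → ℝ) × ((κ → ℂ) × ℝ))) = _
    rw [LQ_apply, dS_apply, app_deltaV_of_nonpos f v _ _ (om_nonpos hr.symm),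
      C.ΨS_jl x ha.symm]

theorem PQ (x : T0.Sph m) (s : unitInterval) : C.P (x, s, 1) = C.Q (x, s, 1) := by
  by_cases h : x = ∞ ∨ GB.loopU s = ∞
  · rw [C.P_of_infty x s 1 (h.imp_right Or.inl), C.Q_of_infty x s 1 (h.imp_right Or.inl)]
  · push Not at h
    obtain ⟨h1, h2⟩ := h
    obtain ⟨x, rfl⟩ := OnePoint.ne_infty_iff_exists.1 h1
    obtain ⟨a, ha⟩ := OnePoint.ne_infty_iff_exists.1 h2
    rw [P_apply, Q_apply, mul_one, ← ha, om_one, smash_coe_coe, smash_coe_coe, smash_coe_coe,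
      smash_coe_coe]
    change ((C.LP (x, (a, a)) : (Fin d → ℝ) × ((κ → ℂ) × ℝ)) :
      OnePoint ((Fin d → ℝ) × ((κ → ℂ) × ℝ))) =
      ((C.LQ (x, (a, 0)) : (Fin d → ℝ) × ((κ → ℂ) × ℝ)) :
      OnePoint ((Fin d → ℝ) × ((κ → ℂ) × ℝ)))
    rw [LP_apply, LQ_apply, add_self_div_two, sub_self, zero_div]

/-- the data of the abstract construction -/
noncomputable def dat : Dat m n (OnePoint ((Fin d → ℝ) × ((κ → ℂ) × ℝ))) where
  f := C.fS f
  f_inf := C.fS_infty f
  d0 := ∞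
  dl := C.dS f
  G := C.GS
  G1 := C.GS_one
  G0 := C.GS_zero
  Gi := C.GS_infty
  P := C.P
  Q := C.Q
  hP := C.dS_P f
  hQ := C.dS_Q f
  PQ := C.PQ
  Pt0 x s := C.P_of_infty x s 0 (Or.inr (Or.inr (by rw [mul_zero]; exact GB.loopE_zero)))
  Qt0 x s := C.Q_of_infty x s 0 (Or.inr (Or.inr om_zero))
  Ps0 x t := C.P_of_infty x 0 t (Or.inr (Or.inl GB.loopE_zero))
  Ps1 x t := C.P_of_infty x 1 t (Or.inr (Or.inl GB.loopE_one))
  Qs0 x t := C.Q_of_infty x 0 t (Or.inr (Or.inl GB.loopE_zero))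
  Qs1 x t := C.Q_of_infty x 1 t (Or.inr (Or.inl GB.loopE_one))

theorem pull_fS (u : Cc (sing (OnePoint (κ → ℂ)))) :
    Cc.pull (singMap (C.fS f)) (Cc.pull (singMap (C.ΦS.symm : C(T0.Sph n, OnePoint (κ → ℂ)))) u) =
      Cc.pull (singMap (C.ΨS : C(T0.Sph (m + 1), OnePoint ((Fin d → ℝ) × (κ → ℂ)))))
        (Cc.pull (singMap (LC.Hom.toMap f)) u) := by
  funext p σ
  refine congrArg (u p) (ContinuousMap.ext fun t => ?_)
  exact C.ΦS.symm_apply_apply (app f (C.ΨS (toC σ t)))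

end Crd

theorem SSv_ne (v : SS κ) : v.v ≠ 0 := by
  intro h
  have h1 := rip_smul v 1
  have h2 := rip_smul v 0
  rw [h, smul_zero] at h1 h2
  exact one_ne_zero (h1.symm.trans h2)

theorem exists_crd {d : ℕ} (hk : 2 * Fintype.card κ = d + 1) (v : SS κ) :
    Nonempty (Crd d (2 * d) (d + 1) v) := by
  have h1 : Module.finrank ℝ (κ → ℂ) = d + 1 := by
    rw [Module.finrank_pi_fintype, Finset.sum_const, Complex.finrank_real_complex, ← hk,
      Finset.card_univ, smul_eq_mul, mul_comm]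
  have h2 : Module.finrank ℝ ((Fin d → ℝ) × (κ → ℂ)) = 2 * d + 1 := by
    rw [Module.finrank_prod, h1, Module.finrank_fin_fun]
    omega
  have h3 : ((0 : Fin d → ℝ), v.v) ≠ 0 := fun h => SSv_ne v (congrArg Prod.snd h)
  obtain ⟨Ψ, hΨ⟩ := exists_coord h2 h3
  exact ⟨⟨Ψ, hΨ, ContinuousLinearEquiv.ofFinrankEq (by rw [h1, Module.finrank_fin_fun])⟩⟩

/-- **The degree of the fibre map `δ_v` is the Hopf invariant, mod 2.** -/
theorem fibre_ne {d : ℕ} (hk : 2 * Fintype.card κ = d + 1)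
    (f : LC.of (Fin d → ℝ) ⊗ VV κ ⟶ VV κ)
    (O : Su.Odd (Fin d → ℝ) (κ → ℂ) (d + 1) (LC.Hom.toMap f)) (v : SS κ) :
    ∃ z : Cc (sing (OnePoint ((κ → ℂ) × (κ → ℂ)))), Cc.IsDeg (2 * (d + 1)) z ∧ Cc.d z = 0 ∧
      ∀ a, Cc.pull (singMap (LC.Hom.toMap (deltaV f v))) z ≠ Cc.d a := by
  obtain ⟨C⟩ := exists_crd hk v
  obtain ⟨z, hz, hdz, hvz, -, hz1⟩ := exists_fund ((d + 1) + (d + 1)) (by omega)
  have hnz := (cube_cc_one (by omega) hz hdz hvz).2 hz1
  refine ⟨Cc.pull (singMap (C.TS : C(OnePoint ((κ → ℂ) × (κ → ℂ)), T0.Sph ((d + 1) + (d + 1))))) z,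
    isDeg_cast (by omega) (hz.pull _), by rw [← pull_d, hdz, pull_zero], fun a ha => ?_⟩
  have hb : Vn (bs (d + 1)) (Cc.pull (singMap (C.ΦS.symm :
      C(T0.Sph (d + 1), OnePoint (κ → ℂ)))) O.b) := by
    refine fun p x hx => O.b_vn p _ fun t => ?_
    change C.ΦS.symm (toC x t) = ∞
    rw [show toC x t = ∞ from hx t]
    rfl
  have he : Vn (bs (2 * d + 1)) (Cc.pull (singMap (C.ΨS :
      C(T0.Sph (2 * d + 1), OnePoint ((Fin d → ℝ) × (κ → ℂ))))) O.e) := by
    refine fun p x hx => O.e_vn p _ fun t => ?_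
    change C.ΨS (toC x t) = ∞
    rw [show toC x t = ∞ from hx t]
    rfl
  have hed := isDeg_cast (i := d + 1 - 1) (j := d) (by omega) (O.e_deg.pull
    (singMap (C.ΨS : C(T0.Sph (2 * d + 1), OnePoint ((Fin d → ℝ) × (κ → ℂ))))))
  have hcd := isDeg_cast (i := 2 * (d + 1) - 1) (j := 2 * d + 1) (by omega) (O.c_deg.pull
    (singMap (C.ΦS.symm : C(T0.Sph (d + 1), OnePoint (κ → ℂ)))))
  refine Dat.main (A := C.dat f) (k := d) (by omega) rfl (by omega) (O.b_deg.pull _)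
    (by rw [← pull_d, O.d_b, pull_zero]) hb ?_ hcd ?_ hed he ?_ ?_ hz hdz hvz hnz a ha
  · rintro ⟨a', ha'⟩
    exact Su.pull_homeo_ne C.ΦS.symm O.b_ne a' ha'.symm
  · rw [← pull_cup, O.d_c, pull_d]
  · refine (C.pull_fS f O.b).trans ?_
    rw [O.d_e, pull_d]
  · intro a' ha'
    refine Su.pull_homeo_ne C.ΨS O.val_ne a' ?_
    rw [← ha', pull_add, pull_cup, ← pull_d]
    exact congrArg (· + _) (C.pull_fS f O.c).symm

end inst

/-- the statement consumed by `AD/Adams.lean` -/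
theorem fibreDeg : FibreDeg := by
  intro d k hk f hO
  obtain ⟨O⟩ := hO
  have h1 : 2 * Fintype.card (Fin (k + 1)) = d + 1 := by rw [Fintype.card_fin]; exact hk
  let v : SS (Fin (k + 1)) := ⟨Pi.single 0 1, by
    rw [nsq, Finset.sum_eq_single 0]
    · simp
    · intro b _ hb
      simp [Pi.single_eq_of_ne hb]
    · simp⟩
  obtain ⟨z, hz⟩ := fibre_ne h1 f O v
  exact ⟨v, z, hz⟩

end Vale.Agent.P263.AD.HC
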