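import Vale.Agent.P263.AD.AdamsF
import Vale.Agent.P263.AD.Hopf

/-!
# P263, block AD: Adams' theorem on maps of Hopf invariant one, unconditional

* `adams_edge_thm` : a based map `S^(2d+1) → S^(d+1)`, `d` odd, of Hopf invariant one exists only for
  `d = 1`, `3`, `7`;
* `adams_thm` : the same for based maps `S^(d+r) → S^r`, `r ≥ d + 1`;
* `adams_hopfOne` : the same for based maps `Sᵈ → Q₀S⁰`.
-/

open OnePoint Topology

namespace Vale.Agent.P263.AD

open Vale.Agent.P263.T0 Vale.Agent.P263.TJ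

theorem adams_edge_thm {d : ℕ} (hev : Even (d + 1)) (f : C(Sph (2 * d + 1), Sph (d + 1)))
    (hf : f ∞ = ∞) (h : HopfOne f) : d = 1 ∨ d = 3 ∨ d = 7 :=
  adams_edge HC.fibreDeg hev f hf h

/-- **Adams' theorem** for maps of spheres in the stable range. -/
theorem adams_thm {d m r : ℕ} (hd : 0 < d) (hev : Even (d + 1)) (hm : m = d + r)
    (hr : d + 1 ≤ r) (F : C(Sph m, Sph r)) (hF : F ∞ = ∞) (h : HopfOne F) :
    d = 1 ∨ d = 3 ∨ d = 7 :=
  adams_sph HC.fibreDeg (i := r - (d + 1)) hd hev hm (by omega) F hF h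

/-- **Adams' theorem** for based maps `Sᵈ → Q₀S⁰`. -/
theorem adams_hopfOne {d : ℕ} (hd : 0 < d) (hev : Even (d + 1)) {g : BMap d}
    (h : K.HopfOne g) : d = 1 ∨ d = 3 ∨ d = 7 :=
  adams_Q HC.fibreDeg hd hev h

/-- The form used by the final statement: `d + 1` a power of two. -/
theorem adams_of_pow {d : ℕ} (hd : 0 < d) (hs : ∃ s : ℕ, d + 1 = 2 ^ s) {g : BMap d}
    (h : K.HopfOne g) : d = 1 ∨ d = 3 ∨ d = 7 := by
  obtain ⟨s, hs⟩ := hs
  refine adams_hopfOne hd ?_ h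
  obtain ⟨t, rfl⟩ : ∃ t, s = t + 1 := by
    rcases s with _ | t
    · rw [pow_zero] at hs
      omega
    · exact ⟨t, rfl⟩
  rw [hs, pow_succ]
  exact even_two.mul_left _

end Vale.Agent.P263.AD
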