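import Mathlib.RingTheory.Flat.TorsionFree
import Vale.Agent.P263.GB.Kun
import Vale.Agent.P263.T0.SphHZ
import Vale.Agent.P263.AD.FreuCh

/-!
# P263, block AD, Freudenthal's theorem: the integral Künneth theorem in a range

`kunP` : if the reduced integral homology of `A` vanishes below `a` and the one of `B` below `b`,
then in the degrees `n < a + b` every reduced cycle `z` of `A × B` is homologous to the sum of its
images on the two axes minus its image in the base point.
-/

open Topology Set Vale.Agent.P246.T Vale.Agent.P246.T.FM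

namespace Vale.Agent.P263.AD.Freu

open Vale.Agent.P263.S Vale.Agent.P263.E Vale.Agent.P263.GB Vale.Agent.P263.GB.SMod

/-! ### torsion free simplicial modules -/

section Ded

variable {R : Type} [CommRing R]

/-- levelwise torsion free -/
def LTF (A : SMod R) : Prop := ∀ p, Module.IsTorsionFree R (A.obj p)

theorem LTF.flat [IsDedekindDomain R] {A : SMod R} (h : LTF A) : A.LFlat := fun p => by
  have := h p
  infer_instance

theorem tf_submodule {M : Type} [AddCommGroup M] [Module R M] (h : Module.IsTorsionFree R M)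
    (N : Submodule R M) : Module.IsTorsionFree R N := inferInstance

theorem LTF.ker {A B : SMod R} (h : LTF A) (f : SMod.Hom A B) : LTF (Ker f) := fun p =>
  tf_submodule (h p) _

theorem LTF.path {A : SMod R} (h : LTF A) : LTF A.Path := fun p => tf_submodule (h (p + 1)) _

theorem LTF.loop {A : SMod R} (h : LTF A) : LTF A.Loop := h.path.ker _

theorem ltf_free [IsDomain R] (X : SS) : LTF (free R X) := fun p =>
  inferInstanceAs (Module.IsTorsionFree R (X.obj p →₀ R))

theorem ltf_red [IsDomain R] (X : SS) : LTF (red R X) := (ltf_free X).ker _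

/-- **lowest degree Künneth** over a Dedekind domain, for example the integers -/
theorem hz_tens_int [IsDedekindDomain R] (b : ℕ) :
    ∀ (A B : SMod R) (a : ℕ), LTF A → LTF B → (∀ i < a, A.cx.HZ i) → (∀ i < b, B.cx.HZ i) →
      ∀ n < a + b, (A.tens B).cx.HZ n := by
  induction b with
  | zero =>
    intro A B a _ hTB hA _ n hn
    exact hz_tens_of_left B hTB.flat a A hA n (by omega)
  | succ b ih =>
    intro A B a hTA hTB hA hB n hn
    refine (ses_tensR (B.ses_loop (hB 0 (by omega))) A hTA.flat).hz_right n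
      (hz_tens_right B.pcon B.pcon_zero B.pcon_one A n) ?_
    rintro m rfl
    exact ih A B.Loop a hTA hTB.loop hA
      (fun i hi => B.loop_hz (hB 0 (by omega)) i (hB (i + 1) (by omega))) m (by omega)

/-- **Künneth for two factors, in a range**, over a Dedekind domain, for example the integers -/
theorem kun_int [IsDedekindDomain R] (X Y : SS) (x₀ : X.obj 0) (y₀ : Y.obj 0) (a b : ℕ)
    (hX : ∀ i < a, (red R X).cx.HZ i) (hY : ∀ i < b, (red R Y).cx.HZ i) (n : ℕ) (hn : n < a + b)
    (z : (free R (X.prod Y)).obj n) (hz : (free R (X.prod Y)).cx.Cyc n z) :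
    (free R (X.prod Y)).cx.Rel n z ((freeMap R (c10 X y₀)).app n z +
      (freeMap R (c01 x₀ Y)).app n z - (freeMap R (c00 x₀ y₀)).app n z) := by
  let q : SMod.Hom ((free R X).tens (free R Y)) ((red R X).tens (red R Y)) :=
    (SMod.tensR (red R X) (redQ R y₀)).comp (SMod.tensL (redQ R x₀) (free R Y))
  let i : SMod.Hom ((red R X).tens (red R Y)) ((free R X).tens (free R Y)) :=
    (SMod.tensR (free R X) (redI R Y)).comp (SMod.tensL (redI R X) (red R Y))
  have h1 := hz_tens_int b (red R X) (red R Y) a (ltf_red X) (ltf_red Y) hX hY n hn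
    (q.app n ((prodT R X Y).app n z)) (q.cx.cyc ((prodT R X Y).cx.cyc hz))
  obtain ⟨w, hw⟩ := h1
  refine ⟨(tprod R X Y).app (n + 1) (i.app (n + 1) w), ?_⟩
  have h2 : (free R (X.prod Y)).d n ((tprod R X Y).app (n + 1) (i.app (n + 1) w)) =
      (tprod R X Y).app n (i.app n (q.app n ((prodT R X Y).app n z))) :=
    ((tprod R X Y).app_d n (i.app (n + 1) w)).symm.trans
      ((congrArg ((tprod R X Y).app n) (i.app_d n w).symm).trans
        (congrArg (fun t => (tprod R X Y).app n (i.app n t)) hw))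
  refine h2.trans ?_
  clear hw h2 hz w
  refine free_hom_ext (f := (tprod R X Y).app n ∘ₗ i.app n ∘ₗ q.app n ∘ₗ (prodT R X Y).app n)
    (g := LinearMap.id - ((freeMap R (c10 X y₀)).app n +
      (freeMap R (c01 x₀ Y)).app n - (freeMap R (c00 x₀ y₀)).app n)) (fun t => ?_) z
  obtain ⟨x, y, rfl⟩ : ∃ x y, t = mkp x y := ⟨t.1, t.2, rfl⟩
  show (tprod R X Y).app n (i.app n (q.app n ((prodT R X Y).app n (gen R (mkp x y)))))
    = gen R (mkp x y) - ((freeMap R (c10 X y₀)).app n (gen R (mkp x y)) +
      (freeMap R (c01 x₀ Y)).app n (gen R (mkp x y)) -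
      (freeMap R (c00 x₀ y₀)).app n (gen R (mkp x y)))
  rw [freeMap_gen, freeMap_gen, freeMap_gen, prodT_gen]
  have h3 : i.app n (q.app n (tm (gen R x) (gen R y))) = tm (gen R x - gen R (X.map (cst n 0) x₀))
        (gen R y - gen R (Y.map (cst n 0) y₀)) := by
    have hx : ((redQ R x₀).app n (gen R x)).1 = gen R x - gen R (X.map (cst n 0) x₀) := by
      rw [redQ_coe, freeMap_gen]; rfl
    have hy : ((redQ R y₀).app n (gen R y)).1 = gen R y - gen R (Y.map (cst n 0) y₀) := by
      rw [redQ_coe, freeMap_gen]; rfl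
    rw [← hx, ← hy]
    rfl
  rw [h3, tm_sub, map_sub, map_sub, map_sub, tprod_gen, tprod_gen, tprod_gen, tprod_gen]
  show gen R (mkp x y) - gen R (mkp x (Y.map (cst n 0) y₀)) -
    (gen R (mkp (X.map (cst n 0) x₀) y) - gen R (mkp (X.map (cst n 0) x₀) (Y.map (cst n 0) y₀))) =
    gen R (mkp x y) - (gen R (mkp x (Y.map (cst n 0) y₀)) + gen R (mkp (X.map (cst n 0) x₀) y) -
      gen R (mkp (X.map (cst n 0) x₀) (Y.map (cst n 0) y₀)))
  abel

end Ded

/-! ### the bridge -/

section Bridge

variable {X Y : Type} [TopologicalSpace X] [TopologicalSpace Y]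

theorem sn_int {A : Type*} [AddCommGroup A] (k : ℕ) (a : A) : sn k a = ((-1 : ℤ) ^ k) • a := rfl

theorem free_face (p : ℕ) (σ : C(Dl (p + 2), X)) (a : ℤ) (i : Fin (p + 2)) :
    (sn i.1 ((GB.free ℤ (G2.sing X)).map (dl p i.1)
      (Finsupp.single σ a : (G2.sing X).obj (p + 1) →₀ ℤ)) :
        (G2.sing X).obj p →₀ ℤ) =
      (Finsupp.single (σ.comp (face (p + 1) i)) (a * (-1 : ℤ) ^ (i : ℕ)) : Ch p X) := by
  have h1 : (GB.free ℤ (G2.sing X)).map (dl p i.1)
      (Finsupp.single σ a : (G2.sing X).obj (p + 1) →₀ ℤ) =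
      (Finsupp.single (σ.comp (face (p + 1) i)) a : Ch p X) := by
    refine (GB.free_map_single _ _ _ _).trans ?_
    rw [← T0.SphH.dmap_dl]
    rfl
  refine (congrArg (sn i.1) h1).trans ?_
  refine (sn_int _ _).trans ?_
  refine (Finsupp.smul_single _ _ _).trans ?_
  rw [smul_eq_mul, mul_comm]

theorem free_d_single (p : ℕ) (σ : C(Dl (p + 2), X)) (a : ℤ) :
    (GB.free ℤ (G2.sing X)).d p (Finsupp.single σ a : Ch (p + 1) X) =
      (bd p (Finsupp.single σ a) : Ch p X) := by
  refine (GB.SMod.d_apply _ _ _).trans ?_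
  refine Eq.trans ?_ (bd_single p σ a).symm
  refine (Finset.sum_range _).trans ?_
  exact Finset.sum_congr rfl fun i _ => free_face p σ a i

/-- the boundary of the free simplicial module of `sing X` -/
theorem free_d (p : ℕ) (z : Ch (p + 1) X) :
    (GB.free ℤ (G2.sing X)).d p z = (bd p z : Ch p X) := by
  induction z using Finsupp.induction_linear with
  | zero => exact (map_zero ((GB.free ℤ (G2.sing X)).d p)).trans (map_zero (bd p)).symm
  | add a b ha hb =>
    exact (map_add ((GB.free ℤ (G2.sing X)).d p) a b).trans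
      ((congrArg₂ (· + ·) ha hb).trans (map_add (bd p) a b).symm)
  | single σ a => exact free_d_single p σ a

/-- chains in the sense of the block `GB` -/
def tof {n : ℕ} (z : Ch n X) : (free ℤ (G2.sing X)).obj n := z

/-- chains in the sense of the block `P246` -/
def off {n : ℕ} (z : (free ℤ (G2.sing X)).obj n) : Ch n X := z

theorem cyc_tof {n : ℕ} {z : Ch n X} (h : RedCyc n z) : (free ℤ (G2.sing X)).cx.Cyc n (tof z) := by
  cases n with
  | zero => trivial
  | succ n => exact (free_d n z).trans h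

theorem rel_tof {n : ℕ} {z w : Ch n X} (h : (free ℤ (G2.sing X)).cx.Rel n (tof z) (tof w)) :
    Hg z w := by
  obtain ⟨b, hb⟩ := h
  exact ⟨off b, (free_d n (off b)).symm.trans hb⟩

theorem tof_rel {n : ℕ} {z w : Ch n X} (h : Hg z w) :
    (free ℤ (G2.sing X)).cx.Rel n (tof z) (tof w) := by
  obtain ⟨b, hb⟩ := h
  exact ⟨tof b, (free_d n b).trans hb⟩

theorem freeMap_push (f : C(X, Y)) {n : ℕ} (z : Ch n X) :
    (freeMap ℤ (G2.singMap f)).app n (tof z) = tof (push f n z) := rfl

theorem wt_eq_zero {z : Ch 0 X} (h : (freeMap ℤ (SS.toPt (G2.sing X))).app 0 (tof z) = 0) :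
    wt 0 z = 0 := by
  have key : ∀ z : Ch 0 X, (Finsupp.mapDomain (fun _ : C(Dl 1, X) => ()) z) () = wt 0 z := by
    intro z
    induction z using Finsupp.induction_linear with
    | zero => simp
    | add a b ha hb => rw [Finsupp.mapDomain_add, Finsupp.add_apply, ha, hb, map_add]
    | single σ a => rw [Finsupp.mapDomain_single, Finsupp.single_eq_same, wt_single]
  rw [← key]
  exact DFunLike.congr_fun (show (Finsupp.mapDomain (fun _ : C(Dl 1, X) => ()) z : Unit →₀ ℤ) = 0
    from h) ()

/-- vanishing of reduced homology, in the form of the block `GB` -/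
theorem hz_red {n : ℕ} (x₀ : X) (h : RZ X n) : (red ℤ (G2.sing X)).cx.HZ n := by
  intro x hx
  have h1 : RedCyc n (off x.1) := by
    cases n with
    | zero => exact wt_eq_zero x.2
    | succ n =>
      have h2 : (free ℤ (G2.sing X)).d n x.1 = 0 := (redI ℤ (G2.sing X)).cx.cyc hx
      exact (free_d n (off x.1)).symm.trans h2
  have h3 := tof_rel (h.hg h1)
  have h4 : (red ℤ (G2.sing X)).cx.Rel n x 0 :=
    red_rel (G2.ofC (ContinuousMap.const _ x₀)) h3
  exact Cx.rel_zero_iff.1 h4

/-- the comparison of `sing (X × Y)` and `sing X × sing Y` -/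
noncomputable def prS (X Y : Type) [TopologicalSpace X] [TopologicalSpace Y] :
    SS.Map (G2.sing (X × Y)) ((G2.sing X).prod (G2.sing Y)) :=
  SS.pair (G2.singMap ContinuousMap.fst) (G2.singMap ContinuousMap.snd)

/-- the comparison of `sing X × sing Y` and `sing (X × Y)` -/
noncomputable def mkS (X Y : Type) [TopologicalSpace X] [TopologicalSpace Y] :
    SS.Map ((G2.sing X).prod (G2.sing Y)) (G2.sing (X × Y)) :=
  ⟨fun x => G2.ofC ((G2.toC x.1).prodMk (G2.toC x.2)), fun _ _ => rfl⟩

end Bridge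

/-- **The decomposition of the cycles of a product, in a range.** -/
theorem kunP {A B : Type} [TopologicalSpace A] [TopologicalSpace B] (a₀ : A) (b₀ : B) (a b : ℕ)
    (hA : ∀ i < a, RZ A i) (hB : ∀ i < b, RZ B i) (n : ℕ) (hn : n < a + b) :
    KunP A B a₀ b₀ n := by
  intro z hz
  have h1 := kun_int (G2.sing A) (G2.sing B) (G2.ofC (ContinuousMap.const _ a₀))
    (G2.ofC (ContinuousMap.const _ b₀)) a b (fun i hi => hz_red a₀ (hA i hi))
    (fun i hi => hz_red b₀ (hB i hi)) n hn ((freeMap ℤ (prS A B)).app n (tof z))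
    ((freeMap ℤ (prS A B)).cx.cyc (cyc_tof hz))
  have h2 := h1.map (freeMap ℤ (mkS A B)).cx
  apply rel_tof
  have e0 : (freeMap ℤ (mkS A B)).app n ((freeMap ℤ (prS A B)).app n (tof z)) = tof z := by
    rw [← freeMap_comp_app]
    exact freeMap_id_app _
  have e1 : ∀ (g : SS.Map ((G2.sing A).prod (G2.sing B)) ((G2.sing A).prod (G2.sing B)))
      (f : C(A × B, A × B)), ((mkS A B).comp g).comp (prS A B) = G2.singMap f →
      (freeMap ℤ (mkS A B)).app n ((freeMap ℤ g).app n ((freeMap ℤ (prS A B)).app n (tof z))) =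
        tof (push f n z) := by
    intro g f h
    rw [← freeMap_comp_app, ← freeMap_comp_app, h, freeMap_push]
  have h3 : (free ℤ (G2.sing (A × B))).cx.Rel n (tof z)
      ((freeMap ℤ (mkS A B)).app n ((freeMap ℤ (c10 (G2.sing A) (G2.ofC (ContinuousMap.const _ b₀)))).app n
        ((freeMap ℤ (prS A B)).app n (tof z))) +
      (freeMap ℤ (mkS A B)).app n ((freeMap ℤ (c01 (G2.ofC (ContinuousMap.const _ a₀)) (G2.sing B))).app n
        ((freeMap ℤ (prS A B)).app n (tof z))) -
      (freeMap ℤ (mkS A B)).app n ((freeMap ℤ (c00 (G2.ofC (ContinuousMap.const _ a₀))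
        (G2.ofC (ContinuousMap.const _ b₀)))).app n ((freeMap ℤ (prS A B)).app n (tof z)))) := by
    rw [← map_add, ← map_sub]
    change (free ℤ (G2.sing (A × B))).cx.Rel n
      ((freeMap ℤ (mkS A B)).app n ((freeMap ℤ (prS A B)).app n (tof z)))
      ((freeMap ℤ (mkS A B)).app n _) at h2
    rw [e0] at h2
    exact h2
  rw [e1 _ (⟨fun q => (q.1, b₀), by fun_prop⟩ : C(A × B, A × B)) rfl,
    e1 _ (⟨fun q => (a₀, q.2), by fun_prop⟩ : C(A × B, A × B)) rfl,
    e1 _ (ContinuousMap.const (A × B) (a₀, b₀)) rfl] at h3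
  exact h3

end Vale.Agent.P263.AD.Freu
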