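import Vale.Agent.P263.AD.FreuKun
import Vale.Agent.P246.T.PS

/-!
# P263, block AD, Freudenthal's theorem: paths

`B` is the union of two open sets `V₁`, `V₂` with contractions to the base point `b`. `relZ_clut`:
if the reduced homology of `V₁ ∩ V₂` vanishes below `N`, the clutching map `V₁ ∩ V₂ → Ω B`
(out along the track of the second contraction, back along the track of the first one) is an
isomorphism in homology in a range.
-/

open Topology Set Vale.Agent.P246.T Vale.Agent.P246.T.FM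

namespace Vale.Agent.P263.AD.Freu

/-- the retraction of the real line to the unit interval -/
noncomputable def cl (r : ℝ) : I := Set.projIcc 0 1 zero_le_one r

theorem continuous_cl : Continuous cl := continuous_projIcc (h := zero_le_one)

theorem cl_coe (t : I) : cl (t : ℝ) = t := Set.projIcc_val _ t

theorem cl_of_nonpos {r : ℝ} (h : r ≤ 0) : cl r = 0 := Set.projIcc_of_le_left _ h

theorem cl_of_one_le {r : ℝ} (h : 1 ≤ r) : cl r = 1 := Set.projIcc_of_right_le _ h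

theorem coe_cl {r : ℝ} (h0 : 0 ≤ r) (h1 : r ≤ 1) : (cl r : ℝ) = r :=
  congrArg Subtype.val (Set.projIcc_of_mem _ ⟨h0, h1⟩)

theorem homotopic_of {P Q : Type} [TopologicalSpace P] [TopologicalSpace Q] {f g : C(P, Q)}
    (H : I × P → Q) (hH : Continuous H) (h0 : ∀ x, H (0, x) = f x) (h1 : ∀ x, H (1, x) = g x) :
    f.Homotopic g := ⟨⟨⟨H, hH⟩, h0, h1⟩⟩

variable {B : Type} [TopologicalSpace B] {b : B} {V V₁ V₂ : Set B}

/-- a contraction of the subset `V` to the point `b` -/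
structure Contr (V : Set B) (b : B) where
  /-- the contraction -/
  h : C(I × V, B)
  mem : ∀ q, h q ∈ V
  zero : ∀ x, h (0, x) = x
  one : ∀ x, h (1, x) = b
  base : ∀ (hb : b ∈ V) (t), h (t, ⟨b, hb⟩) = b

/-- families of paths -/
def mkP {P : Type} [TopologicalSpace P] (f : P × I → B) (hf : Continuous f)
    (h0 : ∀ p, f (p, 0) = b) : C(P, PP b) :=
  ⟨fun p => ⟨⟨fun t => f (p, t), by fun_prop⟩, h0 p⟩,
    Continuous.subtype_mk (ContinuousMap.curry ⟨f, hf⟩).continuous _⟩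

theorem mkP_apply {P : Type} [TopologicalSpace P] (f : P × I → B) (hf : Continuous f)
    (h0 : ∀ p, f (p, 0) = b) (p : P) (t : I) : (mkP f hf h0 p).1 t = f (p, t) := rfl

theorem ev_mkP {P : Type} [TopologicalSpace P] (f : P × I → B) (hf : Continuous f)
    (h0 : ∀ p, f (p, 0) = b) (p : P) : ev b (mkP f hf h0 p) = f (p, 1) := rfl

theorem pp_ext {γ γ' : PP b} (h : ∀ t, γ.1 t = γ'.1 t) : γ = γ' :=
  Subtype.ext (ContinuousMap.ext h)

/-- the path `γ`, continued by the track of its end point -/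
noncomputable def ext (c : Contr V b) (q : ↥(ev b ⁻¹' V) × ℝ) : B :=
  if q.2 ≤ 0 then q.1.1.1 (cl (1 + q.2)) else c.h (cl q.2, ⟨ev b q.1.1, q.1.2⟩)

theorem ext_nonpos (c : Contr V b) (γ : ↥(ev b ⁻¹' V)) {r : ℝ} (hr : r ≤ 0) :
    ext c (γ, r) = γ.1.1 (cl (1 + r)) := if_pos hr

theorem ext_nonneg (c : Contr V b) (γ : ↥(ev b ⁻¹' V)) {r : ℝ} (hr : 0 ≤ r) :
    ext c (γ, r) = c.h (cl r, ⟨ev b γ.1, γ.2⟩) := by
  rcases hr.eq_or_lt with rfl | hr
  · rw [ext_nonpos c γ le_rfl, cl_of_nonpos le_rfl, c.zero, cl_of_one_le (by norm_num)]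
    rfl
  · exact if_neg (not_le.2 hr)

theorem continuous_pp {P : Type} [TopologicalSpace P] {f : P → PP b} {g : P → I}
    (hf : Continuous f) (hg : Continuous g) : Continuous fun p => (f p).1 (g p) := by
  have h1 : Continuous fun p => (f p).1 := continuous_subtype_val.comp hf
  fun_prop

theorem continuous_ext (c : Contr V b) : Continuous (ext c) := by
  unfold ext
  refine Continuous.if_le ?_ ?_ continuous_snd continuous_const ?_
  · exact continuous_pp (continuous_subtype_val.comp continuous_fst)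
      (continuous_cl.comp (continuous_const.add continuous_snd))
  · refine c.h.continuous.comp ((continuous_cl.comp continuous_snd).prodMk ?_)
    exact Continuous.subtype_mk ((ev b).continuous.comp
      (continuous_subtype_val.comp continuous_fst)) _
  · rintro ⟨γ, r⟩ h
    have h' : r = 0 := h
    subst h'
    change γ.1.1 (cl (1 + 0)) = c.h (cl 0, _)
    rw [cl_of_nonpos le_rfl, c.zero, cl_of_one_le (by norm_num)]
    rfl

theorem ext_start (c : Contr V b) (γ : ↥(ev b ⁻¹' V)) {r : ℝ} (hr : r ≤ -1) :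
    ext c (γ, r) = b := by
  rw [ext_nonpos c γ (by linarith), cl_of_nonpos (by linarith)]
  exact γ.1.2

/-- the loop which follows `γ` and then the track of the end point -/
noncomputable def T (c : Contr V b) : C(↥(ev b ⁻¹' V), ↥(ev b ⁻¹' {b})) :=
  ⟨fun γ => ⟨mkP (fun q : ↥(ev b ⁻¹' V) × I => ext c (q.1, 2 * (q.2 : ℝ) - 1))
      ((continuous_ext c).comp (by fun_prop)) (fun γ => ext_start c γ (by simp)) γ, by
      change ext c (γ, 2 * ((1 : I) : ℝ) - 1) = b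
      rw [ext_nonneg c γ (by norm_num), cl_of_one_le (by norm_num), c.one]⟩,
    Continuous.subtype_mk (ContinuousMap.continuous _) _⟩

theorem T_apply (c : Contr V b) (γ : ↥(ev b ⁻¹' V)) (t : I) :
    (T c γ).1.1 t = ext c (γ, 2 * (t : ℝ) - 1) := rfl

/-- the homotopy of paths -/
noncomputable def stretch (c : Contr V b) : C(I × ↥(ev b ⁻¹' V), PP b) :=
  mkP (fun q : (I × ↥(ev b ⁻¹' V)) × I => ext c (q.1.2, (2 - (q.1.1 : ℝ)) * (q.2 : ℝ) - 1))
    ((continuous_ext c).comp (by fun_prop)) (fun γ => ext_start c γ.2 (by simp))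

theorem stretch_end (c : Contr V b) (a : I) (γ : ↥(ev b ⁻¹' V)) :
    ev b (stretch c (a, γ)) = c.h (cl (1 - (a : ℝ)), ⟨ev b γ.1, γ.2⟩) := by
  have : ev b (stretch c (a, γ)) = ext c (γ, (2 - (a : ℝ)) * ((1 : I) : ℝ) - 1) := rfl
  rw [this, ext_nonneg c γ (by have := a.2.2; simp; linarith)]
  congr 3
  simp; ring

theorem stretch_zero (c : Contr V b) (γ : ↥(ev b ⁻¹' V)) : stretch c (0, γ) = (T c γ).1 := by
  refine pp_ext fun t => ?_
  rw [T_apply]
  change ext c (γ, (2 - ((0 : I) : ℝ)) * (t : ℝ) - 1) = _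
  simp

theorem stretch_one (c : Contr V b) (γ : ↥(ev b ⁻¹' V)) : stretch c (1, γ) = γ.1 := by
  refine pp_ext fun t => ?_
  change ext c (γ, (2 - ((1 : I) : ℝ)) * (t : ℝ) - 1) = _
  rw [ext_nonpos c γ (by have := t.2.2; simp; linarith)]
  have : 1 + ((2 - ((1 : I) : ℝ)) * (t : ℝ) - 1) = t := by simp; ring
  rw [this, cl_coe]

theorem base_sub (hb : b ∈ V) : (ev b ⁻¹' {b} : Set (PP b)) ⊆ ev b ⁻¹' V := by
  intro γ hγ
  have : ev b γ = b := hγ
  change ev b γ ∈ V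
  rwa [this]

theorem T_sub (c : Contr V b) (hb : b ∈ V) :
    ((T c).comp (sub (base_sub hb))).Homotopic (ContinuousMap.id _) := by
  refine homotopic_of (fun q => ⟨stretch c (q.1, sub (base_sub hb) q.2), ?_⟩) ?_ ?_ ?_
  · change ev b _ = b
    rw [stretch_end]
    have h1 : ev b q.2.1 = b := q.2.2
    have h2 : (⟨ev b (sub (base_sub hb) q.2).1, (sub (base_sub hb) q.2).2⟩ : V) = ⟨b, hb⟩ :=
      Subtype.ext h1
    rw [h2, c.base]
  · exact Continuous.subtype_mk ((stretch c).continuous.comp (by fun_prop)) _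
  · intro γ
    exact Subtype.ext (stretch_zero c _)
  · intro γ
    exact Subtype.ext (stretch_one c _)

theorem sub_T (c : Contr V b) (hb : b ∈ V) :
    ((sub (base_sub hb)).comp (T c)).Homotopic (ContinuousMap.id _) := by
  refine homotopic_of (fun q => ⟨stretch c q, ?_⟩) ?_ ?_ ?_
  · change ev b _ ∈ V
    rw [stretch_end]
    exact c.mem _
  · exact Continuous.subtype_mk (stretch c).continuous _
  · intro γ
    exact Subtype.ext (stretch_zero c _)
  · intro γ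
    exact Subtype.ext (stretch_one c _)

/-! ### the fibre homotopy equivalence -/

/-- the end point of a path -/
def pE (b : B) (V₁ V₂ : Set B) : C(↥((ev b ⁻¹' V₁) ∩ (ev b ⁻¹' V₂) : Set (PP b)), ↥(V₁ ∩ V₂)) :=
  ⟨fun γ => ⟨ev b γ.1, γ.2⟩, Continuous.subtype_mk
    ((ev b).continuous.comp continuous_subtype_val) _⟩

/-- the loop `ω`, continued by the reversed track of `y` -/
noncomputable def out (c : Contr V₂ b) (q : (↥(ev b ⁻¹' {b}) × ↥(V₁ ∩ V₂)) × ℝ) : B :=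
  if q.2 ≤ 0 then q.1.1.1.1 (cl (1 + q.2)) else c.h (cl (1 - q.2), ⟨q.1.2.1, q.1.2.2.2⟩)

theorem out_nonpos (c : Contr V₂ b) (q : ↥(ev b ⁻¹' {b}) × ↥(V₁ ∩ V₂)) {r : ℝ} (hr : r ≤ 0) :
    out c (q, r) = q.1.1.1 (cl (1 + r)) := if_pos hr

theorem out_nonneg (c : Contr V₂ b) (q : ↥(ev b ⁻¹' {b}) × ↥(V₁ ∩ V₂)) {r : ℝ} (hr : 0 ≤ r) :
    out c (q, r) = c.h (cl (1 - r), ⟨q.2.1, q.2.2.2⟩) := by
  rcases hr.eq_or_lt with rfl | hr
  · rw [out_nonpos c q le_rfl, sub_zero, add_zero, cl_of_one_le le_rfl, c.one]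
    exact q.1.2
  · exact if_neg (not_le.2 hr)

theorem continuous_out (c : Contr V₂ b) :
    Continuous (out c : (↥(ev b ⁻¹' {b}) × ↥(V₁ ∩ V₂)) × ℝ → B) := by
  unfold out
  refine Continuous.if_le ?_ ?_ continuous_snd continuous_const ?_
  · exact continuous_pp (continuous_subtype_val.comp (continuous_fst.comp continuous_fst))
      (continuous_cl.comp (continuous_const.add continuous_snd))
  · refine c.h.continuous.comp ((continuous_cl.comp (continuous_const.sub continuous_snd)).prodMk ?_)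
    exact Continuous.subtype_mk (continuous_subtype_val.comp
      (continuous_snd.comp continuous_fst)) _
  · rintro ⟨q, r⟩ h
    have h' : r = 0 := h
    subst h'
    change q.1.1.1 (cl (1 + 0)) = c.h (cl (1 - 0), _)
    rw [sub_zero, add_zero, cl_of_one_le le_rfl, c.one]
    exact q.1.2

/-- the path of `out` -/
noncomputable def outP (c : Contr V₂ b) : C(↥(ev b ⁻¹' {b}) × ↥(V₁ ∩ V₂), PP b) :=
  mkP (fun q : (↥(ev b ⁻¹' {b}) × ↥(V₁ ∩ V₂)) × I => out c (q.1, 2 * (q.2 : ℝ) - 1))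
    ((continuous_out c).comp (by fun_prop)) (fun q => by
      rw [out_nonpos c q (by simp), cl_of_nonpos (by simp)]
      exact q.1.1.2)

theorem outP_apply (c : Contr V₂ b) (q : ↥(ev b ⁻¹' {b}) × ↥(V₁ ∩ V₂)) (t : I) :
    (outP c q).1 t = out c (q, 2 * (t : ℝ) - 1) := rfl

theorem ev_outP (c : Contr V₂ b) (q : ↥(ev b ⁻¹' {b}) × ↥(V₁ ∩ V₂)) : ev b (outP c q) = q.2.1 := by
  change out c (q, 2 * ((1 : I) : ℝ) - 1) = _
  rw [out_nonneg c q (by norm_num), cl_of_nonpos (by norm_num), c.zero]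

theorem outP_mem (c : Contr V₂ b) (q : ↥(ev b ⁻¹' {b}) × ↥(V₁ ∩ V₂)) :
    outP c q ∈ (ev b ⁻¹' V₁) ∩ (ev b ⁻¹' V₂) := by
  constructor
  · change ev b _ ∈ V₁
    rw [ev_outP]
    exact q.2.2.1
  · change ev b _ ∈ V₂
    rw [ev_outP]
    exact q.2.2.2

/-- the map `Ω × (V₁ ∩ V₂) → U₁ ∩ U₂` -/
noncomputable def sM (V₁ : Set B) (c : Contr V₂ b) : C(↥(ev b ⁻¹' {b}) × ↥(V₁ ∩ V₂),
    ↥((ev b ⁻¹' V₁) ∩ (ev b ⁻¹' V₂) : Set (PP b))) :=
  ⟨fun q => ⟨outP c q, outP_mem c q⟩, Continuous.subtype_mk (outP c).continuous _⟩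

theorem pE_sM (c : Contr V₂ b) (q : ↥(ev b ⁻¹' {b}) × ↥(V₁ ∩ V₂)) :
    pE b V₁ V₂ (sM V₁ c q) = q.2 := Subtype.ext (ev_outP c q)

/-- `s ∘ (T₂, ev) ≃ id` -/
theorem sM_homotopic (c : Contr V₂ b) :
    ((sM V₁ c).comp (((T c).comp (sub (inter_subset_right :
      (ev b ⁻¹' V₁) ∩ (ev b ⁻¹' V₂) ⊆ ev b ⁻¹' V₂))).prodMk (pE b V₁ V₂))).Homotopic
        (ContinuousMap.id _) := by
  let u : I × I → ℝ := fun q =>
    (1 - (q.1 : ℝ)) * min (4 * (q.2 : ℝ) - 1) (2 - 2 * (q.2 : ℝ)) + q.1 * ((q.2 : ℝ) - 1)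
  have hu : Continuous u := by fun_prop
  let i₂ := sub (inter_subset_right : (ev b ⁻¹' V₁) ∩ (ev b ⁻¹' V₂) ⊆ ev b ⁻¹' V₂)
  let K : C(I × ↥((ev b ⁻¹' V₁) ∩ (ev b ⁻¹' V₂) : Set (PP b)), PP b) :=
    mkP (fun q => ext c (i₂ q.1.2, u (q.1.1, q.2))) ((continuous_ext c).comp (by fun_prop))
      (fun q => ext_start c _ (by
        change (1 - (q.1 : ℝ)) * min (4 * ((0 : I) : ℝ) - 1) (2 - 2 * ((0 : I) : ℝ)) +
          q.1 * (((0 : I) : ℝ) - 1) ≤ -1
        have : min (4 * ((0 : I) : ℝ) - 1) (2 - 2 * ((0 : I) : ℝ)) = -1 := by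
          rw [min_eq_left] <;> norm_num
        rw [this]
        simp))
  have hK1 : ∀ q, ev b (K q) = ev b q.2.1 := by
    intro q
    have h0 : u (q.1, 1) = 0 := by
      change (1 - (q.1 : ℝ)) * min (4 * ((1 : I) : ℝ) - 1) (2 - 2 * ((1 : I) : ℝ)) +
          q.1 * (((1 : I) : ℝ) - 1) = 0
      have : min (4 * ((1 : I) : ℝ) - 1) (2 - 2 * ((1 : I) : ℝ)) = 0 := by
        rw [min_eq_right] <;> norm_num
      rw [this]
      simp
    change ext c (i₂ q.2, u (q.1, 1)) = _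
    rw [h0, ext_nonneg c _ le_rfl, cl_of_nonpos le_rfl, c.zero]
    rfl
  have hK2 : ∀ q, K q ∈ (ev b ⁻¹' V₁) ∩ (ev b ⁻¹' V₂) := by
    intro q
    constructor
    · change ev b _ ∈ V₁
      rw [hK1]
      exact q.2.2.1
    · change ev b _ ∈ V₂
      rw [hK1]
      exact q.2.2.2
  refine homotopic_of (fun q => ⟨K q, hK2 q⟩) (Continuous.subtype_mk K.continuous _) ?_ ?_
  · intro γ
    refine Subtype.ext (pp_ext fun t => ?_)
    change ext c (i₂ γ, u (0, t)) = out c ((T c (i₂ γ), pE b V₁ V₂ γ), 2 * (t : ℝ) - 1)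
    have h0 : u (0, t) = min (4 * (t : ℝ) - 1) (2 - 2 * (t : ℝ)) := by
      change (1 - ((0 : I) : ℝ)) * _ + ((0 : I) : ℝ) * _ = _
      simp
    have ht0 := t.2.1
    have ht1 := t.2.2
    rw [h0]
    rcases le_total (t : ℝ) (1 / 2) with h | h
    · rw [min_eq_left (by linarith), out_nonpos c _ (by linarith)]
      change _ = (T c (i₂ γ)).1.1 _
      rw [T_apply, coe_cl (by linarith) (by linarith)]
      congr 2
      ring
    · rw [min_eq_right (by linarith), out_nonneg c _ (by linarith), ext_nonneg c _ (by linarith)]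
      have : 1 - (2 * (t : ℝ) - 1) = 2 - 2 * (t : ℝ) := by ring
      rw [this]
      rfl
  · intro γ
    refine Subtype.ext (pp_ext fun t => ?_)
    change ext c (i₂ γ, u (1, t)) = γ.1.1 t
    have h0 : u (1, t) = (t : ℝ) - 1 := by
      change (1 - ((1 : I) : ℝ)) * _ + ((1 : I) : ℝ) * _ = _
      simp
    rw [h0, ext_nonpos c _ (by have := t.2.2; linarith)]
    have : 1 + ((t : ℝ) - 1) = t := by ring
    rw [this, cl_coe]
    rfl

/-- the constant loop -/
def kL (b : B) : ↥(ev b ⁻¹' {b}) := ⟨⟨ContinuousMap.const I b, rfl⟩, rfl⟩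

theorem kL_apply (t : I) : (kL b).1.1 t = b := rfl

theorem out_kL (c : Contr V₂ b) (y : ↥(V₁ ∩ V₂)) (r : ℝ) :
    out c ((kL b, y), r) = c.h (cl (1 - r), ⟨y.1, y.2.2⟩) := by
  rcases le_total r 0 with h | h
  · rw [out_nonpos c _ h, cl_of_one_le (by linarith : 1 ≤ 1 - r), c.one]
    rfl
  · exact out_nonneg c _ h

/-- `T₂ ∘ s₀ ≃ const` -/
theorem T_sec (c : Contr V₂ b) :
    (((T c).comp (sub (inter_subset_right : (ev b ⁻¹' V₁) ∩ (ev b ⁻¹' V₂) ⊆ ev b ⁻¹' V₂))).comp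
      (sec (sM V₁ c) (kL b))).Homotopic (ContinuousMap.const _ (kL b)) := by
  let v : I × I → ℝ := fun q =>
    (1 - (q.1 : ℝ)) * max (2 - 4 * (q.2 : ℝ)) (2 * (q.2 : ℝ) - 1) + q.1
  have hv : Continuous v := by fun_prop
  let K : C(I × ↥(V₁ ∩ V₂), PP b) :=
    mkP (fun q => c.h (cl (v (q.1.1, q.2)), ⟨q.1.2.1, q.1.2.2.2⟩))
      (c.h.continuous.comp ((continuous_cl.comp (by fun_prop)).prodMk
        (Continuous.subtype_mk (by fun_prop) _))) (fun q => by
        have h0 : 1 ≤ v (q.1, 0) := by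
          change 1 ≤ (1 - (q.1 : ℝ)) * max (2 - 4 * ((0 : I) : ℝ)) (2 * ((0 : I) : ℝ) - 1) + q.1
          have : max (2 - 4 * ((0 : I) : ℝ)) (2 * ((0 : I) : ℝ) - 1) = 2 := by
            rw [max_eq_left] <;> norm_num
          rw [this]
          have := q.1.2.2
          linarith
        rw [cl_of_one_le h0, c.one])
  have hK1 : ∀ q, ev b (K q) = b := by
    intro q
    have h0 : 1 ≤ v (q.1, 1) := by
      change 1 ≤ (1 - (q.1 : ℝ)) * max (2 - 4 * ((1 : I) : ℝ)) (2 * ((1 : I) : ℝ) - 1) + q.1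
      have : max (2 - 4 * ((1 : I) : ℝ)) (2 * ((1 : I) : ℝ) - 1) = 1 := by
        rw [max_eq_right] <;> norm_num
      rw [this]
      linarith
    change c.h (cl (v (q.1, 1)), _) = b
    rw [cl_of_one_le h0, c.one]
  refine homotopic_of (fun q => ⟨K q, hK1 q⟩) (Continuous.subtype_mk K.continuous _) ?_ ?_
  · intro y
    refine Subtype.ext (pp_ext fun t => ?_)
    change c.h (cl (v (0, t)), _) = ext c (sub inter_subset_right (sM V₁ c (kL b, y)), 2 * (t : ℝ) - 1)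
    have h0 : v (0, t) = max (2 - 4 * (t : ℝ)) (2 * (t : ℝ) - 1) := by
      change (1 - ((0 : I) : ℝ)) * _ + ((0 : I) : ℝ) = _
      simp
    have ht0 := t.2.1
    have ht1 := t.2.2
    rw [h0]
    rcases le_total (t : ℝ) (1 / 2) with h | h
    · rw [max_eq_left (by linarith), ext_nonpos c _ (by linarith)]
      change _ = out c ((kL b, y), 2 * ((cl (1 + (2 * (t : ℝ) - 1)) : I) : ℝ) - 1)
      rw [out_kL, coe_cl (by linarith) (by linarith)]
      congr 3
      ring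
    · rw [max_eq_right (by linarith), ext_nonneg c _ (by linarith)]
      congr 2
      exact Subtype.ext (ev_outP c (kL b, y)).symm
  · intro y
    refine Subtype.ext (pp_ext fun t => ?_)
    change c.h (cl (v (1, t)), _) = b
    have h0 : v (1, t) = 1 := by
      change (1 - ((1 : I) : ℝ)) * _ + ((1 : I) : ℝ) = _
      simp
    rw [h0, cl_of_one_le le_rfl, c.one]

/-! ### the theorem -/

/-- the clutching map `V₁ ∩ V₂ → Ω B` -/
noncomputable def clut (c₁ : Contr V₁ b) (c₂ : Contr V₂ b) :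
    C(↥(V₁ ∩ V₂), ↥(ev b ⁻¹' {b})) := clu (sM V₁ c₂) (T c₁) (kL b)

theorem clut_apply (c₁ : Contr V₁ b) (c₂ : Contr V₂ b) (y : ↥(V₁ ∩ V₂)) (t : I) :
    (clut c₁ c₂ y).1.1 t = if (t : ℝ) ≤ 1 / 2 then c₂.h (cl (2 - 4 * (t : ℝ)), ⟨y.1, y.2.2⟩)
      else c₁.h (cl (2 * (t : ℝ) - 1), ⟨y.1, y.2.1⟩) := by
  have ht0 := t.2.1
  have ht1 := t.2.2
  change ext c₁ (sub inter_subset_left (sM V₁ c₂ (kL b, y)), 2 * (t : ℝ) - 1) = _
  split_ifs with h
  · rw [ext_nonpos c₁ _ (by linarith)]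
    change out c₂ ((kL b, y), 2 * ((cl (1 + (2 * (t : ℝ) - 1)) : I) : ℝ) - 1) = _
    rw [out_kL, coe_cl (by linarith) (by linarith)]
    congr 3
    ring
  · rw [ext_nonneg c₁ _ (by linarith)]
    congr 2
    exact Subtype.ext (ev_outP c₂ (kL b, y))

/-- **The homology of the loop space of a union of two contractible open sets.** -/
theorem relZ_clut (c₁ : Contr V₁ b) (c₂ : Contr V₂ b) (h₁ : IsOpen V₁) (h₂ : IsOpen V₂)
    (hc : V₁ ∪ V₂ = univ) (hb₁ : b ∈ V₁) (hb₂ : b ∈ V₂) (N : ℕ)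
    (hY : ∀ i < N, RZ ↥(V₁ ∩ V₂) i) {n : ℕ} (hn : n < 2 * N) : RelZ (clut c₁ c₂) n := by
  have hX : ∀ n, RZ (PP b) n := by
    intro n
    have : ContractibleSpace (PP b) := (PS.main B b).1
    exact rz_of_contractible n
  have ho₁ : IsOpen (ev b ⁻¹' V₁) := h₁.preimage (ev b).continuous
  have ho₂ : IsOpen (ev b ⁻¹' V₂) := h₂.preimage (ev b).continuous
  have hcu : ev b ⁻¹' V₁ ∪ ev b ⁻¹' V₂ = univ := by
    rw [← preimage_union, hc, preimage_univ]
  have onto : ∀ a, (∀ i < a, RZ ↥(ev b ⁻¹' {b}) i) → ∀ n < a + N, ∀ z : Ch n ↥(ev b ⁻¹' {b}),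
      RedCyc n z → ∃ y : Ch n ↥(V₁ ∩ V₂), RedCyc n y ∧ Hg z (push (clut c₁ c₂) n y) := by
    intro a ha n hn z hz
    exact onto_of ho₁ ho₂ hcu (base_sub hb₁) (hX n) (T c₁) (T c₂) (T_sub c₁ hb₁)
      (pE b V₁ V₂) (sM V₁ c₂) (sM_homotopic c₂) (kL b) ⟨b, hb₁, hb₂⟩
      (kunP _ _ a N ha hY n hn) z hz
  have hΩ : ∀ i < N, RZ ↥(ev b ⁻¹' {b}) i := by
    intro i hi z hz
    obtain ⟨y, hy, hzy⟩ := onto 0 (fun i hi => absurd hi (Nat.not_lt_zero i)) i (by omega) z hz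
    exact (hzy.trans (((hY i hi).hg hy).push_zero _)).exists_bd
  refine ⟨onto N hΩ n (by omega), ?_⟩
  rintro m rfl y hy hly
  exact inj_of ho₁ ho₂ hcu (base_sub hb₁) (base_sub hb₂) (hX _) (T c₁) (T c₂) (sub_T c₁ hb₁)
    (sub_T c₂ hb₂) (pE b V₁ V₂) (sM V₁ c₂) (kL b) (fun y => pE_sM c₂ (kL b, y)) (T_sec c₂) y hy hly

end Vale.Agent.P263.AD.Freu
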