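import Vale.Agent.P263.AD.FreuSph
import Vale.Agent.P246.T.RHa
import Vale.Agent.P246.T.RH1
import Vale.Agent.P246.T.RH2
import Vale.Agent.P246.T.RH3
import Vale.Agent.P246.T.HC
import Vale.Agent.P246.T.LL
import Vale.Agent.P246.T.BS
import Vale.Agent.P246.T.CV
import Vale.Agent.P251.G.Gen3

/-!
# P263, block AD, Freudenthal's theorem: the relative Hurewicz theorem in a range, quotients

* `lft_range` : the relative Hurewicz theorem in a range (from the induction in `P246/T/RHa.lean`).
* `qD` : the quotient map from the cube to the sphere, `exists_descD`.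
* `ps` : the quotient map from the interval to the circle, `exists_descQ`.
* `sc_of_pn` : a criterion for simple connectivity.
-/

open Topology Set Filter Metric Vale.Agent.P246.T Vale.Agent.P246.T.FM

set_option linter.unusedSectionVars false

namespace Vale.Agent.P263.AD.Freu

open Vale.Agent.P251.G Vale.Agent.P251.G.LC

/-- **The relative Hurewicz theorem in a range.** -/
theorem lft_range : ∀ n : ℕ, ∀ (B : Type) [TopologicalSpace B] [SimplyConnectedSpace B]
    (A : Set B) [SimplyConnectedSpace A], (∀ k ≤ n + 1, HZero univ A k) →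
      ∀ k ≤ n + 1, LftS A k := by
  intro n
  induction n with
  | zero =>
    intro B _ _ A _ _ k hk
    have hA : IsPathConnected A := isPathConnected_iff_pathConnectedSpace.2 inferInstance
    rcases k with _ | _ | k
    · exact RH.lft0 hA.nonempty
    · exact RH.lft1 hA
    · omega
  | succ n ih =>
    intro B _ _ A _ hz k hk
    rcases Nat.lt_or_ge k (n + 2) with h | h
    · exact ih B A (fun j hj => hz j (by omega)) k (by omega)
    · obtain rfl : k = n + 2 := by omega
      exact RH.step PS.main (LL.main_of HC.main) BS.main RH.cyc_bound RH.hzero_pt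
        RH.ext_of_lft n ih B A fun j hj => hz j (by omega)

theorem lft_of_range {B : Type} [TopologicalSpace B] [SimplyConnectedSpace B]
    {A : Set B} [SimplyConnectedSpace A] {n : ℕ} (hz : ∀ k ≤ n + 1, HZero univ A k) {k : ℕ}
    (hk : k ≤ n + 1) : Lft A k :=
  CV.main B A k (lft_range n B A hz k hk)

/-! ### from the cube to the sphere -/

section QD

/-- the quotient map from the cube to the sphere -/
noncomputable def qD (n : ℕ) : C(Dk n, OnePoint (Fin n → ℝ)) where
  toFun x := dv ((x : Fin n → ℝ), 1 - ‖(x : Fin n → ℝ)‖)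
  continuous_toFun := by
    rw [continuous_iff_continuousAt]
    intro x
    refine ContinuousAt.comp (f := fun x : Dk n => ((x : Fin n → ℝ), 1 - ‖(x : Fin n → ℝ)‖))
      (continuousAt_dv ?_) (by fun_prop)
    by_cases h : (x : Fin n → ℝ) = 0
    · right
      change 1 - ‖(x : Fin n → ℝ)‖ ≠ 0
      rw [h, norm_zero, sub_zero]
      exact one_ne_zero
    · exact Or.inl h

theorem qD_bd {n : ℕ} {x : Dk n} (h : ‖(x : Fin n → ℝ)‖ = 1) : qD n x = OnePoint.infty := by
  change dv ((x : Fin n → ℝ), 1 - ‖(x : Fin n → ℝ)‖) = _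
  rw [h, sub_self, dv_zero]

theorem norm_le_one {n : ℕ} (x : Dk n) : ‖(x : Fin n → ℝ)‖ ≤ 1 := mem_closedBall_zero_iff.1 x.2

theorem qD_of_ne {n : ℕ} {x : Dk n} (h : ‖(x : Fin n → ℝ)‖ ≠ 1) :
    qD n x = (((1 - ‖(x : Fin n → ℝ)‖)⁻¹ • (x : Fin n → ℝ) : Fin n → ℝ) : OnePoint _) :=
  dv_of_ne (sub_ne_zero.2 (Ne.symm h))

theorem qD_surjective {n : ℕ} (hn : 1 ≤ n) : Function.Surjective (qD n) := by
  intro y
  induction y using OnePoint.rec with
  | infty =>
    have h1 : ‖(fun _ => 1 : Fin n → ℝ)‖ = 1 := by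
      have : Nonempty (Fin n) := ⟨⟨0, hn⟩⟩
      rw [pi_norm_const, norm_one]
    exact ⟨⟨fun _ => 1, by rw [mem_closedBall_zero_iff, h1]⟩, qD_bd h1⟩
  | coe v =>
    have h0 : 0 < 1 + ‖v‖ := by positivity
    have h1 : ‖(1 + ‖v‖)⁻¹ • v‖ = ‖v‖ / (1 + ‖v‖) := by
      rw [norm_smul, Real.norm_of_nonneg (by positivity), inv_mul_eq_div]
    have h2 : ‖v‖ / (1 + ‖v‖) < 1 := by
      rw [div_lt_one h0]; linarith
    refine ⟨⟨(1 + ‖v‖)⁻¹ • v, by rw [mem_closedBall_zero_iff, h1]; exact h2.le⟩, ?_⟩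
    rw [qD_of_ne (by rw [h1]; exact h2.ne)]
    congr 1
    change (1 - ‖(1 + ‖v‖)⁻¹ • v‖)⁻¹ • (1 + ‖v‖)⁻¹ • v = v
    rw [h1]
    rw [smul_smul]
    have : (1 - ‖v‖ / (1 + ‖v‖))⁻¹ * (1 + ‖v‖)⁻¹ = 1 := by
      field_simp
      simp
    rw [this, one_smul]

theorem qD_eq {n : ℕ} {x y : Dk n} (h : qD n x = qD n y) :
    x = y ∨ (‖(x : Fin n → ℝ)‖ = 1 ∧ ‖(y : Fin n → ℝ)‖ = 1) := by
  by_cases hx : ‖(x : Fin n → ℝ)‖ = 1
  · by_cases hy : ‖(y : Fin n → ℝ)‖ = 1
    · exact Or.inr ⟨hx, hy⟩
    · rw [qD_bd hx, qD_of_ne hy] at h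
      exact absurd h (OnePoint.infty_ne_coe _)
  · by_cases hy : ‖(y : Fin n → ℝ)‖ = 1
    · rw [qD_bd hy, qD_of_ne hx] at h
      exact absurd h (OnePoint.coe_ne_infty _)
    · left
      rw [qD_of_ne hx, qD_of_ne hy] at h
      have h1 := OnePoint.coe_injective h
      have hx1 : 0 < 1 - ‖(x : Fin n → ℝ)‖ := sub_pos.2 (lt_of_le_of_ne (norm_le_one x) hx)
      have hy1 : 0 < 1 - ‖(y : Fin n → ℝ)‖ := sub_pos.2 (lt_of_le_of_ne (norm_le_one y) hy)
      have h2 := congrArg norm h1
      rw [norm_smul, norm_smul, Real.norm_of_nonneg (by positivity),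
        Real.norm_of_nonneg (by positivity), inv_mul_eq_div, inv_mul_eq_div,
        div_eq_div_iff hx1.ne' hy1.ne'] at h2
      have h3 : ‖(x : Fin n → ℝ)‖ = ‖(y : Fin n → ℝ)‖ := by linarith
      rw [h3] at h1
      exact Subtype.ext (smul_right_injective _ (inv_ne_zero hy1.ne') h1)

instance (n : ℕ) : CompactSpace (Dk n) :=
  isCompact_iff_compactSpace.1 (isCompact_closedBall (0 : Fin n → ℝ) 1)

/-- homotopies of the cube which are constant on the boundary descend to the sphere -/
theorem exists_descD {n : ℕ} (hn : 1 ≤ n) {X : Type} [TopologicalSpace X] (f : C(I × Dk n, X))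
    (h : ∀ t (x y : Dk n), ‖(x : Fin n → ℝ)‖ = 1 → ‖(y : Fin n → ℝ)‖ = 1 → f (t, x) = f (t, y)) :
    ∃ g : C(I × OnePoint (Fin n → ℝ), X), ∀ t x, g (t, qD n x) = f (t, x) := by
  let Q : C(I × Dk n, I × OnePoint (Fin n → ℝ)) := ⟨fun q => (q.1, qD n q.2), by fun_prop⟩
  have hQ : IsQuotientMap Q := Q.continuous.isClosedMap.isQuotientMap Q.continuous (by
    rintro ⟨t, y⟩
    obtain ⟨x, rfl⟩ := qD_surjective hn y
    exact ⟨(t, x), rfl⟩)
  have hf : Function.FactorsThrough f Q := by
    rintro ⟨t, x⟩ ⟨t', x'⟩ he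
    obtain rfl : t = t' := congrArg Prod.fst he
    rcases qD_eq (congrArg Prod.snd he) with rfl | ⟨h1, h2⟩
    · rfl
    · exact h t x x' h1 h2
  refine ⟨hQ.lift f hf, fun t x => ?_⟩
  exact DFunLike.congr_fun (hQ.lift_comp f hf) (t, x)

end QD

/-! ### from the interval to the circle -/

section Ps

/-- the quotient map from the interval to the circle -/
noncomputable def ps : C(I, OnePoint ℝ) where
  toFun t := dv (2 * (t : ℝ) - 1, 1 - |2 * (t : ℝ) - 1|)
  continuous_toFun := by
    rw [continuous_iff_continuousAt]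
    intro t
    refine ContinuousAt.comp (f := fun t : I => (2 * (t : ℝ) - 1, 1 - |2 * (t : ℝ) - 1|))
      (continuousAt_dv ?_) (by fun_prop)
    by_cases h : 2 * (t : ℝ) - 1 = 0
    · right
      change 1 - |2 * (t : ℝ) - 1| ≠ 0
      rw [h, abs_zero, sub_zero]
      exact one_ne_zero
    · exact Or.inl h

theorem ps_zero : ps 0 = OnePoint.infty := by
  change dv (2 * ((0 : I) : ℝ) - 1, 1 - |2 * ((0 : I) : ℝ) - 1|) = _
  have : 1 - |2 * ((0 : I) : ℝ) - 1| = 0 := by norm_num
  rw [this, dv_zero]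

theorem ps_one : ps 1 = OnePoint.infty := by
  change dv (2 * ((1 : I) : ℝ) - 1, 1 - |2 * ((1 : I) : ℝ) - 1|) = _
  have : 1 - |2 * ((1 : I) : ℝ) - 1| = 0 := by norm_num
  rw [this, dv_zero]

theorem ps_eq_infty {t : I} (h : ps t = OnePoint.infty) : t = 0 ∨ t = 1 := by
  have h1 : 1 - |2 * (t : ℝ) - 1| = 0 := by
    by_contra hne
    have h2 : ps t = (((1 - |2 * (t : ℝ) - 1|)⁻¹ • (2 * (t : ℝ) - 1) : ℝ) : OnePoint ℝ) :=
      dv_of_ne hne
    rw [h2] at h
    exact OnePoint.coe_ne_infty _ h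
  rcases abs_choice (2 * (t : ℝ) - 1) with h2 | h2
  · right
    apply Subtype.ext
    change (t : ℝ) = 1
    linarith
  · left
    apply Subtype.ext
    change (t : ℝ) = 0
    linarith

theorem ps_eq {t t' : I} (h : ps t = ps t') (hne : ps t ≠ OnePoint.infty) : t = t' := by
  have hne' : ps t' ≠ OnePoint.infty := by rwa [← h]
  have key : ∀ t : I, ps t ≠ OnePoint.infty → 0 < 1 - |2 * (t : ℝ) - 1| ∧
      ps t = (((1 - |2 * (t : ℝ) - 1|)⁻¹ • (2 * (t : ℝ) - 1) : ℝ) : OnePoint ℝ) := by
    intro t ht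
    have h1 : 1 - |2 * (t : ℝ) - 1| ≠ 0 := by
      intro h0
      apply ht
      change dv (2 * (t : ℝ) - 1, 1 - |2 * (t : ℝ) - 1|) = _
      rw [h0, dv_zero]
    refine ⟨lt_of_le_of_ne ?_ (Ne.symm h1), dv_of_ne h1⟩
    have ht0 := t.2.1
    have ht1 := t.2.2
    rw [sub_nonneg, abs_le]
    constructor <;> linarith
  obtain ⟨h1, h2⟩ := key t hne
  obtain ⟨h3, h4⟩ := key t' hne'
  rw [h2, h4] at h
  have h5 := OnePoint.coe_injective h
  have h6 := congrArg abs h5
  rw [smul_eq_mul, smul_eq_mul, abs_mul, abs_mul, abs_of_pos (inv_pos.2 h1),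
    abs_of_pos (inv_pos.2 h3), inv_mul_eq_div, inv_mul_eq_div, div_eq_div_iff h1.ne' h3.ne'] at h6
  have h7 : |2 * (t : ℝ) - 1| = |2 * (t' : ℝ) - 1| := by linarith
  rw [h7] at h5
  have h8 := smul_right_injective _ (inv_ne_zero h3.ne') h5
  apply Subtype.ext
  have h9 : 2 * (t : ℝ) - 1 = 2 * (t' : ℝ) - 1 := h8
  linarith

theorem ps_surjective : Function.Surjective ps := by
  intro y
  induction y using OnePoint.rec with
  | infty => exact ⟨0, ps_zero⟩
  | coe s =>
    have h0 : 0 < 1 + |s| := by positivity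
    have h1 : |s / (1 + |s|)| < 1 := by
      rw [abs_div, abs_of_pos h0, div_lt_one h0]; linarith
    obtain ⟨h2, h3⟩ := abs_lt.1 h1
    refine ⟨⟨(s / (1 + |s|) + 1) / 2, by constructor <;> linarith⟩, ?_⟩
    change dv (2 * ((s / (1 + |s|) + 1) / 2) - 1, 1 - |2 * ((s / (1 + |s|) + 1) / 2) - 1|) = _
    have h4 : 2 * ((s / (1 + |s|) + 1) / 2) - 1 = s / (1 + |s|) := by ring
    rw [h4, dv_of_ne (by linarith), abs_div, abs_of_pos h0]
    congr 1
    rw [smul_eq_mul]
    field_simp
    simp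

variable {V : Type} [NormedAddCommGroup V] [NormedSpace ℝ V] [FiniteDimensional ℝ V]

/-- the suspension map in terms of `smash` -/
theorem jS_smash (x : OnePoint V) (t : I) : (jS x).1.1 t = smash x (ps t) := by
  induction x using OnePoint.rec with
  | infty => rw [jS_infty, smash_infty_left]
  | coe v =>
    rw [jS_coe]
    change _ = smash (v : OnePoint V) (dv (2 * (t : ℝ) - 1, 1 - |2 * (t : ℝ) - 1|))
    by_cases h : 1 - |2 * (t : ℝ) - 1| = 0
    · rw [h, dv_zero, dv_zero, smash_infty_right]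
    · rw [dv_of_ne h, dv_of_ne h, smash_coe_coe]
      congr 1
      refine Prod.ext ?_ rfl
      change (1 - |2 * (t : ℝ) - 1|)⁻¹ • (1 - |2 * (t : ℝ) - 1|) • v = v
      rw [smul_smul, inv_mul_cancel₀ h, one_smul]

/-- families of loops descend to families of maps of the suspension -/
theorem exists_descQ {X : Type} [TopologicalSpace X] (b : X) (f : C((I × OnePoint V) × I, X))
    (h0 : ∀ q, f (q, 0) = b) (h1 : ∀ q, f (q, 1) = b)
    (h : ∀ a t, f ((a, OnePoint.infty), t) = b) :
    ∃ g : C(I × OnePoint (V × ℝ), X), ∀ a x t, g (a, smash x (ps t)) = f ((a, x), t) := by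
  have : ProperSpace V := FiniteDimensional.proper ℝ V
  let Q : C((I × OnePoint V) × I, I × OnePoint (V × ℝ)) :=
    ⟨fun q => (q.1.1, smash q.1.2 (ps q.2)), (continuous_fst.comp continuous_fst).prodMk
      ((continuous_smash (X := V) (Y := ℝ)).comp ((continuous_snd.comp continuous_fst).prodMk
        (ps.continuous.comp continuous_snd)))⟩
  have hQ : IsQuotientMap Q := Q.continuous.isClosedMap.isQuotientMap Q.continuous (by
    rintro ⟨a, y⟩
    induction y using OnePoint.rec with
    | infty => exact ⟨((a, OnePoint.infty), 0), rfl⟩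
    | coe v =>
      obtain ⟨t, ht⟩ := ps_surjective (v.2 : OnePoint ℝ)
      refine ⟨((a, (v.1 : OnePoint V)), t), ?_⟩
      change (a, smash (v.1 : OnePoint V) (ps t)) = _
      rw [ht]
      rfl)
  have hinf : ∀ a x t, smash x (ps t) = (OnePoint.infty : OnePoint (V × ℝ)) →
      f ((a, x), t) = b := by
    intro a x t he
    rcases smash_eq_infty.1 he with rfl | he
    · exact h a t
    · rcases ps_eq_infty he with rfl | rfl
      · exact h0 _
      · exact h1 _
  have hf : Function.FactorsThrough f Q := by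
    rintro ⟨⟨a, x⟩, t⟩ ⟨⟨a', x'⟩, t'⟩ he
    obtain rfl : a = a' := congrArg Prod.fst he
    have he' : smash x (ps t) = smash x' (ps t') := congrArg Prod.snd he
    by_cases hi : smash x (ps t) = (OnePoint.infty : OnePoint (V × ℝ))
    · rw [hinf a x t hi, hinf a x' t' (by rw [← he']; exact hi)]
    · have hi' : smash x' (ps t') ≠ (OnePoint.infty : OnePoint (V × ℝ)) := by rwa [← he']
      have hx : x ≠ OnePoint.infty := fun h => hi (smash_eq_infty.2 (Or.inl h))
      have hx' : x' ≠ OnePoint.infty := fun h => hi' (smash_eq_infty.2 (Or.inl h))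
      have ht : ps t ≠ OnePoint.infty := fun h => hi (smash_eq_infty.2 (Or.inr h))
      have ht' : ps t' ≠ OnePoint.infty := fun h => hi' (smash_eq_infty.2 (Or.inr h))
      obtain ⟨v, rfl⟩ := OnePoint.ne_infty_iff_exists.1 hx
      obtain ⟨v', rfl⟩ := OnePoint.ne_infty_iff_exists.1 hx'
      obtain ⟨s, hs⟩ := OnePoint.ne_infty_iff_exists.1 ht
      obtain ⟨s', hs'⟩ := OnePoint.ne_infty_iff_exists.1 ht'
      rw [← hs, ← hs', smash_coe_coe, smash_coe_coe] at he'
      have h5 := OnePoint.coe_injective he'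
      obtain rfl : v = v' := congrArg Prod.fst h5
      obtain rfl : s = s' := congrArg Prod.snd h5
      have h6 : t = t' := ps_eq (hs.symm.trans hs') ht
      rw [h6]
  refine ⟨hQ.lift f hf, fun a x t => ?_⟩
  exact DFunLike.congr_fun (hQ.lift_comp f hf) ((a, x), t)

end Ps

/-! ### simple connectivity -/

section SC

/-- every pointed map from the sphere is pointed null homotopic -/
def PN (X : Type) [TopologicalSpace X] (x₀ : X) (n : ℕ) : Prop :=
  ∀ f : C(OnePoint (Fin n → ℝ), X), f OnePoint.infty = x₀ →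
    ∃ H : C(I × OnePoint (Fin n → ℝ), X), (∀ x, H (0, x) = f x) ∧ (∀ x, H (1, x) = x₀) ∧
      ∀ t, H (t, OnePoint.infty) = x₀

theorem sc_of_base {X : Type} [TopologicalSpace X] (x₀ : X) (hpc : PathConnectedSpace X)
    (h : ∀ γ : Path x₀ x₀, γ.Homotopic (Path.refl x₀)) : SimplyConnectedSpace X := by
  rw [simply_connected_iff_loops_nullhomotopic]
  refine ⟨hpc, fun x γ => ?_⟩
  obtain ⟨p⟩ := hpc.joined x₀ x
  rw [← Path.Homotopic.Quotient.eq, Path.Homotopic.Quotient.mk_refl]
  have h1 : ((Path.Homotopic.Quotient.mk p).trans (Path.Homotopic.Quotient.mk γ)).trans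
      (Path.Homotopic.Quotient.mk p).symm = Path.Homotopic.Quotient.refl x₀ := by
    rw [← Path.Homotopic.Quotient.mk_symm, ← Path.Homotopic.Quotient.mk_trans,
      ← Path.Homotopic.Quotient.mk_trans, ← Path.Homotopic.Quotient.mk_refl,
      Path.Homotopic.Quotient.eq]
    exact h _
  generalize Path.Homotopic.Quotient.mk p = P at h1
  generalize Path.Homotopic.Quotient.mk γ = G at h1 ⊢
  have h2 : (P.symm.trans ((P.trans G).trans P.symm)).trans P = G := by
    rw [Path.Homotopic.Quotient.trans_assoc, Path.Homotopic.Quotient.trans_assoc,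
      Path.Homotopic.Quotient.symm_trans, Path.Homotopic.Quotient.trans_refl,
      ← Path.Homotopic.Quotient.trans_assoc, Path.Homotopic.Quotient.symm_trans,
      Path.Homotopic.Quotient.refl_trans]
  rw [h1, Path.Homotopic.Quotient.trans_refl, Path.Homotopic.Quotient.symm_trans] at h2
  exact h2.symm

theorem sc_of_pn {X : Type} [TopologicalSpace X] (x₀ : X) (h0 : PN X x₀ 0) (h1 : PN X x₀ 1) :
    SimplyConnectedSpace X := by
  have hj : ∀ x : X, Joined x x₀ := by
    intro x
    obtain ⟨H, hH0, hH1, -⟩ := h0 ⟨fun y => y.elim x₀ (fun _ => x), by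
      rw [OnePoint.continuous_iff]
      refine ⟨?_, by change Continuous (fun _ : Fin 0 → ℝ => x); exact continuous_const⟩
      rw [coclosedCompact_eq_cocompact, cocompact_eq_bot]
      exact tendsto_bot⟩ rfl
    refine ⟨⟨⟨fun t => H (t, ((0 : Fin 0 → ℝ) : OnePoint (Fin 0 → ℝ))), by fun_prop⟩, ?_, ?_⟩⟩
    · exact hH0 _
    · exact hH1 _
  refine sc_of_base x₀ ⟨⟨x₀⟩, fun x y => (hj x).trans (hj y).symm⟩ fun γ => ?_
  -- the loop as a map of the circle
  let e : C(I, Dk 1) := ⟨fun s => ⟨fun _ => 2 * (s : ℝ) - 1, by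
    rw [mem_closedBall_zero_iff, pi_norm_const, Real.norm_eq_abs, abs_le]
    have := s.2.1
    have := s.2.2
    constructor <;> linarith⟩, by fun_prop⟩
  obtain ⟨f, hf⟩ := exists_descD (n := 1) le_rfl
    (⟨fun q => γ (cl ((1 + (q.2 : Fin 1 → ℝ) 0) / 2)), by
      refine γ.continuous.comp (continuous_cl.comp ?_)
      have : Continuous fun q : I × Dk 1 => (q.2 : Fin 1 → ℝ) 0 :=
        (continuous_apply 0).comp (continuous_subtype_val.comp continuous_snd)
      fun_prop⟩ : C(I × Dk 1, X)) (by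
      have key : ∀ x : Dk 1, ‖(x : Fin 1 → ℝ)‖ = 1 → γ (cl ((1 + (x : Fin 1 → ℝ) 0) / 2)) = x₀ := by
        intro x hx
        have h2 : (x : Fin 1 → ℝ) = fun _ => (x : Fin 1 → ℝ) 0 := by
          funext i
          rw [Subsingleton.elim i 0]
        rw [h2, pi_norm_const, Real.norm_eq_abs] at hx
        rcases eq_or_eq_neg_of_abs_eq hx with h3 | h3
        · rw [h3, cl_of_one_le (by norm_num), γ.target]
        · rw [h3, cl_of_nonpos (by norm_num), γ.source]
      intro t x y hx hy
      change γ _ = γ _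
      rw [key x hx, key y hy])
  have hfe : ∀ t s, f (t, qD 1 (e s)) = γ s := by
    intro t s
    rw [hf]
    change γ (cl ((1 + (2 * (s : ℝ) - 1)) / 2)) = γ s
    have : (1 + (2 * (s : ℝ) - 1)) / 2 = s := by ring
    rw [this, cl_coe]
  have he0 : qD 1 (e 0) = OnePoint.infty := by
    apply qD_bd
    change ‖(fun _ => 2 * ((0 : I) : ℝ) - 1 : Fin 1 → ℝ)‖ = 1
    rw [pi_norm_const]
    norm_num
  have he1 : qD 1 (e 1) = OnePoint.infty := by
    apply qD_bd
    change ‖(fun _ => 2 * ((1 : I) : ℝ) - 1 : Fin 1 → ℝ)‖ = 1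
    rw [pi_norm_const]
    norm_num
  obtain ⟨H, hH0, hH1, hH2⟩ := h1 ⟨fun x => f (0, x), by fun_prop⟩ (by
    have := hfe 0 0
    rw [he0, γ.source] at this
    exact this)
  refine ⟨⟨⟨⟨fun q => H (q.1, qD 1 (e q.2)), by fun_prop⟩, ?_, ?_⟩, ?_⟩⟩
  · intro s
    exact (hH0 _).trans (hfe 0 s)
  · intro s
    exact hH1 _
  · rintro t s (rfl | rfl)
    · change H (t, qD 1 (e 0)) = γ 0
      rw [he0, hH2, γ.source]
    · change H (t, qD 1 (e 1)) = γ 1
      rw [he1, hH2, γ.target]

variable {F : Type} [NormedAddCommGroup F] [NormedSpace ℝ F] [FiniteDimensional ℝ F]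

/-- pointed maps of spheres into a sphere of bigger dimension -/
theorem null_of_lt {E : Type} [NormedAddCommGroup E] [NormedSpace ℝ E] [FiniteDimensional ℝ E]
    (h : Module.finrank ℝ E < Module.finrank ℝ F) (f : C(OnePoint E, OnePoint F))
    (hf : f OnePoint.infty = OnePoint.infty) :
    ∃ H : C(I × OnePoint E, OnePoint F), (∀ x, H (0, x) = f x) ∧
      (∀ x, H (1, x) = OnePoint.infty) ∧ ∀ t, H (t, OnePoint.infty) = OnePoint.infty := by
  have : ProperSpace E := FiniteDimensional.proper ℝ E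
  have : ProperSpace F := FiniteDimensional.proper ℝ F
  obtain ⟨H⟩ := (LC.homotopic_iff _ _).1 (LC.homotopic_zero_of_finrank_lt h
    (⟨f, hf⟩ : LC.of E ⟶ LC.of F))
  refine ⟨H.toContinuousMap, fun x => H.apply_zero x, fun x => H.apply_one x, fun t => ?_⟩
  have := H.eq_fst t (Set.mem_singleton (OnePoint.infty : OnePoint E))
  exact this.trans hf

theorem pn_sphere {n : ℕ} (h : n < Module.finrank ℝ F) :
    PN (OnePoint F) OnePoint.infty n := fun f hf =>
  null_of_lt (by simpa using h) f hf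

/-- **spheres are simply connected** -/
theorem sc_sphere (h : 1 < Module.finrank ℝ F) : SimplyConnectedSpace (OnePoint F) :=
  sc_of_pn OnePoint.infty (pn_sphere (by omega)) (pn_sphere h)

/-- the loop space -/
abbrev Om (F : Type) [TopologicalSpace F] : Type :=
  ↥(ev (OnePoint.infty : OnePoint F) ⁻¹' {OnePoint.infty})

theorem pn_loop {n : ℕ} (h : n + 1 < Module.finrank ℝ F) :
    PN (Om F) (kL OnePoint.infty) n := by
  intro f hf
  -- the adjoint map
  obtain ⟨g, hg⟩ := exists_descQ (V := Fin n → ℝ) (OnePoint.infty : OnePoint F)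
    (⟨fun q => (f q.1.2).1.1 q.2, by
      exact continuous_pp (continuous_subtype_val.comp (f.continuous.comp
        (continuous_snd.comp continuous_fst))) continuous_snd⟩ : C((I × OnePoint (Fin n → ℝ)) × I, OnePoint F))
    (fun q => (f q.2).1.2) (fun q => (f q.2).2) (fun a t => by
      change (f OnePoint.infty).1.1 t = _
      rw [hf]
      rfl)
  obtain ⟨H, hH0, hH1, hH2⟩ := null_of_lt (E := (Fin n → ℝ) × ℝ) (F := F) (by simpa using h)
    ⟨fun x => g (0, x), by fun_prop⟩ (by
      have := hg 0 OnePoint.infty 0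
      rw [smash_infty_left] at this
      exact this.trans (f OnePoint.infty).1.2)
  let K : C(I × OnePoint (Fin n → ℝ), PP (OnePoint.infty : OnePoint F)) :=
    mkP (fun q => H (q.1.1, smash q.1.2 (ps q.2))) (H.continuous.comp
      ((continuous_fst.comp continuous_fst).prodMk
      ((continuous_smash (X := Fin n → ℝ) (Y := ℝ)).comp ((continuous_snd.comp continuous_fst).prodMk
        (ps.continuous.comp continuous_snd))))) (fun q => by
        rw [ps_zero, smash_infty_right, hH2])
  have hK : ∀ q, K q ∈ ev (OnePoint.infty : OnePoint F) ⁻¹' {OnePoint.infty} := by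
    intro q
    change H (q.1, smash q.2 (ps 1)) = _
    rw [ps_one, smash_infty_right, hH2]
  refine ⟨⟨fun q => ⟨K q, hK q⟩, Continuous.subtype_mk K.continuous _⟩, ?_, ?_, ?_⟩
  · intro x
    refine Subtype.ext (pp_ext fun t => ?_)
    change H (0, smash x (ps t)) = (f x).1.1 t
    rw [hH0]
    exact hg 0 x t
  · intro x
    refine Subtype.ext (pp_ext fun t => ?_)
    exact hH1 _
  · intro a
    refine Subtype.ext (pp_ext fun t => ?_)
    change H (a, smash OnePoint.infty (ps t)) = _
    rw [smash_infty_left, hH2]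
    rfl

/-- **loop spaces of spheres are simply connected** -/
theorem sc_loop (h : 2 < Module.finrank ℝ F) : SimplyConnectedSpace (Om F) :=
  sc_of_pn (kL OnePoint.infty) (pn_loop (by omega)) (pn_loop (by omega))

end SC

end Vale.Agent.P263.AD.Freu
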