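import Vale.Agent.P263.AD.FreuPath
import Vale.Agent.P263.T0.Ball
import Vale.Agent.P263.T0.SphH

/-!
# P263, block AD, Freudenthal's theorem: the sphere

`V` is a finite dimensional normed space, `Y = OnePoint (V × ℝ)` is covered by the complements of
the points `(0, -1)` and `(0, 1)`, which are contractible to `∞`; their intersection is homotopy
equivalent to `OnePoint V`. `hzero_susp`: the relative integral homology of the suspension map
`jS : OnePoint V → Ω Y` vanishes below `2 N` if the reduced homology of `OnePoint V` vanishes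
below `N`.
-/

open Topology Set Filter Vale.Agent.P246.T Vale.Agent.P246.T.FM

namespace Vale.Agent.P263.AD.Freu

open Vale.Agent.P263.T0.Ball (rho rho_coe rho_infty rho_nonneg continuous_rho tendsto_infty_iff)

set_option linter.unusedSectionVars false

section Dv

variable {E : Type} [NormedAddCommGroup E] [NormedSpace ℝ E]

open Classical in
/-- the quotient of a vector by a scalar, in the one point compactification -/
noncomputable def dv (q : E × ℝ) : OnePoint E :=
  if q.2 = 0 then OnePoint.infty else ((q.2⁻¹ • q.1 : E) : OnePoint E)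

theorem dv_zero (e : E) : dv (e, (0 : ℝ)) = OnePoint.infty := if_pos rfl

theorem dv_of_ne {e : E} {d : ℝ} (h : d ≠ 0) : dv (e, d) = ((d⁻¹ • e : E) : OnePoint E) := if_neg h

theorem dv_one (e : E) : dv (e, (1 : ℝ)) = (e : OnePoint E) := by
  rw [dv_of_ne one_ne_zero, inv_one, one_smul]

variable [FiniteDimensional ℝ E]

theorem rho_dv (e : E) (d : ℝ) : rho (dv (e, d)) = |d| / (|d| + ‖e‖) := by
  by_cases h : d = 0
  · rw [h, dv_zero, rho_infty, abs_zero, zero_div]
  · rw [dv_of_ne h, rho_coe, norm_smul, norm_inv, Real.norm_eq_abs]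
    have h1 : 0 < |d| := abs_pos.2 h
    have h2 : 0 < |d| + ‖e‖ := by positivity
    rw [eq_div_iff h2.ne']
    field_simp

theorem continuousAt_dv {q : E × ℝ} (h : q.1 ≠ 0 ∨ q.2 ≠ 0) : ContinuousAt dv q := by
  obtain ⟨e, d⟩ := q
  by_cases hd : d = 0
  · subst hd
    have he : e ≠ 0 := h.resolve_right (fun h => h rfl)
    have h3 : 0 < ‖e‖ := norm_pos_iff.2 he
    rw [ContinuousAt, dv_zero, tendsto_infty_iff]
    have h1 : (fun q : E × ℝ => rho (dv q)) = fun q => |q.2| / (|q.2| + ‖q.1‖) :=
      funext fun q => rho_dv q.1 q.2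
    rw [h1]
    have h2 : ContinuousAt (fun q : E × ℝ => |q.2| / (|q.2| + ‖q.1‖)) (e, 0) := by
      refine ContinuousAt.div (by fun_prop) (by fun_prop) ?_
      show |(0 : ℝ)| + ‖e‖ ≠ 0
      rw [abs_zero, zero_add]
      exact h3.ne'
    have h4 := h2.tendsto
    simpa using h4
  · have h1 : ∀ᶠ q : E × ℝ in 𝓝 (e, d), q.2 ≠ 0 :=
      (continuous_snd.continuousAt (x := (e, d))).eventually_ne hd
    have h2 : dv =ᶠ[𝓝 (e, d)] fun q : E × ℝ => ((q.2⁻¹ • q.1 : E) : OnePoint E) := by
      filter_upwards [h1] with q hq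
      exact dv_of_ne hq
    refine ContinuousAt.congr ?_ h2.symm
    refine OnePoint.continuous_coe.continuousAt.comp ?_
    exact (continuousAt_snd.inv₀ hd).smul continuousAt_fst

end Dv

section Lift

variable {P V E : Type} [TopologicalSpace P] [NormedAddCommGroup V] [NormedSpace ℝ V]
  [NormedAddCommGroup E] [NormedSpace ℝ E]

/-- the extension of a quotient to the one point compactification -/
noncomputable def lft (num : P × V → E) (den : P × V → ℝ) (q : P × OnePoint V) : OnePoint E :=
  q.2.elim OnePoint.infty fun v => dv (num (q.1, v), den (q.1, v))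

theorem lft_infty (num : P × V → E) (den : P × V → ℝ) (p : P) :
    lft num den (p, OnePoint.infty) = OnePoint.infty := rfl

theorem lft_coe (num : P × V → E) (den : P × V → ℝ) (p : P) (v : V) :
    lft num den (p, (v : OnePoint V)) = dv (num (p, v), den (p, v)) := rfl

variable [FiniteDimensional ℝ V] [FiniteDimensional ℝ E] {num : P × V → E} {den : P × V → ℝ}

theorem continuousAt_lft (hn : Continuous num) (hd : Continuous den) (K : ℝ)
    (hK0 : 0 ≤ K) (hK : ∀ q : P × V, (1 + ‖q.2‖) * |den q| ≤ K * (‖num q‖ + |den q|)) {q : P × OnePoint V}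
    (h : ∀ v : V, q.2 = (v : OnePoint V) → num (q.1, v) ≠ 0 ∨ den (q.1, v) ≠ 0 ∨
      ∀ᶠ q' in 𝓝 (q.1, v), den q' = 0) : ContinuousAt (lft num den) q := by
  obtain ⟨p, x⟩ := q
  induction x using OnePoint.rec with
  | infty =>
    rw [ContinuousAt, lft_infty, tendsto_infty_iff]
    have hK1 : ∀ q : P × OnePoint V, rho (lft num den q) ≤ K * rho q.2 := by
      rintro ⟨p, x⟩
      induction x using OnePoint.rec with
      | infty =>
        rw [lft_infty]
        change (0 : ℝ) ≤ K * 0
        simp
      | coe v =>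
        rw [lft_coe, rho_dv, rho_coe]
        have h1 := hK (p, v)
        have h2 : 0 < 1 + ‖v‖ := by positivity
        rcases (by positivity : 0 ≤ |den (p, v)| + ‖num (p, v)‖).eq_or_lt with h3 | h3
        · rw [← h3, div_zero]
          positivity
        · rw [div_le_iff₀ h3, mul_assoc, inv_mul_eq_div, mul_div_assoc', le_div_iff₀ h2]
          nlinarith
    refine squeeze_zero (fun q => rho_nonneg _) hK1 ?_
    have h1 : Continuous fun q : P × OnePoint V => K * rho q.2 :=
      continuous_const.mul (continuous_rho.comp continuous_snd)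
    have h2 := h1.tendsto (p, OnePoint.infty)
    simpa using h2
  | coe v =>
    have he : IsOpenEmbedding (Prod.map id (fun v : V => (v : OnePoint V)) : P × V → P × OnePoint V) :=
      IsOpenEmbedding.id.prodMap OnePoint.isOpenEmbedding_coe
    have h1 : ContinuousAt (lft num den ∘ Prod.map id (fun v : V => (v : OnePoint V))) (p, v) := by
      have h2 : lft num den ∘ Prod.map id (fun v : V => (v : OnePoint V)) =
          fun q : P × V => dv (num q, den q) := rfl
      rw [h2]
      rcases h v rfl with h3 | h3 | h3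
      · exact ContinuousAt.comp (f := fun q : P × V => (num q, den q)) (continuousAt_dv (Or.inl h3))
          (hn.prodMk hd).continuousAt
      · exact ContinuousAt.comp (f := fun q : P × V => (num q, den q)) (continuousAt_dv (Or.inr h3))
          (hn.prodMk hd).continuousAt
      · refine ContinuousAt.congr (f := fun _ => (OnePoint.infty : OnePoint E)) continuousAt_const ?_
        filter_upwards [h3] with q hq
        rw [hq, dv_zero]
    exact (he.continuousAt_iff.1 h1)

end Lift

/-! ### the contraction of the complement of a point -/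

section Contraction

variable {E : Type} [NormedAddCommGroup E] [NormedSpace ℝ E] [FiniteDimensional ℝ E]

/-- the numerator -/
def cNum (c : E) (q : I × E) : E := q.2 - (q.1 : ℝ) • c

/-- the denominator -/
def cDen (q : I × E) : ℝ := 1 - (q.1 : ℝ)

theorem continuousAt_contr (c : E) {q : I × OnePoint E} (h : q.2 ≠ (c : OnePoint E)) :
    ContinuousAt (lft (cNum c) cDen) q := by
  refine continuousAt_lft (by unfold cNum; fun_prop) (by unfold cDen; fun_prop) (1 + ‖c‖)
    (by positivity) ?_ ?_
  · rintro ⟨t, y⟩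
    have ht0 := t.2.1
    have ht1 := t.2.2
    change (1 + ‖y‖) * |1 - (t : ℝ)| ≤ (1 + ‖c‖) * (‖y - (t : ℝ) • c‖ + |1 - (t : ℝ)|)
    rw [abs_of_nonneg (by linarith)]
    have h1 : ‖y‖ ≤ ‖y - (t : ℝ) • c‖ + t * ‖c‖ := by
      have h2 := norm_add_le (y - (t : ℝ) • c) ((t : ℝ) • c)
      rwa [sub_add_cancel, norm_smul, Real.norm_of_nonneg ht0] at h2
    have h3 := norm_nonneg (y - (t : ℝ) • c)
    have h4 := norm_nonneg c
    have h5 : (1 - (t : ℝ)) * ‖y‖ ≤ (1 - (t : ℝ)) * (‖y - (t : ℝ) • c‖ + t * ‖c‖) :=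
      mul_le_mul_of_nonneg_left h1 (by linarith)
    nlinarith [mul_nonneg h3 h4, mul_nonneg ht0 h3, mul_nonneg ht0 h4,
      mul_nonneg (mul_nonneg ht0 (sub_nonneg.2 ht1)) h4,
      mul_nonneg (mul_nonneg (sub_nonneg.2 ht1) (sub_nonneg.2 ht1)) h4]
  · obtain ⟨t, y⟩ := q
    rintro v rfl
    by_cases ht : 1 - (t : ℝ) = 0
    · refine Or.inl fun h0 => h ?_
      have h1 : v - (t : ℝ) • c = 0 := h0
      have h2 : (t : ℝ) = 1 := by linarith
      rw [h2, one_smul, sub_eq_zero] at h1
      exact congrArg _ h1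
    · exact Or.inr (Or.inl ht)

theorem contr_mem (c : E) {q : I × OnePoint E} (h : q.2 ≠ (c : OnePoint E)) :
    lft (cNum c) cDen q ≠ (c : OnePoint E) := by
  obtain ⟨t, y⟩ := q
  induction y using OnePoint.rec with
  | infty =>
    rw [lft_infty]
    exact OnePoint.infty_ne_coe c
  | coe v =>
    rw [lft_coe]
    by_cases ht : cDen (t, v) = 0
    · rw [ht, dv_zero]
      exact OnePoint.infty_ne_coe c
    · rw [dv_of_ne ht]
      intro h1
      apply h
      have h2 : (cDen (t, v))⁻¹ • cNum c (t, v) = c := OnePoint.coe_injective h1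
      have h3 : cNum c (t, v) = cDen (t, v) • c := by
        rw [← h2, smul_smul, mul_inv_cancel₀ ht, one_smul, h2]
      have h4 : v - (t : ℝ) • c = (1 - (t : ℝ)) • c := h3
      rw [sub_smul, one_smul, sub_left_inj] at h4
      exact congrArg _ h4

/-- the contraction of the complement of the point `c` to `∞` -/
noncomputable def contr (c : E) :
    Contr ({(c : OnePoint E)}ᶜ : Set (OnePoint E)) (OnePoint.infty : OnePoint E) where
  h := ⟨fun q => lft (cNum c) cDen (q.1, q.2.1), continuous_iff_continuousAt.2 fun q =>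
    ContinuousAt.comp (f := fun q : I × ↥({(c : OnePoint E)}ᶜ : Set (OnePoint E)) => (q.1, q.2.1))
      (continuousAt_contr c q.2.2) (by fun_prop)⟩
  mem q := contr_mem c q.2.2
  zero x := by
    obtain ⟨y, hy⟩ := x
    change lft (cNum c) cDen (0, y) = y
    induction y using OnePoint.rec with
    | infty => rfl
    | coe v =>
      rw [lft_coe]
      have h1 : cNum c (0, v) = v := by
        change v - ((0 : I) : ℝ) • c = v
        simp
      have h2 : cDen ((0 : I), v) = 1 := by
        change 1 - ((0 : I) : ℝ) = 1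
        simp
      rw [h1, h2, dv_one]
  one x := by
    obtain ⟨y, hy⟩ := x
    change lft (cNum c) cDen (1, y) = _
    induction y using OnePoint.rec with
    | infty => rfl
    | coe v =>
      rw [lft_coe]
      have h2 : cDen ((1 : I), v) = 0 := by
        change 1 - ((1 : I) : ℝ) = 0
        simp
      rw [h2, dv_zero]
  base _ _ := rfl

theorem contr_apply (c : E) (t : I) (v : E) (hv : (v : OnePoint E) ∈ ({(c : OnePoint E)}ᶜ : Set _)) :
    (contr c).h (t, ⟨v, hv⟩) = dv (v - (t : ℝ) • c, 1 - (t : ℝ)) := rfl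

theorem contr_infty (c : E) (t : I)
    (hv : (OnePoint.infty : OnePoint E) ∈ ({(c : OnePoint E)}ᶜ : Set _)) :
    (contr c).h (t, ⟨OnePoint.infty, hv⟩) = OnePoint.infty := rfl

end Contraction

/-! ### the intersection -/

section Inter

variable (V : Type) [NormedAddCommGroup V] [NormedSpace ℝ V] [FiniteDimensional ℝ V]

/-- the lower point -/
def cM : V × ℝ := (0, -1)

/-- the upper point -/
def cP : V × ℝ := (0, 1)

/-- the complement of the lower point -/
def VM : Set (OnePoint (V × ℝ)) := {((cM V : V × ℝ) : OnePoint (V × ℝ))}ᶜ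

/-- the complement of the upper point -/
def VP : Set (OnePoint (V × ℝ)) := {((cP V : V × ℝ) : OnePoint (V × ℝ))}ᶜ

theorem isOpen_VM : IsOpen (VM V) := isOpen_compl_singleton

theorem isOpen_VP : IsOpen (VP V) := isOpen_compl_singleton

theorem infty_mem_VM : (OnePoint.infty : OnePoint (V × ℝ)) ∈ VM V := OnePoint.infty_ne_coe _

theorem infty_mem_VP : (OnePoint.infty : OnePoint (V × ℝ)) ∈ VP V := OnePoint.infty_ne_coe _

theorem VM_union_VP : VM V ∪ VP V = univ := by
  rw [eq_univ_iff_forall]
  intro x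
  by_contra hx
  rw [mem_union, not_or] at hx
  obtain ⟨rfl, h⟩ : x = ((cM V : V × ℝ) : OnePoint (V × ℝ)) ∧
      x = ((cP V : V × ℝ) : OnePoint (V × ℝ)) := ⟨not_not.1 hx.1, not_not.1 hx.2⟩
  have h1 : cM V = cP V := OnePoint.coe_injective h
  have h2 : (-1 : ℝ) = 1 := congrArg Prod.snd h1
  norm_num at h2

variable {V}

theorem coe_mem_inter (v : V) (s : ℝ) :
    (((v, s) : V × ℝ) : OnePoint (V × ℝ)) ∈ VM V ∩ VP V ↔ v ≠ 0 ∨ |s| ≠ 1 := by
  constructor
  · rintro ⟨h1, h2⟩
    by_contra hcon
    push Not at hcon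
    obtain ⟨rfl, h⟩ := hcon
    rcases eq_or_eq_neg_of_abs_eq h with rfl | rfl
    · exact h2 rfl
    · exact h1 rfl
  · intro h
    constructor
    · intro h1
      have h2 : (v, s) = cM V := OnePoint.coe_injective h1
      obtain ⟨rfl, rfl⟩ : v = 0 ∧ s = -1 := ⟨congrArg Prod.fst h2, congrArg Prod.snd h2⟩
      rcases h with h | h
      · exact h rfl
      · exact h (by norm_num)
    · intro h1
      have h2 : (v, s) = cP V := OnePoint.coe_injective h1
      obtain ⟨rfl, rfl⟩ : v = 0 ∧ s = 1 := ⟨congrArg Prod.fst h2, congrArg Prod.snd h2⟩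
      rcases h with h | h
      · exact h rfl
      · exact h (by norm_num)

/-- numerator of the deformation -/
def hNum (q : I × (V × ℝ)) : V × ℝ := (q.2.1, (1 - (q.1 : ℝ)) * q.2.2)

/-- denominator of the deformation -/
def hDen (q : I × (V × ℝ)) : ℝ := max 0 (1 - (q.1 : ℝ) * |q.2.2|)

theorem hDen_nonneg (q : I × (V × ℝ)) : 0 ≤ hDen q := le_max_left _ _

theorem hDen_le (q : I × (V × ℝ)) : hDen q ≤ 1 :=
  max_le zero_le_one (by have := mul_nonneg q.1.2.1 (abs_nonneg q.2.2); linarith)

theorem h_growth (q : I × (V × ℝ)) : (‖q.2‖ - 1) * hDen q ≤ ‖hNum q‖ := by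
  obtain ⟨a, x, s⟩ := q
  have ha0 := a.2.1
  have ha1 := a.2.2
  have hd0 := hDen_nonneg (a, x, s)
  have hd1 := hDen_le (a, x, s)
  have hn1 : ‖x‖ ≤ ‖hNum (a, x, s)‖ := le_max_left _ _
  have hn2 : (1 - (a : ℝ)) * |s| ≤ ‖hNum (a, x, s)‖ := by
    have : ‖(1 - (a : ℝ)) * s‖ ≤ ‖hNum (a, x, s)‖ := le_max_right _ _
    rwa [Real.norm_eq_abs, abs_mul, abs_of_nonneg (by linarith)] at this
  change (max ‖x‖ ‖s‖ - 1) * hDen (a, x, s) ≤ _
  rw [Real.norm_eq_abs]
  have hx := norm_nonneg x
  have hs := abs_nonneg s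
  rcases le_total |s| ‖x‖ with h | h
  · rw [max_eq_left h]
    nlinarith
  · rw [max_eq_right h]
    rcases le_total |s| 1 with h1 | h1
    · nlinarith
    · refine le_trans ?_ hn2
      rcases le_total 0 (1 - (a : ℝ) * |s|) with h2 | h2
      · have : hDen (a, x, s) = 1 - (a : ℝ) * |s| := max_eq_right h2
        rw [this]
        nlinarith [mul_nonneg ha0 (mul_nonneg (sub_nonneg.2 h1) (sub_nonneg.2 h1))]
      · have : hDen (a, x, s) = 0 := max_eq_left h2
        rw [this, mul_zero]
        exact mul_nonneg (by linarith) hs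

theorem h_ne (a : I) {x : V} {s : ℝ} (h : x ≠ 0 ∨ |s| ≠ 1) :
    hNum (a, x, s) ≠ 0 ∨ hDen (a, x, s) ≠ 0 ∨ ∀ᶠ q in 𝓝 ((a, x, s) : I × (V × ℝ)), hDen q = 0 := by
  rcases lt_trichotomy (1 - (a : ℝ) * |s|) 0 with h2 | h2 | h2
  · right; right
    have h3 : Continuous fun q : I × (V × ℝ) => 1 - (q.1 : ℝ) * |q.2.2| := by fun_prop
    have h4 : ∀ᶠ q in 𝓝 ((a, x, s) : I × (V × ℝ)), 1 - (q.1 : ℝ) * |q.2.2| < 0 :=
      h3.continuousAt.eventually_lt continuousAt_const h2
    filter_upwards [h4] with q hq
    exact max_eq_left hq.le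
  · refine Or.inl fun h0 => ?_
    have h1 : x = 0 := congrArg Prod.fst h0
    have h1' : (1 - (a : ℝ)) * s = 0 := congrArg Prod.snd h0
    have h3 : |s| ≠ 1 := h.resolve_left (fun h => h h1)
    rcases mul_eq_zero.1 h1' with h4 | h4
    · apply h3
      have : (a : ℝ) = 1 := by linarith
      rw [this] at h2
      linarith
    · rw [h4, abs_zero, mul_zero, sub_zero] at h2
      exact one_ne_zero h2
  · exact Or.inr (Or.inl (ne_of_gt (lt_max_of_lt_right h2)))

theorem continuous_hNum : Continuous (hNum : I × (V × ℝ) → V × ℝ) := by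
  unfold hNum; fun_prop

theorem continuous_hDen : Continuous (hDen : I × (V × ℝ) → ℝ) := by
  unfold hDen; fun_prop

theorem continuousAt_def {q : I × OnePoint (V × ℝ)} (h : q.2 ∈ VM V ∩ VP V) :
    ContinuousAt (lft hNum hDen) q := by
  have hK : ∀ q : I × (V × ℝ), (1 + ‖q.2‖) * |hDen q| ≤ 2 * (‖hNum q‖ + |hDen q|) := by
    intro q
    have h1 := h_growth q
    have h2 := hDen_nonneg q
    have h3 := norm_nonneg (hNum q)
    rw [abs_of_nonneg h2]
    nlinarith
  refine continuousAt_lft (P := I) (V := V × ℝ) (E := V × ℝ) (num := hNum) (den := hDen)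
    continuous_hNum continuous_hDen 2 (by norm_num) hK ?_
  obtain ⟨a, y⟩ := q
  rintro ⟨x, s⟩ rfl
  exact h_ne a ((coe_mem_inter x s).1 h)

theorem def_mem {q : I × OnePoint (V × ℝ)} (h : q.2 ∈ VM V ∩ VP V) :
    lft hNum hDen q ∈ VM V ∩ VP V := by
  obtain ⟨a, y⟩ := q
  induction y using OnePoint.rec with
  | infty => exact ⟨infty_mem_VM V, infty_mem_VP V⟩
  | coe v =>
    obtain ⟨x, s⟩ := v
    rw [lft_coe]
    by_cases hd : hDen (a, x, s) = 0
    · rw [hd, dv_zero]
      exact ⟨infty_mem_VM V, infty_mem_VP V⟩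
    · rw [dv_of_ne hd]
      have h1 := (coe_mem_inter x s).1 h
      change ((((hDen (a, x, s))⁻¹ • x, (hDen (a, x, s))⁻¹ • ((1 - (a : ℝ)) * s)) : V × ℝ) :
        OnePoint (V × ℝ)) ∈ _
      rw [coe_mem_inter]
      have hd0 : 0 < hDen (a, x, s) := lt_of_le_of_ne (hDen_nonneg _) (Ne.symm hd)
      rcases h1 with h1 | h1
      · exact Or.inl (smul_ne_zero (inv_ne_zero hd) h1)
      · by_cases hx : x = 0
        · refine Or.inr fun h2 => h1 ?_
          have ha1 := a.2.2
          rw [smul_eq_mul, abs_mul, abs_mul, abs_of_nonneg (by linarith : 0 ≤ 1 - (a : ℝ)),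
            abs_of_pos (inv_pos.2 hd0), inv_mul_eq_div, div_eq_one_iff_eq hd] at h2
          have h3 : hDen (a, x, s) = 1 - (a : ℝ) * |s| := by
            rcases max_choice 0 (1 - (a : ℝ) * |s|) with h4 | h4
            · exact absurd h4 hd
            · exact h4
          rw [h3] at h2
          linarith
        · exact Or.inl (smul_ne_zero (inv_ne_zero hd) hx)

/-- the deformation of the intersection -/
noncomputable def defM : C(I × ↥(VM V ∩ VP V), ↥(VM V ∩ VP V)) :=
  ⟨fun q => ⟨lft hNum hDen (q.1, q.2.1), def_mem q.2.2⟩,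
    Continuous.subtype_mk (continuous_iff_continuousAt.2 fun q =>
      ContinuousAt.comp (f := fun q : I × ↥(VM V ∩ VP V) => (q.1, q.2.1))
        (continuousAt_def q.2.2) (by fun_prop)) _⟩

/-- the inclusion `x ↦ (x, 0)` of one point compactifications -/
noncomputable def incF (x : OnePoint V) : OnePoint (V × ℝ) :=
  lft (fun q : Unit × V => ((q.2, 0) : V × ℝ)) (fun _ => 1) ((), x)

theorem incF_infty : incF (OnePoint.infty : OnePoint V) = OnePoint.infty := rfl

theorem incF_coe (v : V) : incF (v : OnePoint V) = (((v, 0) : V × ℝ) : OnePoint (V × ℝ)) :=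
  dv_one _

theorem continuous_incF : Continuous (incF : OnePoint V → OnePoint (V × ℝ)) := by
  rw [continuous_iff_continuousAt]
  intro x
  refine ContinuousAt.comp (f := fun x : OnePoint V => ((), x)) ?_ (by fun_prop)
  refine continuousAt_lft (by fun_prop) continuous_const 1 zero_le_one ?_ ?_
  · rintro ⟨_, v⟩
    have : ‖v‖ ≤ ‖((v, 0) : V × ℝ)‖ := le_max_left _ _
    change (1 + ‖v‖) * |1| ≤ 1 * (‖((v, 0) : V × ℝ)‖ + |1|)
    rw [abs_one]
    linarith
  · intro v _
    exact Or.inr (Or.inl one_ne_zero)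

theorem incF_mem (x : OnePoint V) : incF x ∈ VM V ∩ VP V := by
  induction x using OnePoint.rec with
  | infty => exact ⟨infty_mem_VM V, infty_mem_VP V⟩
  | coe v =>
    rw [incF_coe, coe_mem_inter]
    right
    norm_num

theorem incF_injective : Function.Injective (incF : OnePoint V → OnePoint (V × ℝ)) := by
  intro x y h
  induction x using OnePoint.rec with
  | infty =>
    induction y using OnePoint.rec with
    | infty => rfl
    | coe w =>
      rw [incF_infty, incF_coe] at h
      exact absurd h (OnePoint.infty_ne_coe _)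
  | coe v =>
    induction y using OnePoint.rec with
    | infty =>
      rw [incF_infty, incF_coe] at h
      exact absurd h (OnePoint.coe_ne_infty _)
    | coe w =>
      rw [incF_coe, incF_coe] at h
      have h1 : (v, (0 : ℝ)) = (w, 0) := OnePoint.coe_injective h
      exact congrArg _ (congrArg Prod.fst h1)

/-- the inclusion of the equator in the intersection -/
noncomputable def iM : C(OnePoint V, ↥(VM V ∩ VP V)) :=
  ⟨fun x => ⟨incF x, incF_mem x⟩, Continuous.subtype_mk continuous_incF _⟩

/-- the retraction to the equator -/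
noncomputable def retF (y : OnePoint (V × ℝ)) : OnePoint V :=
  lft (fun q : Unit × (V × ℝ) => q.2.1) (fun q => max 0 (1 - |q.2.2|)) ((), y)

theorem retF_infty : retF (OnePoint.infty : OnePoint (V × ℝ)) = OnePoint.infty := rfl

theorem retF_coe (v : V) (s : ℝ) :
    retF (((v, s) : V × ℝ) : OnePoint (V × ℝ)) = dv (v, max 0 (1 - |s|)) := rfl

theorem continuousAt_retF {y : OnePoint (V × ℝ)} (h : y ∈ VM V ∩ VP V) :
    ContinuousAt (retF : OnePoint (V × ℝ) → OnePoint V) y := by
  refine ContinuousAt.comp (f := fun x : OnePoint (V × ℝ) => ((), x)) ?_ (by fun_prop)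
  have hcont : Continuous fun q : Unit × (V × ℝ) => 1 - |q.2.2| := by fun_prop
  refine continuousAt_lft (by fun_prop) (continuous_const.max hcont) 2 (by norm_num) ?_ ?_
  · rintro ⟨_, x, s⟩
    have h1 := h_growth ((1 : I), x, s)
    have h2 := hDen_nonneg ((1 : I), x, s)
    have h3 : hDen ((1 : I), x, s) = max 0 (1 - |s|) := by
      change max 0 (1 - ((1 : I) : ℝ) * |s|) = _
      simp
    have h4 : ‖hNum ((1 : I), x, s)‖ = ‖x‖ := by
      change max ‖x‖ ‖(1 - ((1 : I) : ℝ)) * s‖ = _
      simp
    have h5 := norm_nonneg x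
    rw [h3] at h1 h2
    rw [h4] at h1
    change (1 + ‖(x, s)‖) * |max 0 (1 - |s|)| ≤ 2 * (‖x‖ + |max 0 (1 - |s|)|)
    rw [abs_of_nonneg h2]
    change (‖(x, s)‖ - 1) * _ ≤ _ at h1
    nlinarith
  · rintro ⟨x, s⟩ rfl
    have h1 := (coe_mem_inter x s).1 h
    rcases h1 with h1 | h1
    · exact Or.inl h1
    · rcases lt_or_gt_of_ne h1 with h2 | h2
      · exact Or.inr (Or.inl (ne_of_gt (lt_max_of_lt_right (sub_pos.2 h2))))
      · right; right
        have h4 : ∀ᶠ q in 𝓝 (((), x, s) : Unit × (V × ℝ)), 1 - |q.2.2| < 0 :=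
          hcont.continuousAt.eventually_lt continuousAt_const (by
            change 1 - |s| < 0
            linarith)
        filter_upwards [h4] with q hq
        exact max_eq_left hq.le

/-- the retraction to the equator -/
noncomputable def rM : C(↥(VM V ∩ VP V), OnePoint V) :=
  ⟨fun y => retF y.1, continuous_iff_continuousAt.2 fun y =>
    ContinuousAt.comp (f := fun y : ↥(VM V ∩ VP V) => y.1) (continuousAt_retF y.2)
      (by fun_prop)⟩

theorem rM_iM : (rM : C(↥(VM V ∩ VP V), OnePoint V)).comp iM = ContinuousMap.id _ := by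
  ext x
  change retF (incF x) = x
  induction x using OnePoint.rec with
  | infty => rfl
  | coe v =>
    rw [incF_coe, retF_coe, abs_zero, sub_zero, max_eq_right zero_le_one, dv_one]

theorem iM_rM : ((iM : C(OnePoint V, ↥(VM V ∩ VP V))).comp rM).Homotopic
    (ContinuousMap.id _) := by
  symm
  refine homotopic_of (fun q => defM q) defM.continuous ?_ ?_
  · rintro ⟨y, hy⟩
    apply Subtype.ext
    change lft hNum hDen (0, y) = y
    induction y using OnePoint.rec with
    | infty => rfl
    | coe v =>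
      obtain ⟨x, s⟩ := v
      rw [lft_coe]
      have h1 : hNum ((0 : I), x, s) = (x, s) := by
        change (x, (1 - ((0 : I) : ℝ)) * s) = _
        simp
      have h2 : hDen ((0 : I), x, s) = 1 := by
        change max 0 (1 - ((0 : I) : ℝ) * |s|) = 1
        simp
      rw [h1, h2, dv_one]
  · rintro ⟨y, hy⟩
    apply Subtype.ext
    change lft hNum hDen (1, y) = incF (retF y)
    induction y using OnePoint.rec with
    | infty => rfl
    | coe v =>
      obtain ⟨x, s⟩ := v
      rw [lft_coe, retF_coe]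
      have h1 : hNum ((1 : I), x, s) = (x, 0) := by
        change (x, (1 - ((1 : I) : ℝ)) * s) = _
        simp
      have h2 : hDen ((1 : I), x, s) = max 0 (1 - |s|) := by
        change max 0 (1 - ((1 : I) : ℝ) * |s|) = _
        simp
      rw [h1, h2]
      by_cases h3 : max 0 (1 - |s|) = 0
      · rw [h3, dv_zero, dv_zero, incF_infty]
      · rw [dv_of_ne h3, dv_of_ne h3, incF_coe]
        congr 1
        exact Prod.ext rfl (smul_zero _)

end Inter

/-! ### the suspension map -/

section Susp

/-- the profile of the loops -/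
noncomputable def prf (q : I × I) : ℝ :=
  (1 - (q.1 : ℝ)) * max (-1) (min (4 * (q.2 : ℝ) - 2) (2 * (q.2 : ℝ) - 1)) +
    q.1 * (2 * (q.2 : ℝ) - 1)

theorem continuous_prf : Continuous prf := by
  unfold prf; fun_prop

theorem prf_abs (q : I × I) : |prf q| ≤ 1 := by
  have ha0 := q.1.2.1
  have ha1 := q.1.2.2
  have ht0 := q.2.2.1
  have ht1 := q.2.2.2
  have h1 : -1 ≤ max (-1) (min (4 * (q.2 : ℝ) - 2) (2 * (q.2 : ℝ) - 1)) := le_max_left _ _
  have h2 : max (-1) (min (4 * (q.2 : ℝ) - 2) (2 * (q.2 : ℝ) - 1)) ≤ 1 :=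
    max_le (by norm_num) ((min_le_right _ _).trans (by linarith))
  rw [abs_le]
  unfold prf
  constructor <;> nlinarith

theorem prf_start (a : I) : prf (a, 0) = -1 := by
  unfold prf
  have : max (-1) (min (4 * ((0 : I) : ℝ) - 2) (2 * ((0 : I) : ℝ) - 1)) = -1 := by
    rw [min_eq_left (by norm_num), max_eq_left (by norm_num)]
  rw [this]
  simp only [Icc.coe_zero]
  ring

theorem prf_end (a : I) : prf (a, 1) = 1 := by
  unfold prf
  have : max (-1) (min (4 * ((1 : I) : ℝ) - 2) (2 * ((1 : I) : ℝ) - 1)) = 1 := by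
    rw [min_eq_right (by norm_num), max_eq_right (by norm_num)]
    norm_num
  rw [this]
  simp
  norm_num

variable {V : Type} [NormedAddCommGroup V] [NormedSpace ℝ V] [FiniteDimensional ℝ V]

/-- the numerator -/
noncomputable def sNum (q : (I × I) × V) : V × ℝ :=
  ((1 - (q.1.1 : ℝ) * |prf q.1|) • q.2, prf q.1)

/-- the denominator -/
noncomputable def sDen (q : (I × I) × V) : ℝ := 1 - |prf q.1|

theorem continuous_sNum : Continuous (sNum : (I × I) × V → V × ℝ) := by
  have h := continuous_prf
  unfold sNum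
  fun_prop

theorem continuous_sDen : Continuous (sDen : (I × I) × V → ℝ) := by
  have h := continuous_prf
  unfold sDen
  fun_prop

theorem s_growth (q : (I × I) × V) :
    (1 + ‖q.2‖) * |sDen q| ≤ 1 * (‖sNum q‖ + |sDen q|) := by
  have h1 := prf_abs q.1
  have h2 : sDen q = 1 - |prf q.1| := rfl
  have ha1 := q.1.1.2.2
  have h6 := abs_nonneg (prf q.1)
  have h3 : (1 - (q.1.1 : ℝ) * |prf q.1|) * ‖q.2‖ ≤ ‖sNum q‖ := by
    have h4 : ‖(1 - (q.1.1 : ℝ) * |prf q.1|) • q.2‖ ≤ ‖sNum q‖ := le_max_left _ _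
    rwa [norm_smul, Real.norm_of_nonneg (by nlinarith)] at h4
  rw [h2, abs_of_nonneg (by linarith)]
  have h5 := norm_nonneg q.2
  nlinarith [mul_nonneg (mul_nonneg (sub_nonneg.2 ha1) h6) h5]

theorem continuous_susp :
    Continuous (lft sNum sDen : (I × I) × OnePoint V → OnePoint (V × ℝ)) := by
  rw [continuous_iff_continuousAt]
  intro q
  refine continuousAt_lft (P := I × I) (V := V) (E := V × ℝ) (num := sNum) (den := sDen)
    continuous_sNum continuous_sDen 1 zero_le_one s_growth ?_
  rintro v -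
  by_cases h : sDen (q.1, v) = 0
  · refine Or.inl fun h0 => ?_
    have h1 : prf q.1 = 0 := congrArg Prod.snd h0
    have h2 : 1 - |prf q.1| = 0 := h
    rw [h1, abs_zero, sub_zero] at h2
    exact one_ne_zero h2
  · exact Or.inr (Or.inl h)

theorem susp_of_abs {q : (I × I) × OnePoint V} (h : |prf q.1| = 1) :
    lft sNum sDen q = OnePoint.infty := by
  obtain ⟨p, x⟩ := q
  induction x using OnePoint.rec with
  | infty => rfl
  | coe v =>
    have h1 : sDen (p, v) = 0 := by
      change 1 - |prf p| = 0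
      rw [h, sub_self]
    rw [lft_coe, h1, dv_zero]

/-- the homotopy of loops -/
noncomputable def suspP : C(I × OnePoint V, PP (OnePoint.infty : OnePoint (V × ℝ))) :=
  mkP (fun q : (I × OnePoint V) × I => lft sNum sDen ((q.1.1, q.2), q.1.2))
    (continuous_susp.comp (by fun_prop)) (fun q => susp_of_abs (by
      rw [prf_start]
      norm_num))

theorem suspP_mem (q : I × OnePoint V) : suspP q ∈ ev (OnePoint.infty : OnePoint (V × ℝ)) ⁻¹' {OnePoint.infty} :=
  susp_of_abs (by rw [prf_end]; norm_num)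

/-- the homotopy of loops -/
noncomputable def suspH : C(I × OnePoint V, ↥(ev (OnePoint.infty : OnePoint (V × ℝ)) ⁻¹' {OnePoint.infty})) :=
  ⟨fun q => ⟨suspP q, suspP_mem q⟩, Continuous.subtype_mk suspP.continuous _⟩

/-- the suspension map `OnePoint V → Ω (OnePoint (V × ℝ))` -/
noncomputable def jS : C(OnePoint V, ↥(ev (OnePoint.infty : OnePoint (V × ℝ)) ⁻¹' {OnePoint.infty})) :=
  ⟨fun x => suspH (1, x), by fun_prop⟩

theorem jS_infty (t : I) : (jS (OnePoint.infty : OnePoint V)).1.1 t = OnePoint.infty := rfl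

theorem jS_coe (v : V) (t : I) : (jS (v : OnePoint V)).1.1 t =
    dv ((((1 - |2 * (t : ℝ) - 1|) • v, 2 * (t : ℝ) - 1) : V × ℝ), 1 - |2 * (t : ℝ) - 1|) := by
  have h1 : prf (1, t) = 2 * (t : ℝ) - 1 := by
    unfold prf
    simp
  change dv (((1 - ((1 : I) : ℝ) * |prf (1, t)|) • v, prf (1, t)), 1 - |prf (1, t)|) = _
  rw [h1]
  simp

theorem clut_homotopic : ((clut (contr (cM V)) (contr (cP V))).comp iM).Homotopic jS := by
  refine homotopic_of (fun q => suspH q) suspH.continuous ?_ (fun x => rfl)
  intro x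
  refine Subtype.ext (pp_ext fun t => ?_)
  refine Eq.trans ?_ (clut_apply (contr (cM V)) (contr (cP V)) (iM x) t).symm
  change lft sNum sDen ((0, t), x) = if (t : ℝ) ≤ 1 / 2 then lft (cNum (cP V)) cDen (cl (2 - 4 * (t : ℝ)), incF x)
    else lft (cNum (cM V)) cDen (cl (2 * (t : ℝ) - 1), incF x)
  have ht0 := t.2.1
  have ht1 := t.2.2
  induction x using OnePoint.rec with
  | infty =>
    rw [incF_infty, lft_infty, lft_infty, lft_infty, ite_self]
  | coe v =>
    rw [incF_coe, lft_coe, lft_coe, lft_coe]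
    have h0 : prf (0, t) = max (-1) (min (4 * (t : ℝ) - 2) (2 * (t : ℝ) - 1)) := by
      unfold prf
      simp
    have h1 : sNum (((0 : I), t), v) = (v, prf (0, t)) := by
      change ((1 - ((0 : I) : ℝ) * _) • v, _) = _
      simp
    have h2 : sDen (((0 : I), t), v) = 1 - |prf (0, t)| := rfl
    rw [h1, h2]
    split_ifs with h
    · have h3 : prf (0, t) = -(cl (2 - 4 * (t : ℝ)) : ℝ) := by
        rw [h0, min_eq_left (by linarith)]
        change _ = -max 0 (min 1 (2 - 4 * (t : ℝ)))
        rw [max_eq_right (le_min zero_le_one (by linarith))]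
        rcases le_total 1 (2 - 4 * (t : ℝ)) with h4 | h4
        · rw [min_eq_left h4, max_eq_left (by linarith)]
        · rw [min_eq_right h4, max_eq_right (by linarith)]
          ring
      have h5 := (cl (2 - 4 * (t : ℝ))).2.1
      rw [h3, abs_neg, abs_of_nonneg h5]
      congr 1
      refine Prod.ext ?_ rfl
      refine Prod.ext ?_ ?_
      · change v = v - _ • (0 : V)
        rw [smul_zero, sub_zero]
      · change -(cl (2 - 4 * (t : ℝ)) : ℝ) = 0 - _ • (1 : ℝ)
        simp
    · have h3 : prf (0, t) = (cl (2 * (t : ℝ) - 1) : ℝ) := by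
        rw [h0, min_eq_right (by linarith), coe_cl (by linarith) (by linarith),
          max_eq_right (by linarith)]
      have h5 := (cl (2 * (t : ℝ) - 1)).2.1
      rw [h3, abs_of_nonneg h5]
      congr 1
      refine Prod.ext ?_ rfl
      refine Prod.ext ?_ ?_
      · change v = v - _ • (0 : V)
        rw [smul_zero, sub_zero]
      · change (cl (2 * (t : ℝ) - 1) : ℝ) = 0 - _ • (-1 : ℝ)
        simp

/-- the middle of the unit interval -/
noncomputable def hf : I := ⟨1 / 2, by norm_num, by norm_num⟩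

theorem jS_half (x : OnePoint V) : (jS x).1.1 hf = incF x := by
  induction x using OnePoint.rec with
  | infty => rfl
  | coe v =>
    rw [jS_coe, incF_coe]
    have h1 : 2 * (hf : ℝ) - 1 = 0 := by
      change 2 * (1 / 2 : ℝ) - 1 = 0
      norm_num
    rw [h1, abs_zero, sub_zero, one_smul, dv_one]

theorem jS_injective : Function.Injective (jS : OnePoint V → _) := by
  intro x y h
  apply incF_injective
  rw [← jS_half, ← jS_half, h]

theorem isEmbedding_jS : IsEmbedding (jS : OnePoint V → _) :=
  (jS.continuous.isClosedEmbedding jS_injective).isEmbedding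

/-- **The relative integral homology of the suspension map.** -/
theorem hzero_susp (N : ℕ) (hY : ∀ i < N, RZ (OnePoint V) i) {n : ℕ} (hn : n < 2 * N) :
    HZero univ (range (jS : C(OnePoint V, _))) n := by
  refine hzero_of_rel isEmbedding_jS OnePoint.infty (RelZ.congr clut_homotopic ?_)
  refine RelZ.comp ?_ iM rM iM_rM (by rw [rM_iM])
  exact relZ_clut (contr (cM V)) (contr (cP V)) (isOpen_VM V) (isOpen_VP V) (VM_union_VP V)
    (infty_mem_VM V) (infty_mem_VP V) N (fun i hi => RZ.of_retract iM_rM (hY i hi)) hn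

end Susp

/-- the reduced homology of the sphere -/
theorem rz_sph {N i : ℕ} (h : i ≠ N) : RZ (OnePoint (Fin N → ℝ)) i := fun _ hc =>
  T0.SphH.bounds_of_ne (T0.SphH.hgen_sph N) h hc

/-- **The relative integral homology of `S^N → Ω S^(N+1)` vanishes below `2 N`.** -/
theorem hzero_sph (N : ℕ) {n : ℕ} (hn : n < 2 * N) :
    HZero univ (range (jS : C(OnePoint (Fin N → ℝ), _))) n :=
  hzero_susp N (fun _ hi => rz_sph hi.ne) hn

end Vale.Agent.P263.AD.Freu
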