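import Vale.Agent.P263.TJ.CrossSph

/-!
# P263, block AD: the quadratic construction detects the Hopf invariant, abstract form

`f : S^(m+1) → S^n`, `m + 2 = 2 n`; `δ : D → S^(2n)` a map which is `f (x, s) ∧ f (x, s t)` on one
square family and a null homotopy of the diagonal on another one. If the Hopf invariant of `f` is
one then `δ^*` of the generator is not a coboundary.
-/

open Finset OnePoint

namespace Vale.Agent.P263.AD.HC

open Vale.Agent.P263.S Vale.Agent.P263.E Vale.Agent.P263.H83 Vale.Agent.P263.G2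
  Vale.Agent.P263.T0 Vale.Agent.P263.TJ

section pr

variable {Y T : Type} [TopologicalSpace Y] [TopologicalSpace T]

/-- the simplices of a homotopy -/
noncomputable def pr1 (K : C(Y × unitInterval, T)) : SS.Map ((sing Y).prod D1) (sing T) :=
  ⟨fun {p} z => ofC (⟨fun t : Dl p => K (toC z.1 t, chiI z.2 t), K.continuous.comp
      ((toC z.1).continuous.prodMk (chiI z.2).continuous)⟩ : C(Dl p, T)), fun f z => by
    apply ContinuousMap.ext
    intro t
    refine congrArg (fun s => K (toC z.1 (dmap f t), s)) ?_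
    exact DFunLike.congr_fun (chiI_comp z.2 f) t⟩

theorem pr1_app (K : C(Y × unitInterval, T)) {p : ℕ} (z : ((sing Y).prod D1).obj p) (t : Dl p) :
    toC ((pr1 K).app z) t = K (toC z.1 t, chiI z.2 t) := rfl

/-- the simplices of a family of squares -/
noncomputable def pr2 (K : C(Y × unitInterval × unitInterval, T)) :
    SS.Map (((sing Y).prod D1).prod D1) (sing T) :=
  ⟨fun {p} z => ofC (⟨fun t : Dl p => K (toC z.1.1 t, chiI z.1.2 t, chiI z.2 t), K.continuous.comp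
      ((toC z.1.1).continuous.prodMk ((chiI z.1.2).continuous.prodMk (chiI z.2).continuous))⟩ :
      C(Dl p, T)), fun f z => by
    apply ContinuousMap.ext
    intro t
    refine congrArg₂ (fun s s' => K (toC z.1.1 (dmap f t), s, s')) ?_ ?_
    · exact DFunLike.congr_fun (chiI_comp z.1.2 f) t
    · exact DFunLike.congr_fun (chiI_comp z.2 f) t⟩

theorem pr2_app (K : C(Y × unitInterval × unitInterval, T)) {p : ℕ}
    (z : (((sing Y).prod D1).prod D1).obj p) (t : Dl p) :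
    toC ((pr2 K).app z) t = K (toC z.1.1 t, chiI z.1.2 t, chiI z.2 t) := rfl

end pr

theorem eq_of_add {Z : SS} {u v : Cc Z} (h : u + v = 0) : u = v := by
  funext p x
  have h1 : u p x + v p x = 0 := congrFun (congrFun h p) x
  have h2 : ∀ a b : ZMod 2, a + b = 0 → a = b := by decide
  exact h2 _ _ h1

theorem isDeg_cast {Z : SS} {i j : ℕ} (h : i = j) {u : Cc Z} (hu : Cc.IsDeg i u) :
    Cc.IsDeg j u := h ▸ hu

/-- the loop coordinate -/
noncomputable def lp : C(unitInterval, Sph 1) :=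
  ⟨fun s => tup fun _ => GB.loopU s, continuous_tup.comp
    (continuous_pi fun _ => GB.loopU.continuous)⟩

theorem lp_zero : lp 0 = ∞ := tup_of_eq_infty (i := 0) GB.loopE_zero

theorem lp_one : lp 1 = ∞ := tup_of_eq_infty (i := 0) GB.loopE_one

/-- `Sᵐ × I → Sᵐ⁺¹` -/
noncomputable def jl (m : ℕ) : C(Sph m × unitInterval, Sph (m + 1)) :=
  ⟨fun z => join2 z.1 (lp z.2), continuous_join2.comp
    (continuous_fst.prodMk (lp.continuous.comp continuous_snd))⟩

theorem jl_apply (m : ℕ) (x : Sph m) (s : unitInterval) : jl m (x, s) = join2 x (lp s) := rfl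

theorem jl_zero (m : ℕ) (x : Sph m) : jl m (x, 0) = ∞ := by
  rw [jl_apply, lp_zero, join2_infty_right]

theorem jl_one (m : ℕ) (x : Sph m) : jl m (x, 1) = ∞ := by
  rw [jl_apply, lp_one, join2_infty_right]

/-- integration along `jl` -/
theorem Dst_jl {m : ℕ} (w : Cc (sing (Sph (m + 1)))) :
    Dst (Cc.pull (pr1 (jl m)) w) = DstN 1 (Cc.pull (mu m 1) w) := by
  have h1 : DstN 1 (Cc.pull (mu m 1) w) = Cc.pull (nilM (sing (Sph m)))
      (Dst (Cc.pull (consM (sing (Sph m)) 0) (Cc.pull (mu m 1) w))) := rfl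
  rw [h1, ← Dst_pull]
  congr 1
  funext p z
  have h2 : (pr1 (jl m)).app z = (mu m 1).app ((consM (sing (Sph m)) 0).app
      ((SS.pair ((nilM (sing (Sph m))).comp (SS.fst (sing (Sph m)) D1))
        (SS.snd (sing (Sph m)) D1)).app z)) := by
    apply ContinuousMap.ext
    intro t
    refine congrArg (join2 (toC z.1 t)) (congrArg tup (funext fun i => ?_))
    have hi : i = 0 := Fin.eq_zero i
    subst hi
    rfl
  exact congrArg (w p) h2

/-- the data of the construction -/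
structure Dat (m n : ℕ) (D : Type) [TopologicalSpace D] where
  /-- the map of spheres -/
  f : C(Sph (m + 1), Sph n)
  f_inf : f ∞ = ∞
  /-- the base point -/
  d0 : D
  /-- the quadratic construction -/
  dl : C(D, Sph (n + n))
  /-- the null homotopy of the diagonal -/
  G : C(Sph n × unitInterval, Sph (n + n))
  G1 : ∀ x, G (x, 1) = join2 x x
  G0 : ∀ x, G (x, 0) = ∞
  Gi : ∀ t, G (∞, t) = ∞
  /-- the first square -/
  P : C(Sph m × unitInterval × unitInterval, D)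
  /-- the second square -/
  Q : C(Sph m × unitInterval × unitInterval, D)
  hP : ∀ x s t, dl (P (x, s, t)) = join2 (f (jl m (x, s))) (f (jl m (x, s * t)))
  hQ : ∀ x s t, dl (Q (x, s, t)) = G (f (jl m (x, s)), t)
  PQ : ∀ x s, P (x, s, 1) = Q (x, s, 1)
  Pt0 : ∀ x s, P (x, s, 0) = d0
  Qt0 : ∀ x s, Q (x, s, 0) = d0
  Ps0 : ∀ x t, P (x, 0, t) = d0
  Ps1 : ∀ x t, P (x, 1, t) = d0
  Qs0 : ∀ x t, Q (x, 0, t) = d0
  Qs1 : ∀ x t, Q (x, 1, t) = d0

namespace Dat

variable {m n : ℕ} {D : Type} [TopologicalSpace D] (A : Dat m n D)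

/-- the constant simplices of `D` -/
noncomputable def ct (p : ℕ) : (sing D).obj p := ofC (ContinuousMap.const _ A.d0)

theorem map_ct {p q : ℕ} (g : Op p q) : (sing D).map g (A.ct q) = A.ct p := rfl

/-! ### the second square -/

/-- the integral of the generator over the null homotopy of the diagonal -/
noncomputable def h (z : Cc (sing (Sph (n + n)))) : Cc (sing (Sph n)) :=
  Dst (Cc.pull (pr1 A.G) z)

/-- the diagonal -/
noncomputable def dg (n : ℕ) : SS.Map (sing (Sph n)) ((sing (Sph n)).prod (sing (Sph n))) :=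
  SS.pair (SS.Map.id _) (SS.Map.id _)

theorem G_end1 : (pr1 A.G).comp (endP1 (sing (Sph n))) = (jnM n n).comp (dg n) := by
  apply SS.Map.ext
  intro p x
  apply ContinuousMap.ext
  intro t
  change A.G (toC x t, chiI (c1 p) t) = join2 (toC x t) (toC x t)
  rw [chiI_c1, A.G1]

theorem G_end0 {p : ℕ} (x : (sing (Sph n)).obj p) :
    ((pr1 A.G).comp (endP0 (sing (Sph n)))).app x = SphCc.ct (n + n) p := by
  apply ContinuousMap.ext
  intro t
  change A.G (toC x t, chiI (c0 p) t) = ∞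
  rw [chiI_c0, A.G0]

variable {z : Cc (sing (Sph (n + n)))}

theorem d_h (hdz : Cc.d z = 0) (hvz : Vn (bs (n + n)) z) :
    Cc.d (A.h z) = Cc.pull (dg n) (Cc.pull (jnM n n) z) := by
  have h1 := Dst_d (Cc.pull (pr1 A.G) z)
  have h2 : Cc.pull (endP1 (sing (Sph n))) (Cc.pull (pr1 A.G) z) =
      Cc.pull (dg n) (Cc.pull (jnM n n) z) := by
    rw [← Cc.pull_comp, A.G_end1, Cc.pull_comp]
  have h3 : Cc.pull (endP0 (sing (Sph n))) (Cc.pull (pr1 A.G) z) = 0 := by
    funext p x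
    refine (congrArg (z p) (A.G_end0 x)).trans ?_
    exact hvz p _ (SphCc.ct_mem _ _)
  rw [← pull_d, hdz, pull_zero, Dst_zero, h2, h3, add_zero] at h1
  exact eq_of_add h1.symm

theorem vn_h (hvz : Vn (bs (n + n)) z) : Vn (bs n) (A.h z) := by
  refine Vn_Dst fun p x hx => hvz p _ fun t => ?_
  change A.G (toC x.1 t, chiI x.2 t) = ∞
  rw [show toC x.1 t = ∞ from hx t, A.Gi]

theorem isDeg_h {k : ℕ} (hz : Cc.IsDeg (k + 1) z) : Cc.IsDeg k (A.h z) := fun p hp x =>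
  congrFun (Dst_degree (w := Cc.pull (pr1 A.G) z) (p := p)
    (funext fun y => hz.pull (pr1 A.G) (p + 1) (by omega) y)) x

/-! ### the first square -/

/-- the first map of the square family to `S^(m+1)` -/
noncomputable def a1 (m : ℕ) : SS.Map (((sing (Sph m)).prod D1).prod D1) (sing (Sph (m + 1))) :=
  (pr1 (jl m)).comp (SS.fst _ D1)

/-- `(x, s, t) ↦ (x, s t)` -/
noncomputable def jt (m : ℕ) : C(Sph m × unitInterval × unitInterval, Sph (m + 1)) :=
  ⟨fun z => jl m (z.1, z.2.1 * z.2.2), (jl m).continuous.comp (continuous_fst.prodMk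
    ((continuous_fst.comp continuous_snd).mul (continuous_snd.comp continuous_snd)))⟩

/-- the second map of the square family to `S^(m+1)` -/
noncomputable def a2 (m : ℕ) : SS.Map (((sing (Sph m)).prod D1).prod D1) (sing (Sph (m + 1))) :=
  pr2 (jt m)

/-- the pair of the two maps -/
noncomputable def F : SS.Map (((sing (Sph m)).prod D1).prod D1)
    ((sing (Sph n)).prod (sing (Sph n))) :=
  SS.pair ((singMap A.f).comp (a1 m)) ((singMap A.f).comp (a2 m))

theorem dl_P : (singMap A.dl).comp (pr2 A.P) = (jnM n n).comp A.F := by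
  apply SS.Map.ext
  intro p z
  apply ContinuousMap.ext
  intro t
  exact A.hP _ _ _

theorem dl_Q : (singMap A.dl).comp (pr2 A.Q) = (pr1 A.G).comp
    (SS.pair (((singMap A.f).comp (pr1 (jl m))).comp (SS.fst _ D1)) (SS.snd _ D1)) := by
  apply SS.Map.ext
  intro p z
  apply ContinuousMap.ext
  intro t
  exact A.hQ _ _ _

/-! ### the ends -/

theorem P_t0 {p : ℕ} (x : ((sing (Sph m)).prod D1).obj p) :
    ((pr2 A.P).comp (endP0 _)).app x = A.ct p := by
  apply ContinuousMap.ext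
  intro t
  change A.P (toC x.1 t, chiI x.2 t, chiI (c0 p) t) = A.d0
  rw [chiI_c0, A.Pt0]

theorem Q_t0 {p : ℕ} (x : ((sing (Sph m)).prod D1).obj p) :
    ((pr2 A.Q).comp (endP0 _)).app x = A.ct p := by
  apply ContinuousMap.ext
  intro t
  change A.Q (toC x.1 t, chiI x.2 t, chiI (c0 p) t) = A.d0
  rw [chiI_c0, A.Qt0]

theorem PQ_t1 : (pr2 A.P).comp (endP1 _) = (pr2 A.Q).comp (endP1 _) := by
  apply SS.Map.ext
  intro p x
  apply ContinuousMap.ext
  intro t
  change A.P (toC x.1 t, chiI x.2 t, chiI (c1 p) t) = A.Q (toC x.1 t, chiI x.2 t, chiI (c1 p) t)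
  rw [chiI_c1, A.PQ]

/-- the ends of the first coordinate of the square -/
def se (X : SS) : Sb ((X.prod D1).prod D1) :=
  ((endsOf (SS.snd X D1)).comap (SS.fst (X.prod D1) D1))

theorem P_se {p : ℕ} {x : (((sing (Sph m)).prod D1).prod D1).obj p}
    (h : (se (sing (Sph m))).mem x) : (pr2 A.P).app x = A.ct p := by
  apply ContinuousMap.ext
  intro t
  change A.P (toC x.1.1 t, chiI x.1.2 t, chiI x.2 t) = A.d0
  rcases h with h | h
  · have h' : x.1.2 = c0 p := h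
    rw [h', chiI_c0, A.Ps0]
  · have h' : x.1.2 = c1 p := h
    rw [h', chiI_c1, A.Ps1]

theorem Q_se {p : ℕ} {x : (((sing (Sph m)).prod D1).prod D1).obj p}
    (h : (se (sing (Sph m))).mem x) : (pr2 A.Q).app x = A.ct p := by
  apply ContinuousMap.ext
  intro t
  change A.Q (toC x.1.1 t, chiI x.1.2 t, chiI x.2 t) = A.d0
  rcases h with h | h
  · have h' : x.1.2 = c0 p := h
    rw [h', chiI_c0, A.Qs0]
  · have h' : x.1.2 = c1 p := h
    rw [h', chiI_c1, A.Qs1]

theorem a1_se {p : ℕ} {x : (((sing (Sph m)).prod D1).prod D1).obj p}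
    (h : (se (sing (Sph m))).mem x) : (bs (m + 1)).mem ((a1 m).app x) := by
  intro t
  change jl m (toC x.1.1 t, chiI x.1.2 t) = ∞
  rcases h with h | h
  · have h' : x.1.2 = c0 p := h
    rw [h', chiI_c0, jl_zero]
  · have h' : x.1.2 = c1 p := h
    rw [h', chiI_c1, jl_one]

theorem F_se {p : ℕ} {x : (((sing (Sph m)).prod D1).prod D1).obj p}
    (h : (se (sing (Sph m))).mem x) : (wdg n n).mem (A.F.app x) := by
  refine Or.inl fun t => ?_
  change A.f (toC ((a1 m).app x) t) = ∞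
  rw [a1_se h t, A.f_inf]

theorem F_t0 {p : ℕ} (x : ((sing (Sph m)).prod D1).obj p) :
    (bs n).mem ((A.F.comp (endP0 _)).app x).2 := by
  intro t
  change A.f (jl m (toC x.1 t, chiI x.2 t * chiI (c0 p) t)) = ∞
  rw [chiI_c0, mul_zero, jl_zero, A.f_inf]

theorem F_t1 : A.F.comp (endP1 _) = (dg n).comp ((singMap A.f).comp (pr1 (jl m))) := by
  apply SS.Map.ext
  intro p x
  refine Prod.ext rfl ?_
  apply ContinuousMap.ext
  intro t
  change A.f (jl m (toC x.1 t, chiI x.2 t * chiI (c1 p) t)) = A.f (jl m (toC x.1 t, chiI x.2 t))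
  rw [chiI_c1, mul_one]

/-! ### the computation -/

section main

variable (b : Cc (sing (Sph n))) (e : Cc (sing (Sph (m + 1))))
  (γ : Cc ((sing (Sph n)).prod (sing (Sph n)))) (z : Cc (sing (Sph (n + n))))

/-- the primitive on the first square -/
noncomputable def pp : Cc (((sing (Sph m)).prod D1).prod D1) :=
  Cc.cup 1 (Cc.pull (a1 m) e) (Cc.pull ((singMap A.f).comp (a2 m)) b) + Cc.pull A.F γ

/-- the value of the construction -/
noncomputable def val : Cc (sing (Sph (m + 1))) :=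
  Cc.cup 1 e (Cc.pull (singMap A.f) b) +
    Cc.pull (singMap A.f) (A.h z + Cc.pull (dg n) γ)

variable {b e γ z}

theorem d_pp (hdb : Cc.d b = 0) (he : Cc.pull (singMap A.f) b = Cc.d e)
    (hz : Cc.pull (jnM n n) z = Cc.cup 1 (Cc.pull (SS.fst _ _) b) (Cc.pull (SS.snd _ _) b) +
      Cc.d γ) :
    Cc.d (A.pp b e γ) = Cc.pull (pr2 A.P) (Cc.pull (singMap A.dl) z) := by
  rw [← Cc.pull_comp, A.dl_P, Cc.pull_comp, hz, pull_add, pull_cup, pp, d_add, d_cup_one,
    ← pull_d, ← pull_d, ← pull_d, hdb, pull_zero, cup_zero_right, add_zero, ← he]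
  rfl

theorem pp_t1 : Cc.pull (endP1 _) (A.pp b e γ) = Cc.pull (pr1 (jl m))
    (Cc.cup 1 e (Cc.pull (singMap A.f) b) + Cc.pull (singMap A.f) (Cc.pull (dg n) γ)) := by
  have h1 : Cc.pull (endP1 _) (Cc.pull A.F γ) = Cc.pull (pr1 (jl m))
      (Cc.pull (singMap A.f) (Cc.pull (dg n) γ)) := by
    rw [← Cc.pull_comp, A.F_t1, Cc.pull_comp, Cc.pull_comp]
  have h2 : Cc.pull (endP1 ((sing (Sph m)).prod D1)) (Cc.pull ((singMap A.f).comp (a2 m)) b) =
      Cc.pull (pr1 (jl m)) (Cc.pull (singMap A.f) b) := by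
    have h3 := congrArg (fun g : SS.Map ((sing (Sph m)).prod D1)
      ((sing (Sph n)).prod (sing (Sph n))) => Cc.pull ((SS.snd _ _).comp g) b) A.F_t1
    exact h3
  rw [pp, pull_add, pull_add, h1, pull_cup, pull_cup, h2]
  rfl

theorem pp_t0 (hvb : Vn (bs n) b) (hγ : Vn (wdg n n) γ) :
    Cc.pull (endP0 _) (A.pp b e γ) = 0 := by
  rw [pp, pull_add, pull_cup]
  have h1 : Cc.pull (endP0 ((sing (Sph m)).prod D1)) (Cc.pull ((singMap A.f).comp (a2 m)) b) =
      0 := by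
    funext p x
    exact hvb p _ (A.F_t0 x)
  have h2 : Cc.pull (endP0 _) (Cc.pull A.F γ) = 0 := by
    funext p x
    exact hγ p _ (Or.inr (A.F_t0 x))
  rw [h1, h2, cup_zero_right, add_zero]

theorem vn_pp (hve : Vn (bs (m + 1)) e) (hγ : Vn (wdg n n) γ) :
    Vn (se (sing (Sph m))) (A.pp b e γ) := by
  refine Vn.add (Vn.cup_left 1 ?_ _) ?_
  · exact fun p x hx => hve p _ (a1_se hx)
  · exact fun p x hx => hγ p _ (A.F_se hx)

theorem Dst_Q : Dst (Cc.pull (pr2 A.Q) (Cc.pull (singMap A.dl) z)) =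
    Cc.pull (pr1 (jl m)) (Cc.pull (singMap A.f) (A.h z)) := by
  rw [← Cc.pull_comp, A.dl_Q, Cc.pull_comp, Dst_pull, Cc.pull_comp]
  rfl

/-- the integral of the value -/
theorem exists_Dst (hdb : Cc.d b = 0) (hvb : Vn (bs n) b) (hve : Vn (bs (m + 1)) e)
    (hγ : Vn (wdg n n) γ) (he : Cc.pull (singMap A.f) b = Cc.d e)
    (hz : Cc.pull (jnM n n) z = Cc.cup 1 (Cc.pull (SS.fst _ _) b) (Cc.pull (SS.snd _ _) b) +
      Cc.d γ) {ζ : Cc (sing D)} (hζ : ∀ p, ζ p (A.ct p) = 0)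
    (hdζ : Cc.pull (singMap A.dl) z = Cc.d ζ) :
    ∃ a, Dst (Cc.pull (pr1 (jl m)) (A.val b e γ z)) = Cc.d a := by
  have hdΩ : Cc.d (Cc.pull (pr2 A.P) ζ + Cc.pull (pr2 A.Q) ζ) =
      Cc.d (A.pp b e γ) + Cc.pull (pr2 A.Q) (Cc.pull (singMap A.dl) z) := by
    rw [d_add, ← pull_d, ← pull_d, ← hdζ, A.d_pp hdb he hz]
  have h1 : Cc.pull (endP1 _) (Cc.pull (pr2 A.P) ζ + Cc.pull (pr2 A.Q) ζ) = 0 := by
    rw [pull_add, ← Cc.pull_comp, ← Cc.pull_comp, A.PQ_t1, ccadd_self]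
  have h0 : Cc.pull (endP0 _) (Cc.pull (pr2 A.P) ζ + Cc.pull (pr2 A.Q) ζ) = 0 := by
    funext p x
    have h2 : ζ p (((pr2 A.P).comp (endP0 _)).app x) = 0 := by rw [A.P_t0, hζ]
    have h3 : ζ p (((pr2 A.Q).comp (endP0 _)).app x) = 0 := by rw [A.Q_t0, hζ]
    exact (congrArg₂ (· + ·) h2 h3).trans (add_zero _)
  have hvΩ : Vn (se (sing (Sph m))) (Cc.pull (pr2 A.P) ζ + Cc.pull (pr2 A.Q) ζ) := by
    intro p x hx
    have h2 : ζ p ((pr2 A.P).app x) = 0 := by rw [A.P_se hx, hζ]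
    have h3 : ζ p ((pr2 A.Q).app x) = 0 := by rw [A.Q_se hx, hζ]
    exact (congrArg₂ (· + ·) h2 h3).trans (add_zero _)
  have hD := Dst_d (Cc.pull (pr2 A.P) ζ + Cc.pull (pr2 A.Q) ζ)
  rw [h1, h0, add_zero, add_zero, hdΩ, Dst_add, Dst_d, A.pp_t1, A.pp_t0 hvb hγ, add_zero,
    A.Dst_Q, add_assoc, ← pull_add, add_assoc, ← pull_add, add_comm (Cc.pull (dg n) γ)] at hD
  have hE := congrArg Dst hD
  have hv1 : Vn (endsOf (SS.snd (sing (Sph m)) D1))
      (Dst (Cc.pull (pr2 A.P) ζ + Cc.pull (pr2 A.Q) ζ)) := Vn_Dst hvΩ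
  have hv2 : Vn (endsOf (SS.snd (sing (Sph m)) D1)) (Dst (A.pp b e γ)) :=
    Vn_Dst (A.vn_pp hve hγ)
  rw [Dst_add, Dst_d_rel hv1, Dst_d_rel hv2] at hE
  refine ⟨Dst (Dst (A.pp b e γ)) + Dst (Dst (Cc.pull (pr2 A.P) ζ + Cc.pull (pr2 A.Q) ζ)), ?_⟩
  rw [d_add, ← hE, ← add_assoc, ccadd_self, zero_add]
  rfl

theorem d_hc (hdz : Cc.d z = 0) (hvz : Vn (bs (n + n)) z)
    (hz : Cc.pull (jnM n n) z = Cc.cup 1 (Cc.pull (SS.fst _ _) b) (Cc.pull (SS.snd _ _) b) +
      Cc.d γ) : Cc.d (A.h z + Cc.pull (dg n) γ) = Cc.cup 1 b b := by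
  have h1 : Cc.pull (dg n) (Cc.cup 1 (Cc.pull (SS.fst _ _) b) (Cc.pull (SS.snd _ _) b)) =
      Cc.cup 1 b b := by
    rw [pull_cup]
    rfl
  rw [d_add, A.d_h hdz hvz, ← pull_d, hz, pull_add, add_assoc, ccadd_self, add_zero, h1]

theorem d_val (hdb : Cc.d b = 0) (he : Cc.pull (singMap A.f) b = Cc.d e)
    (hdz : Cc.d z = 0) (hvz : Vn (bs (n + n)) z)
    (hz : Cc.pull (jnM n n) z = Cc.cup 1 (Cc.pull (SS.fst _ _) b) (Cc.pull (SS.snd _ _) b) +
      Cc.d γ) : Cc.d (A.val b e γ z) = 0 := by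
  rw [val, d_add, d_cup_one, ← pull_d, ← pull_d, hdb, pull_zero, cup_zero_right, add_zero, ← he,
    A.d_hc hdz hvz hz, pull_cup, ccadd_self]

theorem vn_val (hve : Vn (bs (m + 1)) e) (hvz : Vn (bs (n + n)) z) (hγ : Vn (wdg n n) γ) :
    Vn (bs (m + 1)) (A.val b e γ z) := by
  refine Vn.add (hve.cup_left 1 _) ?_
  have h1 : Vn (bs n) (A.h z + Cc.pull (dg n) γ) := by
    refine Vn.add (A.vn_h hvz) ?_
    exact fun p x hx => hγ p _ (Or.inl hx)
  refine fun p x hx => h1 p _ fun t => ?_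
  change A.f (toC x t) = ∞
  rw [show toC x t = ∞ from hx t, A.f_inf]

theorem isDeg_val {k : ℕ} (hk : k + 1 = n) (hmn : m + 2 = n + n) (hb : Cc.IsDeg n b)
    (he : Cc.IsDeg k e) (hγ : Cc.IsDeg (m + 1) γ) (hz : Cc.IsDeg (n + n) z) :
    Cc.IsDeg (m + 1) (A.val b e γ z) := by
  exact (he.cup (hb.pull _) (by omega)).add
    (Cc.IsDeg.pull ((A.isDeg_h (isDeg_cast hmn.symm hz)).add (hγ.pull _)) _)

theorem dl_d0 : A.dl A.d0 = ∞ := by
  rw [← A.Pt0 ∞ 0, A.hP, mul_zero, jl_zero, A.f_inf, join2_infty_right]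

end main

/-- **The quadratic construction detects the Hopf invariant.** -/
theorem main (hm : 0 < m) {k : ℕ} (hk : k + 1 = n) (hmn : m + 2 = n + n)
    {b c : Cc (sing (Sph n))} {e : Cc (sing (Sph (m + 1)))} (hb : Cc.IsDeg n b)
    (hdb : Cc.d b = 0) (hvb : Vn (bs n) b) (hnb : ¬ ∃ a : Cc (sing (Sph n)), Cc.d a = b)
    (hc : Cc.IsDeg (m + 1) c) (hdc : Cc.cup 1 b b = Cc.d c)
    (hed : Cc.IsDeg k e) (hve : Vn (bs (m + 1)) e) (he : Cc.pull (singMap A.f) b = Cc.d e)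
    (hval : ∀ a : Cc (sing (Sph (m + 1))),
      Cc.pull (singMap A.f) c + Cc.cup 1 e (Cc.d e) ≠ Cc.d a)
    {z : Cc (sing (Sph (n + n)))} (hz : Cc.IsDeg (n + n) z) (hdz : Cc.d z = 0)
    (hvz : Vn (bs (n + n)) z) (hnz : ¬ ∃ a : Cc (sing (Sph (n + n))), Cc.d a = z)
    (ζ : Cc (sing D)) : Cc.pull (singMap A.dl) z ≠ Cc.d ζ := by
  intro hζ
  have hn : 0 < n := by omega
  obtain ⟨γ0, hγ0, hcr⟩ := exists_cross hn hb hdb hvb hnb hz hdz hvz hnz
  -- homogeneous primitives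
  have hγd : Cc.d (Cc.comp (m + 1) γ0) = Cc.d γ0 := by
    have h1 : Cc.d γ0 = Cc.pull (jnM n n) z +
        Cc.cup 1 (Cc.pull (SS.fst _ _) b) (Cc.pull (SS.snd _ _) b) := by
      rw [hcr, add_right_comm, ccadd_self, zero_add]
    have h2 : Cc.IsDeg (m + 2) (Cc.d γ0) := by
      rw [h1, hmn]
      exact (hz.pull _).add ((hb.pull _).cup (hb.pull _) rfl)
    rw [← Cc.comp_d, Cc.comp_eq h2]
  have hcr' : Cc.pull (jnM n n) z =
      Cc.cup 1 (Cc.pull (SS.fst _ _) b) (Cc.pull (SS.snd _ _) b) +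
      Cc.d (Cc.comp (m + 1) γ0) := by rw [hγd, hcr]
  have hγ : Vn (wdg n n) (Cc.comp (m + 1) γ0) := Cc.vn_comp hγ0 _
  have hζd : Cc.d (Cc.comp (m + 1) ζ) = Cc.pull (singMap A.dl) z := by
    have h2 : Cc.IsDeg (m + 2) (Cc.d ζ) := by
      rw [← hζ, hmn]
      exact hz.pull _
    rw [← Cc.comp_d, Cc.comp_eq h2, hζ]
  obtain ⟨ζ', -, hζ1, hζ2⟩ := exists_null_pt (Z := sing D) A.ct A.map_ct
    (Cc.isDeg_comp (m + 1) ζ) (fun p => by
      rw [hζd]
      refine hvz p _ fun t => ?_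
      exact A.dl_d0)
  obtain ⟨a, ha⟩ := A.exists_Dst hdb hvb hve hγ he hcr' hζ1 (by rw [hζ2, hζd])
  have hval1 := A.d_val hdb he hdz hvz hcr'
  have hval2 := A.vn_val (b := b) hve hvz hγ
  have hval3 := A.isDeg_val hk hmn hb hed (Cc.isDeg_comp (m + 1) γ0) hz
  rw [Dst_jl] at ha
  have hcoh := mu_inj hm (z := Cc.mkRel (bs (m + 1)) _ hval2) hval3 (Cc.rel_ext hval1) ⟨a, ha⟩
  obtain ⟨v, hv⟩ := hcoh
  rw [add_zero] at hv
  have hv' : A.val b e (Cc.comp (m + 1) γ0) z = Cc.d (Cc.val v) := congrArg Cc.val hv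
  -- the comparison of `c` with the constructed cochain
  have hc' := A.d_hc hdz hvz hcr'
  have hcd : Cc.d (c + (A.h z + Cc.pull (dg n) (Cc.comp (m + 1) γ0))) = 0 := by
    rw [d_add, ← hdc, hc', ccadd_self]
  have hcdeg : Cc.IsDeg (m + 1) (c + (A.h z + Cc.pull (dg n) (Cc.comp (m + 1) γ0))) := by
    exact hc.add ((A.isDeg_h (isDeg_cast hmn.symm hz)).add ((Cc.isDeg_comp _ _).pull _))
  obtain ⟨ψ, hψ⟩ := exists_of_coh (SphCc.van (d := n) (n := m + 1) (by omega) (by omega) _ hcdeg hcd)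
  refine hval (Cc.val v + Cc.pull (singMap A.f) ψ) ?_
  have h5 : Cc.pull (singMap A.f) c = Cc.pull (singMap A.f)
      (A.h z + Cc.pull (dg n) (Cc.comp (m + 1) γ0)) + Cc.d (Cc.pull (singMap A.f) ψ) := by
    rw [← pull_d, ← hψ, ← pull_add, add_left_comm, ccadd_self, add_zero]
  rw [h5, d_add, ← hv', val, ← he]
  abel

end Dat

end Vale.Agent.P263.AD.HC
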