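import Vale.Agent.P263.AD.Q2

/-!
# P263, part AD1: the homotopy of `MU^{⊗ (s+1)} ⊗ S/n` for all `n ≠ 0`

* `QIn.one`, `QIn.mul` : the output of part Q modulo `1` and modulo products;
* `MUModAt V n s` : the fields `odd`, `surj`, `ker` of `MUModP` modulo `n` (any `n`);
* `MUMon.qIn_all` : `QIn` modulo every `n ≠ 0`;
* `MUMon.muModAt` : `MUModAt M.V n s` for every `n ≠ 0` and every `s`.
-/

open CategoryTheory MonoidalCategory Limits Pretriangulated MonObj
open Vale.Agent.P251.G Vale.Agent.P251.G.LC Vale.Agent.P251.I Vale.Agent.P251.T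
open Vale.Agent.P251.F Vale.Agent.P251.S Vale.Agent.P251.Q

universe v u

set_option linter.unusedSectionVars false

namespace Vale.Agent.P251.M

open EvenSpheres

variable {T : Type u} [Category.{v} T] [Preadditive T] [HasZeroObject T]
    [HasShift T ℤ] [∀ n : ℤ, (shiftFunctor T n).Additive] [Pretriangulated T] [IsTriangulated T]
    [MonoidalCategory T] [SymmetricCategory T] [TensorTriangulated T] [MonoidalClosed T]
    [HasCoproducts.{0} T] [HasProducts.{0} T] [StableCat T]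

section QIn

variable {B : T} [MonObj B] [IsCommMonObj B] {F : Law (HRing (stdEven T) B)}

theorem QIn.one_nat : QIn B F 1 where
  gen w x hx := ⟨0, by rw [map_zero]; exact Cob.isWt_zero w, x, hx, by simp⟩
  torsion w a ha := by simpa using ha
  odd_div k a := ⟨a, by simp⟩
  odd_torsion k a ha := by simpa using ha

theorem QIn.mul {a b : ℕ} (ha : QIn B F a) (hb : QIn B F b) : QIn B F (a * b) where
  gen w x hx := by
    obtain ⟨c, hc, y, hy, rfl⟩ := ha.gen w x hx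
    obtain ⟨c', hc', y', hy', rfl⟩ := hb.gen w y hy
    refine ⟨c + a • c', ?_, y', hy', ?_⟩
    · have h1 := hc.add (hc'.zsmul (a : ℤ))
      rwa [natCast_zsmul, ← map_nsmul, ← map_add] at h1
    · rw [map_add, map_nsmul, smul_add, smul_smul, add_assoc]
  torsion w x hx := by
    apply hb.torsion
    apply ha.torsion
    rw [smul_smul]
    simpa using hx
  odd_div k x := by
    obtain ⟨y, rfl⟩ := ha.odd_div k x
    obtain ⟨z, rfl⟩ := hb.odd_div k y
    exact ⟨z, by rw [smul_smul]; simp⟩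
  odd_torsion k x hx := by
    apply hb.odd_torsion
    apply ha.odd_torsion
    rw [smul_smul]
    simpa using hx

/-- From the primes to all `n ≠ 0`. -/
theorem QIn.of_primes (h : ∀ p : ℕ, p.Prime → QIn B F p) {n : ℕ} (hn : n ≠ 0) : QIn B F n := by
  induction n using Nat.recOnMul with
  | zero => exact absurd rfl hn
  | one => exact QIn.one_nat
  | prime p hp => exact h p hp
  | mul a b iha ihb =>
    exact (iha (left_ne_zero_of_mul hn)).mul (ihb (right_ne_zero_of_mul hn))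

end QIn

/-- The fields `odd`, `surj`, `ker` of `MUModP`, modulo `n`. -/
structure MUModAt {R : T} [MonObj R] [IsCommMonObj R] (V : MUEv R) (n s : ℕ) : Prop where
  odd (C : T) (i : 𝟙_ T ⟶ C) (δ : C ⟶ (𝟙_ T)⟦(1 : ℤ)⟧)
    (hC : Triangle.mk ((n : ℤ) • 𝟙 (𝟙_ T)) i δ ∈ distTriang T) (k : ℤ)
    (f : (𝟙_ T)⟦2 * k + 1⟧ ⟶ Am R (s + 1) ⊗ C) : f = 0
  surj (C : T) (i : 𝟙_ T ⟶ C) (δ : C ⟶ (𝟙_ T)⟦(1 : ℤ)⟧)
    (hC : Triangle.mk ((n : ℤ) • 𝟙 (𝟙_ T)) i δ ∈ distTriang T) (w : ℤ)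
    (f : (stdEven T).S w ⟶ Am R (s + 1) ⊗ C) :
    ∃ (z : Cob Laz s) (a : (stdEven T).S w ⟶ Am R (s + 1)), Cob.IsWt w z ∧
      V.ev s z = HRing.of (stdEven T) (Am R (s + 1)) w a ∧
      f = a ≫ (ρ_ (Am R (s + 1))).inv ≫ (Am R (s + 1) ◁ i)
  ker (C : T) (i : 𝟙_ T ⟶ C) (δ : C ⟶ (𝟙_ T)⟦(1 : ℤ)⟧)
    (hC : Triangle.mk ((n : ℤ) • 𝟙 (𝟙_ T)) i δ ∈ distTriang T) (w : ℤ) (z : Cob Laz s)
    (hz : Cob.IsWt w z) (a : (stdEven T).S w ⟶ Am R (s + 1))
    (ha : V.ev s z = HRing.of (stdEven T) (Am R (s + 1)) w a)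
    (h : a ≫ (ρ_ (Am R (s + 1))).inv ≫ (Am R (s + 1) ◁ i) = 0) :
    ∃ y : Cob Laz s, Cob.IsWt w y ∧ z = (n : ℤ) • y

namespace CobEv

variable {R : T} [MonObj R] [IsCommMonObj R] (D : CobEv (stdEven T) R)

/-- Injectivity of `Laz → π_{2*} R` modulo `n`. -/
theorem laz_inj_mod (h : ∀ p : ℕ, p.Prime → QIn (Am R 1) D.law p) (hconn : PiConn (Am R 1))
    {n : ℕ} (hn : n ≠ 0) : ∀ {w : ℤ} {c : Laz}, Cob.IsWt w (MvPolynomial.C c : Cob Laz 0) →
      ∀ b : (stdEven T).S w ⟶ Am R 1,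
        Laz.lift D.law c = n • HRing.of (stdEven T) (Am R 1) w b →
        ∃ c' : Laz, Cob.IsWt w (MvPolynomial.C c' : Cob Laz 0) ∧ c = n • c' := by
  induction n using Nat.recOnMul with
  | zero => exact absurd rfl hn
  | one => intro w c hc b _; exact ⟨c, hc, by simp⟩
  | prime p hp =>
    intro w c hc b hb
    have : Fact p.Prime := ⟨hp⟩
    exact hconn.isConnGr.laz_inj_mod_p D.homPS_law (D.rho isSphere_std)
      (D.law_rho isSphere_std) (fun w x hx => D.isBHom_rho isSphere_std w x hx) (h p hp).gen hc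
      (of_mem_hgr (neg_neg w) b) hb
  | mul k l ihk ihl =>
    intro w c hc b hb
    have hk := left_ne_zero_of_mul hn
    have hl := right_ne_zero_of_mul hn
    obtain ⟨c', hc', rfl⟩ := ihk hk hc (l • b) (by
      rw [hb, mul_smul]
      congr 1
      exact (map_nsmul (DirectSum.of ((stdEven T).Gr (Am R 1)) w) l b).symm)
    obtain ⟨a', ha'⟩ := D.ev_wt 0 w _ hc'
    have ha'' : Laz.lift D.law c' = HRing.of (stdEven T) (Am R 1) w a' := (D.lift_law c').trans ha'
    have h1 : a' = l • b := by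
      have h2 : (k : ℤ) • (a' - l • b) = 0 := by
        apply DirectSum.of_injective (β := (stdEven T).Gr (Am R 1)) w
        rw [map_zero, map_zsmul, map_sub, map_nsmul]
        have h3 : k • HRing.of (stdEven T) (Am R 1) w a' =
            (k * l) • HRing.of (stdEven T) (Am R 1) w b := by
          rw [← ha'', ← hb, map_nsmul]
        rw [smul_sub, natCast_zsmul, natCast_zsmul, smul_smul, sub_eq_zero]
        exact h3
      exact sub_eq_zero.1 ((QIn.of_primes h hk).torsion w _ h2)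
    obtain ⟨c'', hc'', rfl⟩ := ihl hl hc' b (by
      rw [ha'', h1]
      exact map_nsmul (DirectSum.of ((stdEven T).Gr (Am R 1)) w) l b)
    exact ⟨c'', hc'', by rw [mul_smul]⟩

end CobEv

namespace MUBasis

variable {R : T} [MonObj R] [IsCommMonObj R] {V : MUEv R} (b : MUBasis V)

/-- **The homotopy of `R^{⊗ (s+1)} ⊗ S/n`, `n ≠ 0`.** -/
theorem muModAt (hπ : PiConn (Am R 1)) (h : ∀ p : ℕ, p.Prime → QIn (Am R 1) b.cobEv.law p)
    {n : ℕ} (hn : n ≠ 0) (s : ℕ) : MUModAt V n s where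
  odd C i δ hC k f := b.cobEv.odd (Iso.refl _) C
    (fun k f => (QIn.of_primes h hn).odd hC k f) s k f
  surj C i δ hC w f :=
    b.cobEv.surj (fun n => ⟨2 * n, ⟨(stdEven T).sphIso (Iso.refl _) n⟩⟩) i
      (fun w f => b.cobEv.surj₀ (QIn.of_primes h hn) hC w f) s w f
  ker C i δ hC w z hz a ha h' := by
    refine b.cobEv.ker i (n : ℤ) ?_ s w z hz a ha h'
    intro w z hz a ha h0
    obtain ⟨c, rfl⟩ := Cob.exists_eq_C z
    obtain ⟨x, rfl⟩ := ModP.exists_zsmul_of_comp_eq_zero hC a h0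
    have h1 : Laz.lift b.cobEv.law c = n • HRing.of (stdEven T) (Am R 1) w x := by
      rw [CobEv.lift_law, ha, ← natCast_zsmul]
      exact map_zsmul (DirectSum.of ((stdEven T).Gr (Am R 1)) w) (n : ℤ) x
    obtain ⟨c', hc', hcc'⟩ := b.cobEv.laz_inj_mod h hπ hn hz x h1
    refine ⟨MvPolynomial.C c', hc', ?_⟩
    rw [hcc', natCast_zsmul, map_nsmul]

end MUBasis

namespace MUMon

variable {F : SpaceFunctor T} {e : F.S.obj CCF ≅ (stdEven T).L} (M : MUMon F (stdEven T) e)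

theorem piConn : PiConn M.R :=
  PiConn.of_cofIn F _ M.tel M.telMon.one (evenSeq_MU F (stdEven T) e stdEven_sph).cof

theorem piConn_one : PiConn (Am M.R 1) :=
  PiConn.of_iso (amOne M.R) (Am.v M.R (0 : Fin 1)) (amOne_v_zero M.R) M.piConn

/-- `QIn` modulo every `n ≠ 0`. -/
theorem qIn_all (b : MUBasis M.V) {n : ℕ} (hn : n ≠ 0) : QIn (Am M.R 1) b.cobEv.law n :=
  QIn.of_primes (fun _ hp => M.qIn_prime b hp) hn

/-- **The homotopy of `MU^{⊗ (s+1)} ⊗ S/n`, for all `n ≠ 0` and all `s`.** -/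
theorem muModAt (b : MUBasis M.V) {n : ℕ} (hn : n ≠ 0) (s : ℕ) : MUModAt M.V n s :=
  b.muModAt M.piConn_one (fun _ hp => M.qIn_prime b hp) hn s

end MUMon

end Vale.Agent.P251.M
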