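import Vale.Agent.P251.F.Grade

/-!
# P263, part ADE: the multiplicative chain

Over a ring `K` in which `3` is a unit `u`: the chain `mchain u hu : Chain Laz 1 K` consisting of the
multiplicative law `x + y + x y` and the strict series `((1 + x)^3 - 1) / 3`. Its second vertex is
the rescaling by `3` of its first vertex (`mchain_res`).
-/

open MvPowerSeries Vale.Agent.P251.F Vale.Agent.P217

noncomputable section

namespace Vale.Agent.P263.AD

variable {K : Type} [CommRing K]

/-- The multiplicative law `x + y + x y`. -/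
def mulLaw (K : Type) [CommRing K] : Law K := ⟨FormalGroup.𝔾ₘ, inferInstance⟩

theorem mulLaw_ps : (mulLaw K).ps = X 0 + X 1 + X 0 * X 1 := rfl

theorem subst_cube {σ : Type*} {a : MvPowerSeries σ K} (ha : PowerSeries.HasSubst a) :
    (PowerSeries.subst a ((1 + PowerSeries.X) ^ 3 - 1 : PowerSeries K) : MvPowerSeries σ K) =
      (1 + a) ^ 3 - 1 := by
  have h1 : (PowerSeries.subst a (1 : PowerSeries K) : MvPowerSeries σ K) = 1 := by
    have := PowerSeries.coe_substAlgHom (R := K) ha
    rw [← this, map_one]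
  rw [← PowerSeries.coe_substAlgHom ha, map_sub, map_pow, map_add, map_one,
    PowerSeries.coe_substAlgHom ha, PowerSeries.subst_X ha]

theorem cube_isHom : IsHom (mulLaw K).toFG (mulLaw K).toFG ((1 + PowerSeries.X) ^ 3 - 1) := by
  have hc : constantCoeff (mulLaw K).ps = 0 := (mulLaw K).toFG.zero_constantCoeff
  have hX : ∀ i : Fin 2, PowerSeries.HasSubst (X i : MvPowerSeries (Fin 2) K) := fun i =>
    hasSubst_of_cc (by simp)
  have hc3 : ∀ i : Fin 2, constantCoeff ((1 + X i : MvPowerSeries (Fin 2) K) ^ 3 - 1) = 0 :=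
    fun i => by simp
  refine ⟨by simp, ?_⟩
  rw [subst_cube (hasSubst_of_cc hc), subst_cube (hX 0), subst_cube (hX 1)]
  have hs : HasSubst ![((1 + X 0 : MvPowerSeries (Fin 2) K) ^ 3 - 1),
      ((1 + X 1 : MvPowerSeries (Fin 2) K) ^ 3 - 1)] :=
    hasSubst_pair (hasSubst_of_cc (hc3 0)) (hasSubst_of_cc (hc3 1))
  change (1 + (X 0 + X 1 + X 0 * X 1 : MvPowerSeries (Fin 2) K)) ^ 3 - 1 =
    MvPowerSeries.subst _ (X 0 + X 1 + X 0 * X 1 : MvPowerSeries (Fin 2) K)
  rw [subst_add hs, subst_add hs, subst_mul hs, subst_X hs, subst_X hs]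
  simp only [Matrix.cons_val_zero, Matrix.cons_val_one]
  ring

theorem coeff_one_cube :
    PowerSeries.coeff 1 ((1 + PowerSeries.X) ^ 3 - 1 : PowerSeries K) = 3 := by
  have h : ((1 + PowerSeries.X) ^ 3 - 1 : PowerSeries K) =
      PowerSeries.C 3 * PowerSeries.X + PowerSeries.X ^ 2 * (3 + PowerSeries.X) := by
    rw [map_ofNat]
    ring
  rw [h, map_add, PowerSeries.coeff_C_mul, PowerSeries.coeff_one_X, mul_one,
    PowerSeries.coeff_X_pow_mul', if_neg (by norm_num), add_zero]

variable (u : Kˣ) (hu : (u : K) = 3)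

/-- The series `(1 + x)^3 - 1`. -/
def cube : InvSeries K where
  val := (1 + PowerSeries.X) ^ 3 - 1
  cc := by simp
  isUnit := by rw [coeff_one_cube, ← hu]; exact u.isUnit

@[simp] theorem cube_val : (cube u hu).val = (1 + PowerSeries.X) ^ 3 - 1 := rfl

theorem cube_smul : cube u hu • mulLaw K = mulLaw K :=
  (InvSeries.smul_eq_iff_isHom _ _ _).2 cube_isHom

/-- The series `((1 + x)^3 - 1) / 3`. -/
def gser : InvSeries K := (InvSeries.lin u)⁻¹ * cube u hu

theorem gser_val : PowerSeries.C (3 : K) * (gser u hu).val = (1 + PowerSeries.X) ^ 3 - 1 := by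
  rw [gser, ← map_inv, InvSeries.mul_val, InvSeries.lin_val, PowerSeries.subst_mul (cube u hu).hs,
    PowerSeries.subst_X (cube u hu).hs, PowerSeries.subst_C, ← hu]
  change PowerSeries.C (u : K) * (PowerSeries.C ((u⁻¹ : Kˣ) : K) * (cube u hu).val) = _
  rw [← mul_assoc, ← map_mul, Units.mul_inv, map_one, one_mul]
  rfl

theorem gser_strict : gser u hu ∈ strict K := by
  rw [mem_strict, gser, ← map_inv, InvSeries.c_zero_mul, InvSeries.c_zero_lin]
  change ((u⁻¹ : Kˣ) : K) * PowerSeries.coeff 1 ((1 + PowerSeries.X) ^ 3 - 1 : PowerSeries K) = 1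
  rw [coeff_one_cube, ← hu, Units.inv_mul]

/-- The multiplicative chain. -/
def mchain : Chain Laz 1 K where
  pt := Laz.lift (mulLaw K)
  g := ![1, gser u hu]
  strict i := by
    fin_cases i
    · exact one_mem _
    · exact gser_strict u hu
  zero := rfl

theorem mchain_res : (mchain u hu).res (fun _ : Fin 1 => (1 : Fin 2)) =
    ((mchain u hu).res (fun _ : Fin 1 => (0 : Fin 2))).scale u := by
  ext1
  · change LawRing.act (gser u hu) (Laz.lift (mulLaw K)) =
      LawRing.act (InvSeries.lin u)⁻¹ (LawRing.act 1 (Laz.lift (mulLaw K)))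
    rw [LawRing.act_one, Laz.act_eq, Laz.act_eq, Laz.univ_map_lift, gser, mul_smul, cube_smul]
  · funext i
    change gser u hu * (gser u hu)⁻¹ = (InvSeries.lin u)⁻¹ * (1 * (1 : InvSeries K)⁻¹) * InvSeries.lin u
    simp

/-- Functions of weight `w` at the second vertex are `3^w` times those at the first vertex. -/
theorem ev_mchain_res {w : ℤ} {z : Cob Laz 0} (hz : Cob.IsWt w z) :
    Cob.ev ((mchain u hu).res (fun _ : Fin 1 => (1 : Fin 2))) z =
      ((u ^ w : Kˣ) : K) * Cob.ev ((mchain u hu).res (fun _ : Fin 1 => (0 : Fin 2))) z := by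
  rw [mchain_res]
  exact hz K _ u

end Vale.Agent.P263.AD
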