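import Vale.Agent.P263.AD.ModN

/-!
# P263, part AD2: ring homomorphisms out of the homotopy of `MU^{⊗ (s+1)}` modulo `n`

`h : MUModAt V n s`, `K` a commutative ring with `n = 0` in `K`.

* `MUModAt.phi h hK φ₀ : HRing (Am R (s+1)) →+* K` for `φ₀ : Cob Laz s →+* K`; `phi_ev`, `hom_ext`;
* `MUModAt.phi_map` : naturality in `s`;
* `MUModAt.phiC h hC φ w : (S^{2w} ⟶ Am R (s+1) ⊗ C) →+ K` : the same on homotopy with coefficients
  in the cofibre `C` of `n`; `phiC_rmap`, `phiC_gact`.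
-/

open CategoryTheory MonoidalCategory Limits Pretriangulated MonObj
open Vale.Agent.P251.G Vale.Agent.P251.G.LC Vale.Agent.P251.I Vale.Agent.P251.T
open Vale.Agent.P251.F Vale.Agent.P251.S Vale.Agent.P251.Q

universe w v u

set_option linter.unusedSectionVars false

noncomputable section

namespace Vale.Agent.P251.M

open EvenSpheres

variable {T : Type u} [Category.{v} T] [Preadditive T] [HasZeroObject T]
    [HasShift T ℤ] [∀ n : ℤ, (shiftFunctor T n).Additive] [Pretriangulated T] [IsTriangulated T]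
    [MonoidalCategory T] [SymmetricCategory T] [TensorTriangulated T] [MonoidalClosed T]
    [HasCoproducts.{0} T] [HasProducts.{0} T] [StableCat T]

variable {R : T} [MonObj R] [IsCommMonObj R] {V : MUEv R} {n s : ℕ}

namespace MUModAt

theorem exists_of (h : MUModAt V n s) (w : ℤ) (a : (stdEven T).S w ⟶ Am R (s + 1)) :
    ∃ (z : Cob Laz s) (b : (stdEven T).S w ⟶ Am R (s + 1)), Cob.IsWt w z ∧
      HRing.of (stdEven T) (Am R (s + 1)) w a =
        V.ev s z + n • HRing.of (stdEven T) (Am R (s + 1)) w b := by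
  obtain ⟨C, i, δ, hC⟩ := distinguished_cocone_triangle ((n : ℤ) • 𝟙 (𝟙_ T))
  obtain ⟨z, a', hz, hz', h1⟩ := h.surj C i δ hC w
    (a ≫ (ρ_ (Am R (s + 1))).inv ≫ (Am R (s + 1) ◁ i))
  have h2 : (a - a') ≫ (ρ_ (Am R (s + 1))).inv ≫ (Am R (s + 1) ◁ i) = 0 := by
    rw [Preadditive.sub_comp, h1, sub_self]
  obtain ⟨b, hb⟩ := ModP.exists_zsmul_of_comp_eq_zero hC _ h2
  refine ⟨z, b, hz, ?_⟩
  have h3 : a = a' + (n : ℤ) • b := by rw [← hb]; abel
  rw [hz', h3, ← natCast_zsmul]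
  exact (map_add (DirectSum.of ((stdEven T).Gr (Am R (s + 1))) w) _ _).trans
    (congrArg _ (map_zsmul (DirectSum.of ((stdEven T).Gr (Am R (s + 1))) w) _ _))

theorem exists_ev (h : MUModAt V n s) (x : HRing (stdEven T) (Am R (s + 1))) :
    ∃ (z : Cob Laz s) (y : HRing (stdEven T) (Am R (s + 1))), x = V.ev s z + n • y := by
  induction x using DirectSum.induction_on with
  | zero => exact ⟨0, 0, by simp⟩
  | of w a =>
    obtain ⟨z, b, -, hb⟩ := h.exists_of w a
    exact ⟨z, _, hb⟩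
  | add x y hx hy =>
    obtain ⟨z, u, rfl⟩ := hx
    obtain ⟨z', u', rfl⟩ := hy
    exact ⟨z + z', u + u', by rw [map_add, smul_add]; abel⟩

theorem inj (h : MUModAt V n s) {z : Cob Laz s} {y : HRing (stdEven T) (Am R (s + 1))}
    (hz : V.ev s z = n • y) : ∃ z', z = n • z' := by
  obtain ⟨C, i, δ, hC⟩ := distinguished_cocone_triangle ((n : ℤ) • 𝟙 (𝟙_ T))
  choose a ha using fun w => V.ev_wt s w (Cob.proj w z) (Cob.isWt_proj w z)
  have key : ∀ w ∈ Cob.wts z, a w = (V.ev s z : DirectSum ℤ ((stdEven T).Gr (Am R (s + 1)))) w := by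
    intro w hw
    conv_rhs => rw [← Cob.sum_proj z, map_sum, DirectSum.sum_apply]
    rw [Finset.sum_eq_single w]
    · rw [ha, DirectSum.of_eq_same]
    · intro v _ hv
      rw [ha]
      exact DirectSum.of_eq_of_ne _ _ _ (Ne.symm hv)
    · intro h; exact absurd hw h
  have h1 : ∀ w, ∃ y', w ∈ Cob.wts z → Cob.proj w z = n • y' := by
    intro w
    by_cases hw : w ∈ Cob.wts z
    · have h2 : a w = (n : ℤ) • ((y : DirectSum ℤ ((stdEven T).Gr (Am R (s + 1)))) w) := by
        rw [key w hw, hz, natCast_zsmul]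
        rfl
      obtain ⟨y', -, hy'⟩ := h.ker C i δ hC w _ (Cob.isWt_proj w z) (a w) (ha w)
        (by rw [h2]; exact ModP.zsmul_comp_eq_zero hC _)
      exact ⟨y', fun _ => by rw [hy', natCast_zsmul]⟩
    · exact ⟨0, fun h => absurd h hw⟩
  choose y' hy' using h1
  refine ⟨∑ w ∈ Cob.wts z, y' w, ?_⟩
  conv_lhs => rw [← Cob.sum_proj z]
  rw [Finset.smul_sum]
  exact Finset.sum_congr rfl fun w hw => hy' w hw

section phi

variable (h : MUModAt V n s) {K : Type w} [CommRing K] (hK : (n : K) = 0)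

/-- The reduction of the characteristic homomorphism modulo `n`. -/
def red (V : MUEv R) (n s : ℕ) : Cob Laz s →+* HRing (stdEven T) (Am R (s + 1)) ⧸
    Ideal.span {(n : HRing (stdEven T) (Am R (s + 1)))} :=
  (Ideal.Quotient.mk _).comp (V.ev s)

include h in
theorem red_surjective : Function.Surjective (red V n s) := by
  intro x
  obtain ⟨x, rfl⟩ := Ideal.Quotient.mk_surjective x
  obtain ⟨z, y, rfl⟩ := h.exists_ev x
  refine ⟨z, ?_⟩
  rw [red, RingHom.comp_apply, Ideal.Quotient.eq, Ideal.mem_span_singleton]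
  exact ⟨-y, by rw [nsmul_eq_mul]; ring⟩

include h hK in
theorem ker_red_le (φ₀ : Cob Laz s →+* K) : RingHom.ker (red V n s) ≤ RingHom.ker φ₀ := by
  intro z hz
  rw [RingHom.mem_ker, red, RingHom.comp_apply, Ideal.Quotient.eq_zero_iff_mem,
    Ideal.mem_span_singleton] at hz
  obtain ⟨y, hy⟩ := hz
  obtain ⟨z', rfl⟩ := h.inj (y := y) (by rw [hy, nsmul_eq_mul])
  rw [RingHom.mem_ker, map_nsmul, nsmul_eq_mul, hK, zero_mul]

/-- The ring homomorphism on the homotopy of `R^{⊗ (s+1)}` modulo `n` with prescribed values on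
`Cob Laz s`. -/
def phi (φ₀ : Cob Laz s →+* K) : HRing (stdEven T) (Am R (s + 1)) →+* K :=
  (RingHom.liftOfSurjective (red V n s) h.red_surjective ⟨φ₀, h.ker_red_le hK φ₀⟩).comp
    (Ideal.Quotient.mk _)

@[simp] theorem phi_ev (φ₀ : Cob Laz s →+* K) (z : Cob Laz s) :
    h.phi hK φ₀ (V.ev s z) = φ₀ z :=
  RingHom.liftOfSurjective_comp_apply (red V n s) h.red_surjective ⟨φ₀, h.ker_red_le hK φ₀⟩ z

include h hK in
theorem hom_ext {f g : HRing (stdEven T) (Am R (s + 1)) →+* K}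
    (hfg : ∀ z, f (V.ev s z) = g (V.ev s z)) : f = g := by
  refine RingHom.ext fun x => ?_
  obtain ⟨z, y, rfl⟩ := h.exists_ev x
  rw [map_add, map_add, hfg, map_nsmul, map_nsmul, nsmul_eq_mul, nsmul_eq_mul, hK, zero_mul,
    zero_mul]

/-- Naturality. -/
theorem phi_map {m : ℕ} (hm : MUModAt V n m) {K : Type} [CommRing K] (hK : (n : K) = 0)
    (c : Chain Laz s K) (α : Fin (m + 1) → Fin (s + 1)) :
    (h.phi hK (Cob.ev c)).comp (HRing.map (E := stdEven T) (Am.map R α)) =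
      hm.phi hK (Cob.ev (c.res α)) := by
  refine hm.hom_ext hK fun z => ?_
  rw [RingHom.comp_apply, V.ev_map, phi_ev, phi_ev, Cob.ev_map_res]

end phi

section phiC

variable (h : MUModAt V n s) {K : Type w} [CommRing K] (hK : (n : K) = 0)
  {C : T} {i : 𝟙_ T ⟶ C} {δ : C ⟶ (𝟙_ T)⟦(1 : ℤ)⟧}
  (hC : Triangle.mk ((n : ℤ) • 𝟙 (𝟙_ T)) i δ ∈ distTriang T)

include h hC in
theorem exists_rmap (w : ℤ) (f : (stdEven T).S w ⟶ Am R (s + 1) ⊗ C) :
    ∃ a : (stdEven T).S w ⟶ Am R (s + 1), a ≫ rmap (Am R (s + 1)) i = f := by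
  obtain ⟨z, a, -, -, h1⟩ := h.surj C i δ hC w f
  exact ⟨a, h1.symm⟩

include hC hK in
omit [IsCommMonObj R] in
theorem eq_of_rmap {B : T} [MonObj B] [IsCommMonObj B] (φ : HRing (stdEven T) B →+* K) {w : ℤ}
    {a a' : (stdEven T).S w ⟶ B} (haa : a ≫ rmap B i = a' ≫ rmap B i) :
    φ (HRing.of (stdEven T) B w a) = φ (HRing.of (stdEven T) B w a') := by
  obtain ⟨b, hb⟩ := ModP.exists_zsmul_of_comp_eq_zero hC (a - a')
    (show (a - a') ≫ rmap B i = 0 by rw [Preadditive.sub_comp, haa, sub_self])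
  have h3 : a = a' + (n : ℤ) • b := by rw [← hb]; abel
  have h4 : HRing.of (stdEven T) B w a =
      HRing.of (stdEven T) B w a' + n • HRing.of (stdEven T) B w b := by
    rw [h3, ← natCast_zsmul]
    exact (map_add (DirectSum.of ((stdEven T).Gr B) w) _ _).trans
      (congrArg _ (map_zsmul (DirectSum.of ((stdEven T).Gr B) w) _ _))
  rw [h4, map_add, map_nsmul, nsmul_eq_mul, hK, zero_mul, add_zero]

/-- A ring homomorphism on the homotopy of `R^{⊗ (s+1)}`, on homotopy with coefficients in the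
cofibre `C` of `n`. -/
def phiC (φ : HRing (stdEven T) (Am R (s + 1)) →+* K) (w : ℤ) :
    ((stdEven T).S w ⟶ Am R (s + 1) ⊗ C) →+ K :=
  AddMonoidHom.mk' (fun f => φ (HRing.of (stdEven T) (Am R (s + 1)) w
    (h.exists_rmap hC w f).choose)) fun f g => by
      have hf := (h.exists_rmap hC w f).choose_spec
      have hg := (h.exists_rmap hC w g).choose_spec
      have hfg := (h.exists_rmap hC w (f + g)).choose_spec
      rw [← map_add]
      have h1 : HRing.of (stdEven T) (Am R (s + 1)) w (h.exists_rmap hC w f).choose +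
          HRing.of (stdEven T) (Am R (s + 1)) w (h.exists_rmap hC w g).choose =
          HRing.of (stdEven T) (Am R (s + 1)) w ((h.exists_rmap hC w f).choose +
            (h.exists_rmap hC w g).choose) :=
        (map_add (DirectSum.of ((stdEven T).Gr (Am R (s + 1))) w) _ _).symm
      rw [h1]
      refine eq_of_rmap hK hC φ ?_
      rw [hfg, Preadditive.add_comp, hf, hg]

theorem phiC_rmap (φ : HRing (stdEven T) (Am R (s + 1)) →+* K) (w : ℤ)
    (a : (stdEven T).S w ⟶ Am R (s + 1)) :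
    h.phiC hK hC φ w (a ≫ rmap (Am R (s + 1)) i) =
      φ (HRing.of (stdEven T) (Am R (s + 1)) w a) :=
  eq_of_rmap hK hC φ (h.exists_rmap hC w (a ≫ rmap (Am R (s + 1)) i)).choose_spec

/-- `phiC` is linear over the homotopy of `R^{⊗ (s+1)}`. -/
theorem phiC_gact (φ : HRing (stdEven T) (Am R (s + 1)) →+* K) {k m l : ℤ} (hkm : k + m = l)
    (x : (stdEven T).S k ⟶ Am R (s + 1)) (f : (stdEven T).S m ⟶ Am R (s + 1) ⊗ C) :
    h.phiC hK hC φ l (gact C hkm x f) =
      φ (HRing.of (stdEven T) (Am R (s + 1)) k x) * h.phiC hK hC φ m f := by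
  obtain ⟨a, rfl⟩ := h.exists_rmap hC m f
  rw [gact_rmap, phiC_rmap, phiC_rmap, ← map_mul, of_mul_of hkm]

/-- Naturality of `phiC`. -/
theorem phiC_map {m : ℕ} (hm : MUModAt V n m) (φ : HRing (stdEven T) (Am R (s + 1)) →+* K)
    (α : Fin (m + 1) → Fin (s + 1)) (w : ℤ) (f : (stdEven T).S w ⟶ Am R (m + 1) ⊗ C) :
    h.phiC hK hC φ w (f ≫ (Am.map R α ▷ C)) =
      hm.phiC hK hC (φ.comp (HRing.map (E := stdEven T) (Am.map R α))) w f := by
  obtain ⟨a, rfl⟩ := hm.exists_rmap hC w f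
  rw [Category.assoc, rmap_nat, ← Category.assoc, phiC_rmap, phiC_rmap, RingHom.comp_apply,
    HRing.map_of]

end phiC

end MUModAt

/-! ### The law -/

/-- The law of `phi` for `s = 0`. -/
theorem MUBasis.law_phi (b : MUBasis V) (h : MUModAt V n 0) {K : Type} [CommRing K]
    (hK : (n : K) = 0) (c : Chain Laz 0 K) :
    b.cobEv.law.map (h.phi hK (Cob.ev c)) = Laz.univ.map c.pt := by
  have h1 : (h.phi hK (Cob.ev c)).comp (Laz.lift b.cobEv.law) = c.pt := by
    refine RingHom.ext fun a => ?_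
    rw [RingHom.comp_apply, b.cobEv.lift_law]
    exact (h.phi_ev hK (Cob.ev c) _).trans (Cob.ev_C c a)
  rw [← h1, ← Law.map_map, Laz.univ_map_lift]

end Vale.Agent.P251.M
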