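import Vale.Agent.P251.M.MUFinal

/-!
# P263, part AD1: Quillen's theorem at the prime `2`

The library `Vale/Agent/P251/Q`, `Vale/Agent/P251/M` proves that the homotopy of `MU` modulo an odd
prime is generated by the coefficients of the formal group law.  The only place where `p ≠ 2` is used
is the vanishing of the `p`-th powers of the classes of degree `0` (all triple products vanish).  Here
we treat `p = 2`: for a class `x` of degree `0` the power operation gives
`x - x ^ 2 ∈ R + 2 U`, and `x ^ 4 = 0`.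

* `HasSquares` : the power operation for `p = 2`;
* `stepHyp_two`, `quillen_two`, `qData_two` : the theorem of Quillen modulo `2`;
* `MUMon.qIn_two` : the output of part Q for the homotopy of `MU` at `p = 2`;
* `MUMon.odd_two`, `MUMon.surj_two`, `MUMon.ker_two` : the fields `odd`, `surj`, `ker` at `p = 2`.
-/

open CategoryTheory MonoidalCategory OnePoint Limits Topology Finset
open Vale.Agent.P251.G Vale.Agent.P251.G.LC

universe w v u

set_option linter.unusedSectionVars false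

namespace Vale.Agent.P251.Q

open MultTheory

variable {C : Type} [CommRing C]

namespace LensData

variable {E : MultTheory.{v}} {D : CoeffData E C}

/-- The output of the power operation for `p = 2`, for classes of degree `-q`. -/
def HasSquaresAt (L : LensData E D 2) (X : LC) [E.Good X] (q : ℕ) : Prop :=
  ∀ x ∈ E.deg X (-(q : ℤ)), ∃ n : ℕ, ∀ k : ℕ,
    ∃ P ∈ E.deg (L.B k ⊗ X) (-((2 : ℕ) * q : ℤ)), ptRes E (L.b k) X P = x * x ∧
      E.act (fstC (L.B k) X) (D.ev k (L.v k) (wSeries D.F 2) ^ (n + q)) P -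
        E.cross (D.ev k (L.v k) (wSeries D.F 2) ^ n) x ∈ D.posPoly (L.v k) X (-(q : ℤ))

theorem act_pull (L : LensData E D 2) (X : LC) [E.Good X] (k n : ℕ) (x : E.U X) :
    E.act (fstC (L.B k) X) (D.ev k (L.v k) (wSeries D.F 2) ^ n) (pull E (L.B k) X x) =
      E.cross (D.ev k (L.v k) (wSeries D.F 2) ^ n) x := by
  unfold pull
  set w := D.ev k (L.v k) (wSeries D.F 2) ^ n
  have := act_cross_left (ContinuousMap.id (L.B k)) w (E.oneU (L.B k)) x
  have h2 : E.act (ContinuousMap.id (L.B k)) w (E.oneU (L.B k)) = w := by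
    rw [← MultTheory.mul_def, ← one_def, mul_one]
  rw [h2] at this
  exact this

theorem pull_deg' (Y X : LC) [E.Good Y] [CompactSpace Y] [E.Good X] {x : E.U X} {d : ℤ}
    (hx : x ∈ E.deg X d) : pull E Y X x ∈ E.deg (Y ⊗ X) d := by
  have h := cross_deg (oneU_deg (E := E) Y) hx
  rwa [zero_add] at h

/-- classes of degree `-q`, `q ≠ 0` -/
theorem theoremQ_two_pos (L : LensData E D 2) (X : LC) [E.Good X] {q : ℕ} (hq : q ≠ 0)
    (IH : ∀ i : ℤ, -(q : ℤ) < i → ∀ u ∈ E.deg X i, u ∈ D.R X 0) (hpow : L.HasSquaresAt X q)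
    {x : E.U X} (hx : x ∈ E.deg X (-(q : ℤ))) :
    ∃ r ∈ D.R X 0, ∃ u ∈ E.deg X (-(q : ℤ)), x = r + 2 • u := by
  refine L.theoremQ_all Nat.prime_two X IH (fun x hx => ?_) hx
  obtain ⟨n, hn⟩ := hpow x hx
  refine ⟨n, fun k => ?_⟩
  obtain ⟨P, hPdeg, -, hP⟩ := hn k
  exact ⟨P, hPdeg, fun h => absurd h hq, hP⟩

/-- classes of degree `0`: `x - x ^ 2 ∈ R + 2 U` -/
theorem theoremQ_two_sub (L : LensData E D 2) (X : LC) [E.Good X]
    (IH : ∀ i : ℤ, 0 < i → ∀ u ∈ E.deg X i, u ∈ D.R X 0) (hpow : L.HasSquaresAt X 0)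
    {x : E.U X} (hx : x ∈ E.deg X 0) :
    ∃ r ∈ D.R X 0, ∃ u ∈ E.deg X 0, x - x * x = r + 2 • u := by
  have hx0 : x ∈ E.deg X (-((0 : ℕ) : ℤ)) := by simpa using hx
  obtain ⟨n, hn⟩ := hpow x hx0
  obtain ⟨P, hPdeg, hPpt, hP⟩ := hn (2 * ((2 - 1) * n))
  have hxx : x * x ∈ E.deg X 0 := by
    have := mul_deg hx hx
    rwa [add_zero] at this
  have h := L.theoremQ (q := 0) (n := n) (k := 2 * ((2 - 1) * n)) Nat.prime_two X
    (fun i hi u hu => IH i (by simpa using hi) u hu)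
    (x := x - x * x) (by simpa using sub_mem hx hxx) le_rfl
    (P := P - pull E (L.B (2 * ((2 - 1) * n))) X (x * x)) ?_ ?_ ?_
  · obtain ⟨r, hr, u, hu, h⟩ := h
    exact ⟨r, hr, u, by simpa using hu, h⟩
  · refine sub_mem hPdeg ?_
    have e : -(((2 : ℕ) : ℤ) * ((0 : ℕ) : ℤ)) = 0 := by simp
    rw [e]
    exact pull_deg' _ _ hxx
  · intro _
    rw [map_sub, hPpt, ptRes_pull, sub_self]
  · have e : E.act (fstC (L.B (2 * ((2 - 1) * n))) X)
        (D.ev (2 * ((2 - 1) * n)) (L.v (2 * ((2 - 1) * n))) (wSeries D.F 2) ^ (n + 0))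
        (P - pull E (L.B (2 * ((2 - 1) * n))) X (x * x)) -
      E.act (fstC (L.B (2 * ((2 - 1) * n))) X)
        (D.ev (2 * ((2 - 1) * n)) (L.v (2 * ((2 - 1) * n))) (wSeries D.F 2) ^ n)
        (pull E (L.B (2 * ((2 - 1) * n))) X (x - x * x)) =
      E.act (fstC (L.B (2 * ((2 - 1) * n))) X)
        (D.ev (2 * ((2 - 1) * n)) (L.v (2 * ((2 - 1) * n))) (wSeries D.F 2) ^ (n + 0)) P -
      E.cross (D.ev (2 * ((2 - 1) * n)) (L.v (2 * ((2 - 1) * n))) (wSeries D.F 2) ^ n) x := by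
      rw [map_sub, act_pull, act_pull, map_sub, add_zero]
      abel
    rw [e]
    exact hP

/-- **Theorem Q for `p = 2`**, if all triple products vanish. -/
theorem theoremQ_two (L : LensData E D 2) (X : LC) [E.Good X]
    (h3 : ∀ x y z : E.U X, x * y * z = 0) {q : ℕ}
    (IH : ∀ i : ℤ, -(q : ℤ) < i → ∀ u ∈ E.deg X i, u ∈ D.R X 0) (hpow : L.HasSquaresAt X q)
    {x : E.U X} (hx : x ∈ E.deg X (-(q : ℤ))) :
    ∃ r ∈ D.R X 0, ∃ u ∈ E.deg X (-(q : ℤ)), x = r + 2 • u := by
  rcases eq_or_ne q 0 with rfl | hq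
  · have hx0 : x ∈ E.deg X 0 := by simpa using hx
    have IH0 : ∀ i : ℤ, 0 < i → ∀ u ∈ E.deg X i, u ∈ D.R X 0 :=
      fun i hi u hu => IH i (by simpa using hi) u hu
    have hxx : x * x ∈ E.deg X 0 := by
      have := mul_deg hx0 hx0
      rwa [add_zero] at this
    obtain ⟨r, hr, u, hu, h⟩ := L.theoremQ_two_sub X IH0 hpow hx0
    obtain ⟨r', hr', u', hu', h'⟩ := L.theoremQ_two_sub X IH0 hpow hxx
    refine ⟨r + r', add_mem hr hr', u + u', by simpa using add_mem hu hu', ?_⟩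
    have h4 : x * x * (x * x) = 0 := h3 x x (x * x)
    rw [h4, sub_zero] at h'
    have h5 : x = (x - x * x) + x * x := by abel
    rw [h5, h, h', smul_add]
    abel
  · exact L.theoremQ_two_pos X hq IH hpow hx

/-- Theorem Q in the form of `StepHyp`. -/
theorem stepHyp_two (L : LensData E D 2) (X : LC) [hX : E.Good X]
    (h3 : ∀ x y z : E.U X, x * y * z = 0) (hpow : ∀ q, L.HasSquaresAt X q) :
    StepHyp E D.φ.range 2 X := by
  intro q hq x hx
  have IH : ∀ i : ℤ, -(q : ℤ) < i → ∀ u ∈ E.deg X i, u ∈ D.R X 0 := by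
    intro i hi u hu
    rw [R_eq_RR0]
    rcases lt_or_ge 0 i with h | h
    · exact mem_RR0_of_pos h hu
    · obtain ⟨j, rfl⟩ : ∃ j : ℕ, i = -(j : ℤ) := ⟨i.natAbs, by omega⟩
      exact hq j (by omega) u hu
  obtain ⟨r, hr, u, hu, h⟩ := L.theoremQ_two X h3 IH (hpow q) hx
  exact ⟨r, (R_eq_RR0 D X r).mp hr, u, hu, h⟩

end LensData

namespace ThomTheory

variable (E : ThomTheory.{v}) {D : CoeffData E.toMultTheory C}

/-- The power operations for `p = 2`. -/
theorem hasSquares (L : LensData E.toMultTheory D 2)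
    (hGr : ∀ (m : ℕ) (I : Type) [Fintype I], E.toMultTheory.Good (LC.of (Gr m I)))
    (H : ∀ k, FrameData E.o L 1 k) (X : LC) [hX : E.toMultTheory.Good X] (q : ℕ) :
    L.HasSquaresAt X q := by
  intro x hx
  obtain ⟨N, m, hmN, hP⟩ := power_exists E hGr hx
  refine ⟨m, fun k => ?_⟩
  have hB := (H k).goodB
  obtain ⟨P, hPdeg, hPpt, T, hT, x', e, c, hx', he, hc, hkey⟩ :=
    hP (H k).F ((H k).good N) (H k).rank (H k).eq_sum (H k).pos (H k).s_eq
      (fun m I _ => (H k).euler m I)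
  refine ⟨P, ?_, ?_, ?_⟩
  · exact hPdeg
  · exact hPpt (L.b k)
  · have hN : m + q = N := hmN
    have h1 : E.act (fstC (L.B k) X) (D.ev k (L.v k) (wSeries D.F 2) ^ (m + q)) P -
        E.cross (D.ev k (L.v k) (wSeries D.F 2) ^ m) x = ∑ t, E.cross (c t) (x' t) := by
      rw [hN, sub_eq_iff_eq_add]
      exact hkey.trans (add_comm _ _)
    rw [h1]
    exact sum_mem fun t _ => D.cross_mem_posPoly (L.v k) (hc t) (he t) (hx' t)

/-- The theorem of Quillen modulo `2`. -/
theorem quillen_two (L : LensData E.toMultTheory D 2)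
    (hpow : ∀ (X : LC) [E.toMultTheory.Good X] (q : ℕ), L.HasSquaresAt X q)
    (h1 : ∀ a : ℤ, 2 • a • E.one = 0 → a • E.one = 0) :
    (∀ a : E.A, ∃ c : C, ∃ b, a = D.φ c + 2 • b) ∧ (∀ a : E.A, 2 • a = 0 → a = 0) ∧
      (∀ y : E.U RR, ∃ z, y = 2 • z) ∧ (∀ y : E.U RR, 2 • y = 0 → y = 0) := by
  set M := LC.cone (mfold 2) with hM
  have hMg : E.toMultTheory.Good M := Good.cone (E := E.toMultTheory) (mfold 2)
  have hR : StepHyp E.toMultTheory D.φ.range 2 RR :=
    L.stepHyp_two RR (fun x y z => mul_RR_eq_zero (x * y) z) (hpow RR)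
  have hM0 : StepHyp E.toMultTheory D.φ.range 2 M :=
    L.stepHyp_two M (fun x y z => mul_mul_cone_RR_eq_zero (mfold 2) x y z) (hpow M)
  have hM1 : StepHyp E.toMultTheory D.φ.range 2 (M ⊗ 𝟙_ LC) := hM0.of_iso (ρ_ M).symm
  have hMR : StepHyp E.toMultTheory D.φ.range 2 (M ⊗ RR) :=
    L.stepHyp_two (M ⊗ RR) (fun x y z => mul_susp_eq_zero (x * y) z) (hpow (M ⊗ RR))
  have s1 : MooreSeq E.toMultTheory 2 M (coneInr (mfold 2)) (coneConn (mfold 2)) (𝟙_ LC) :=
    mooreSeq 2
  have s2 : MooreSeq E.toMultTheory 2 M (coneInr (mfold 2)) (coneConn (mfold 2)) RR :=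
    mooreSeq 2
  refine ⟨?_, ?_, ?_, ?_⟩
  · intro a
    obtain ⟨_, ⟨c, rfl⟩, b, h⟩ := exists_add_nsmul s1 hM1 a
    exact ⟨c, b, h⟩
  · exact eq_zero_of_nsmul s2 h1 hR hMR
  · exact exists_nsmul_odd s2 h1 hR hMR
  · exact eq_zero_of_nsmul_odd s1 hM1

/-- Part Q at `p = 2`. -/
theorem qData_two (H : ∀ k, LensEuler E.o E.o.coeff 1 k (Idx k))
    (h1 : ∀ a : ℤ, 2 • a • E.one = 0 → a • E.one = 0) : QData E.toMultTheory E.o.law 2 := by
  obtain ⟨hg, ht, hd, hot⟩ := E.quillen_two (E.o.lensTower (Nat.succ_ne_zero 1))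
    (fun X _ q => E.hasSquares (E.o.lensTower (Nat.succ_ne_zero 1)) (fun m I _ => inferInstance)
      (fun k => frameData E.o E.o.coeff (hasLaw_coeff E.o) k (H k)) X q) h1
  exact ⟨gen_homog (homPS_law E.o) hg, ht, hd, hot⟩

end ThomTheory

end Vale.Agent.P251.Q

namespace Vale.Agent.P251.M

open Pretriangulated MonObj
open Vale.Agent.P251.S Vale.Agent.P251.T Vale.Agent.P251.F Vale.Agent.P251.Q EvenSpheres
open Vale.Agent.P251.I

variable {T : Type u} [Category.{v} T] [Preadditive T] [HasZeroObject T]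
    [HasShift T ℤ] [∀ n : ℤ, (shiftFunctor T n).Additive] [Pretriangulated T] [IsTriangulated T]
    [MonoidalCategory T] [SymmetricCategory T] [TensorTriangulated T] [MonoidalClosed T]
    [HasCoproducts.{0} T] [HasProducts.{0} T] [StableCat T]

/-- Part Q at every prime, from the formula for `e(γ ⊗ ρ̄)` over the lens spaces. -/
theorem qData_prime (E : ThomTheory.{w}) {p : ℕ} (hp : p.Prime)
    (h1 : ∀ a : ℤ, p • a • E.one = 0 → a • E.one = 0) : QData E.toMultTheory E.o.law p := by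
  rcases eq_or_ne p 2 with rfl | hp2
  · exact E.qData_two (fun k => lensEuler _ 1 k) h1
  · exact E.qData_of_euler hp hp2 (fun r _ k => lensEuler _ r k) h1

/-- **The output of part Q at every prime** for the Thom theory of a multiplicative sequence. -/
theorem qIn_of {F : SpaceFunctor T} {A : SeqMonoid T} {R : T}
    {q : ∀ n, A.E.obj n ⟶ R} (tel : IsTel A.E R q) [MonObj R] [IsCommMonObj R] (h : TelMon tel)
    {s : F.S.obj CCF ⟶ (MSys.ofSeq A (stdEven T)).obj 0 1}
    {hs : (MSys.ofSeq A (stdEven T)).IsSusp s} (W : ThomFam (MSys.ofSeq A (stdEven T)) F s)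
    (hW : W.IsoClasses) (hA : EvenSeq A (stdEven T)) {V : MUEv R} (b : MUBasis V)
    (hlaw : b.cobEv.law.map (HRing.map (E := stdEven T) (amOne R)) =
      (thomTheory W (cofTriangles F) hs hW hA).o.law.map
        (coefRing tel F h (cofTriangles F) s hs).toRingHom) {p : ℕ} (hp : p.Prime) :
    QIn (Am R 1) b.cobEv.law p := by
  have hπ : PiConn R := PiConn.of_cofIn F A tel h.one hA.cof
  have h1 : amOne R ≫ Am.v R (0 : Fin 1) = 𝟙 (Am R 1) := amOne_v_zero R
  have hQ := qData_prime (thomTheory W (cofTriangles F) hs hW hA) hp (fun a ha => by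
      have h2 : ((p : ℤ) * a) • (theory (MSys.ofSeq A (stdEven T)) F (cofTriangles F) s hs).one =
          0 := by
        rw [mul_smul, natCast_zsmul]
        exact ha
      have h3 := zsmul_one_eq_zero tel h (cofTriangles F) s hs hπ _ h2
      have h4 : a = 0 := (mul_eq_zero.mp h3).resolve_left (by exact_mod_cast hp.ne_zero)
      rw [h4, zero_smul])
  exact (QIn.of_qData tel h (cofTriangles F) s hs hQ).of_iso (amOne R) (Am.v R (0 : Fin 1)) h1
    hlaw

namespace MUMon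

variable {F : SpaceFunctor T} {e : F.S.obj CCF ≅ (stdEven T).L} (M : MUMon F (stdEven T) e)

/-- **Quillen's theorem at every prime** for `MU`. -/
theorem qIn_prime (b : MUBasis M.V) {p : ℕ} (hp : p.Prime) : QIn (Am M.R 1) b.cobEv.law p :=
  qIn_of M.tel M.telMon (hs := isSusp_lineCls e (seqMU F (stdEven T) e))
    (famMU F (stdEven T) e) (famMU_isoClasses F (stdEven T) e)
    (evenSeq_MU F (stdEven T) e stdEven_sph) b
    ((law_muEv e _ b).trans (law_push_eq e M.tel M.telMon _ (line_telHom M.tel e M.telMon rfl) _))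
    hp

/-- **Quillen's theorem at `p = 2`** for `MU`. -/
theorem qIn_two (b : MUBasis M.V) : QIn (Am M.R 1) b.cobEv.law 2 := M.qIn_prime b Nat.prime_two

end MUMon

end Vale.Agent.P251.M
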