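import Vale.Agent.P263.AD.Fib

/-!
# P263, part AD: the relation in the cohomology of the projective space

`relation` : two orientations pushed forward from `E` give a relation between the coefficients of `θ`.
-/

set_option linter.unusedSectionVars false
set_option linter.style.haveILetI false

open CategoryTheory MonoidalCategory Limits Matrix Topology Finset OnePoint
open Vale.Agent.P251.G Vale.Agent.P251.G.LC Vale.Agent.P251.G.Bun
open Vale.Agent.P251.Q Vale.Agent.P251.Q.MultTheory Vale.Agent.P251.M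

universe v w

noncomputable section

namespace Vale.Agent.P263.AD

variable {E : MultTheory.{v}} (o : Orientation E)

/-- the ratio of the bundle of `δ` -/
theorem rat_bun (o o' : Orientation E) (κ : Type) [Fintype κ] [DecidableEq κ]
    [E.Good (Bun.tot (X := (LC.of (Gr 1 κ) : LC)) (taut 1 κ))] :
    rat (B := LC.of (Lens 2 κ)) o o' (bun κ) (bun_isRank κ) =
      E.map (cmap (X := LC.of (Lens 2 κ)) (Y := LC.of (Gr 1 κ)) (Lens.toGr 2 κ))
        (rat (B := LC.of (Gr 1 κ)) o o' (taut 1 κ) (taut_isRank 1 κ) ^ Fintype.card κ) := by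
  haveI hG : GoodBase E (LC.of (Lens 2 κ)) := inferInstance
  haveI i1 : E.Good (Bun.tot (X := (LC.of (Lens 2 κ) : LC)) ((taut 1 κ).pullback
      (Lens.toGr 2 κ))) := hG.tot (B := LC.of (Lens 2 κ)) _ (lensL2_isRank κ)
  haveI i2 : E.Good (LC.of (Gr 1 κ)) := good_gr_one o κ
  have h1 := rat_blockSum (B := LC.of (Lens 2 κ)) (J := κ) o o'
    ((taut 1 κ).pullback (Lens.toGr 2 κ)) (lensL2_isRank κ) (by simp) (bun_isRank κ)
  rw [map_cmap_pow]
  refine h1.trans ?_
  congr 1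
  exact rat_pullback (B := LC.of (Gr 1 κ)) (B' := LC.of (Lens 2 κ)) o o' (taut 1 κ)
    (taut_isRank 1 κ) (Lens.toGr 2 κ) (lensL2_isRank κ)

/-- **The relation between the two push forwards of `θ`.** -/
theorem thCls_relation {E' : MultTheory.{w}} (φ₀ φ₁ : MultTheory.Hom E E') {κ : Type} [Fintype κ]
    [DecidableEq κ] {A : LC} (s : MM κ A ≅ VV κ ⊗ VV κ) (f : A ⊗ VV κ ⟶ VV κ)
    [E'.Good (Bun.tot (X := (LC.of (Gr 1 κ) : LC)) (taut 1 κ))] :
    φ₁.app _ (thCls o s f) =
      E'.mapAlg (X := LC.of (Lens 2 κ)) (Y := LC.of (Gr 1 κ)) (Lens.toGr 2 κ)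
        (rat (B := LC.of (Gr 1 κ)) (φ₀.push o) (φ₁.push o) (taut 1 κ) (taut_isRank 1 κ)) ^
          Fintype.card κ * φ₀.app _ (thCls o s f) := by
  rw [← thCls_push, ← thCls_push, thCls_rat (φ₀.push o) (φ₁.push o), rat_bun, ← map_pow]
  rfl

/-- **The relation between the two push forwards of `θ`**, with the comparison series. -/
theorem thCls_relation_fin {E' : MultTheory.{w}} (φ₀ φ₁ : MultTheory.Hom E E') (k : ℕ)
    {A : LC} (s : MM (Fin (k + 1)) A ≅ VV (Fin (k + 1)) ⊗ VV (Fin (k + 1)))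
    (f : A ⊗ VV (Fin (k + 1)) ⟶ VV (Fin (k + 1))) :
    φ₁.app _ (thCls o s f) =
      E'.mapAlg (X := LC.of (Lens 2 (Fin (k + 1)))) (Y := LC.of (Gr 1 (Fin (k + 1))))
        (Lens.toGr 2 (Fin (k + 1)))
        (∑ i : Fin (k + 1), (CPSys.Coord.cmp (coordO (φ₀.push o)) (coordO (φ₁.push o))
          (z_one_eq (φ₁.push o) (φ₀.push o))).c i • (φ₀.push o).z (Fin (k + 1)) ^ (i : ℕ)) ^
          (k + 1) * φ₀.app _ (thCls o s f) := by
  haveI hG : GoodBase E' (LC.of (Gr 1 (Fin (k + 1)))) := inferInstance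
  haveI i1 : E'.Good (Bun.tot (X := (LC.of (Gr 1 (Fin (k + 1))) : LC)) (taut 1 (Fin (k + 1)))) :=
    hG.tot (B := LC.of (Gr 1 (Fin (k + 1)))) _ (taut_isRank 1 _)
  haveI i2 : E'.Good (Bun.tot (X := (CP (Fin (k + 1)) : LC)) (taut 1 (Fin (k + 1)))) := i1
  rw [← rat_taut (φ₀.push o) (φ₁.push o) k]
  have h := thCls_relation o φ₀ φ₁ s f
  rw [Fintype.card_fin] at h
  exact h

end Vale.Agent.P263.AD
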