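import Vale.Agent.P263.AD.Stage
import Vale.Agent.P263.AD.Adams
import Vale.Agent.P263.K.HopfBr

/-!
# P263, block AD: representatives, and Adams' theorem for based maps `Sᵈ → Q₀S⁰`

* `rep_stab`, `rep_unique` : stabilization of a representative; in every stage there is at most one
  representative;
* `hopfOne_iff_rep` : `HopfOne g ↔ HopfOne (adjS A)` for every representative `A` at a stage
  `n ≥ d + 1`;
* `adams_bmap` : if `g : Sᵈ → Q₀S⁰` has Hopf invariant one then `d = 1`, `3` or `7`.
-/

open OnePoint Topology CategoryTheory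

namespace Vale.Agent.P263.AD.Su

open Vale.Agent.P263.S Vale.Agent.P263.E Vale.Agent.P263.H83 Vale.Agent.P263.G2
  Vale.Agent.P263.T0 Vale.Agent.P263.TJ

/-- the stabilization of a representative is a representative -/
theorem rep_stab {d n : ℕ} {g : BMap d} {A : C(Sph d, Om n)} (h : K.Rep g n A) :
    K.Rep g (n + 1) ((T0.stab n).comp A) :=
  ⟨(congrArg (T0.stab n) h.base).trans (toSmash_const n), fun x =>
    (toQ_stab n (A x)).trans (h.eq x)⟩

/-- in every stage there is at most one representative -/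
theorem rep_unique {d n : ℕ} {g : BMap d} {A A' : C(Sph d, Om n)} (h : K.Rep g n A)
    (h' : K.Rep g n A') : A = A' :=
  ContinuousMap.ext fun x => toQ_injective n ((h.eq x).trans (h'.eq x).symm)

/-- a representative can be moved to any higher stage without changing its Hopf invariant -/
theorem rep_raise {d n : ℕ} (hd : 0 < d) (hn : d + 1 ≤ n) {g : BMap d} {A : C(Sph d, Om n)}
    (h : K.Rep g n A) (k : ℕ) : ∃ (A' : C(Sph d, Om (n + k))) (h' : K.Rep g (n + k) A'),
      HopfOne (adjS A' h'.base) ↔ HopfOne (adjS A h.base) := by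
  induction k with
  | zero => exact ⟨A, h, Iff.rfl⟩
  | succ k ih =>
    obtain ⟨A', h', hA⟩ := ih
    exact ⟨(T0.stab (n + k)).comp A', rep_stab h',
      (hopfOne_stab_iff (i := n + k - (d + 1)) hd (by omega) A' h'.base (rep_stab h').base).trans
        hA⟩

/-- **Independence of the representative.** -/
theorem hopfOne_rep_iff {d n n' : ℕ} (hd : 0 < d) (hn : d + 1 ≤ n) (hn' : d + 1 ≤ n')
    {g : BMap d} {A : C(Sph d, Om n)} {A' : C(Sph d, Om n')} (h : K.Rep g n A)
    (h' : K.Rep g n' A') : HopfOne (adjS A h.base) ↔ HopfOne (adjS A' h'.base) := by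
  have key : ∀ {a b : ℕ}, d + 1 ≤ a → ∀ (A : C(Sph d, Om a)) (A' : C(Sph d, Om b))
      (h : K.Rep g a A) (h' : K.Rep g b A'), a ≤ b →
      (HopfOne (adjS A h.base) ↔ HopfOne (adjS A' h'.base)) := by
    intro a b ha A A' h h' hab
    obtain ⟨k, rfl⟩ := Nat.exists_eq_add_of_le hab
    obtain ⟨B, hB, hBA⟩ := rep_raise hd ha h k
    obtain rfl : B = A' := rep_unique hB h'
    exact hBA.symm
  rcases Nat.le_total n n' with hh | hh
  · exact key hn A A' h h' hh
  · exact (key hn' A' A h' h hh).symm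

/-- Hopf invariant one of `g` can be read on every representative in the stable range. -/
theorem hopfOne_iff_rep {d n : ℕ} (hd : 0 < d) (hn : d + 1 ≤ n) {g : BMap d}
    {A : C(Sph d, Om n)} (h : K.Rep g n A) : K.HopfOne g ↔ HopfOne (adjS A h.base) := by
  constructor
  · intro hg
    obtain ⟨n', i, A', h', hn', hH⟩ := K.HopfOne.exists_rep hd hg
    exact (hopfOne_rep_iff hd (by omega) hn h' h).1 hH
  · intro hH
    obtain ⟨n', rfl⟩ : ∃ n', n = n' + 1 := ⟨n - 1, by omega⟩
    exact K.HopfOne.of_rep (i := n' - d) hd h (by omega) hH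

end Vale.Agent.P263.AD.Su

namespace Vale.Agent.P263.AD

open Vale.Agent.P263.T0 Vale.Agent.P263.TJ

/-- **Adams' theorem for `Q₀S⁰`**: a based map `Sᵈ → Q₀S⁰` of Hopf invariant one, `d` odd, exists
only for `d = 1`, `3`, `7`. -/
theorem adams_bmap (hFr : Su.Freud) (hD : FibreDeg) {d : ℕ} (hd : 0 < d) (hev : Even (d + 1))
    {g : BMap d} (h : K.HopfOne g) : d = 1 ∨ d = 3 ∨ d = 7 := by
  obtain ⟨n, i, A, hA, hn, hH⟩ := K.HopfOne.exists_rep hd h
  exact adams hFr hD (i := i) hd hev rfl (by omega) (adjS A hA.base) (adjS_infty A hA.base) hH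

end Vale.Agent.P263.AD
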