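import Vale.Agent.P263.AD.Susp

/-!
# P263, block AD: Hopf invariant one is a stable notion

* `hopfOne_susp_iff` : for the suspension `F` of `f : S^m → S^(n+1)`, `n + 1 < m`:
  `HopfOne F ↔ HopfOne f`;
* `hopfOne_stab_iff` : `HopfOne (adjS (stab ∘ A)) ↔ HopfOne (adjS A)` for `A : Sᵈ → Ωʳ Sʳ`.
-/

open Finset OnePoint Topology

namespace Vale.Agent.P263.AD.Su

open Vale.Agent.P263.S Vale.Agent.P263.E Vale.Agent.P263.H83 Vale.Agent.P263.G2
  Vale.Agent.P263.T0 Vale.Agent.P263.TJ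

section Sphere

variable {m n i : ℕ} (f : C(Sph m, Sph (n + 1))) (F : C(Sph (m + 1), Sph (n + 2)))

/-- the functional squares of `f` and of its suspension correspond -/
theorem susp_key (hi : 2 * n + 1 = m + i) (hm : n + 1 < m)
    (hF : ∀ (x : Sph m) (y : Sph 1), F (join2 x y) = join2 (f x) y) (hF0 : F ∞ = ∞)
    {D' : CupC.FSqD (relF F hF0) (i + 1)} (hD' : D'.Homog (Cc.relGr _) (Cc.relGr _) (n + 1) (m + 1))
    (hb' : ¬ (Cc.rel (bs (n + 1 + 1))).Coh D'.b 0) {D : CupC.FSqD (Cc.pullHom (singMap f)) i}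
    (hD : D.Homog (Cc.gr _) (Cc.gr _) n m)
    (hb : ¬ (Cc.cupC (sing (Sph (n + 1)))).Coh D.b 0) :
    (Cc.rel (ends (sing (Sph m)) 1)).Coh ((gMu m 1).f D'.val) (s1 D.val) := by
  have hi' : 2 * (n + 1) + 1 = (m + 1) + (i + 1) := by omega
  let E' : CupC.FSqD (gT (singMap f)) (i + 1) := D'.map (gMu (n + 1) 1) (gMu m 1) (fun x =>
    Cc.rel_ext (congrArg (fun g => Cc.pull g (Cc.val x)) (comm_mu f F hF)))
  have hE'v : E'.val = (gMu m 1).f D'.val := D'.val_map _ _ _
  have hE' : E'.Homog (Cc.relGr _) (Cc.relGr _) (n + 1) (m + 1) :=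
    ⟨Cc.IsDeg.pull (u := Cc.val D'.b) hD'.b_mem _, Cc.IsDeg.pull (u := Cc.val D'.e) hD'.e_mem _,
      Cc.IsDeg.pull (u := Cc.val D'.c) hD'.c_mem _, hi'⟩
  have hu := unambT f hi hm
  have hE'b : ¬ (Cc.rel (ends (sing (Sph (n + 1))) 1)).Coh E'.b 0 := fun hc =>
    hb' (mu_inj (Nat.succ_pos n) hD'.b_mem D'.d_b hc)
  have hS : (susp (singMap f) D).Homog (Cc.relGr _) (Cc.relGr _) (n + 1) (m + 1) :=
    ⟨isDeg_sn 1 hD.b_mem, isDeg_sn 1 hD.e_mem, isDeg_sn 1 hD.c_mem, hi'⟩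
  have hSb : ¬ (Cc.rel (ends (sing (Sph (n + 1))) 1)).Coh (susp (singMap f) D).b 0 :=
    fun hc => hb (coh_of_s1 hc)
  have hcoh := CupC.FSqD.coh_of_van hE' hS hu.van hu.deg hu.zero
    (hu.uniq _ hE'.b_mem _ hS.b_mem E'.d_b (susp (singMap f) D).d_b hE'b hSb)
  rw [susp_val, hE'v] at hcoh
  exact hcoh

/-- **Suspension.** If `f : S^m → S^(n+1)`, `n + 1 < m`, has Hopf invariant one, then so has its
suspension `F`. -/
theorem hopfOne_susp (hi : 2 * n + 1 = m + i) (hm : n + 1 < m) (h0 : f ∞ = ∞)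
    (hF : ∀ (x : Sph m) (y : Sph 1), F (join2 x y) = join2 (f x) y) (h : HopfOne f) :
    HopfOne F := by
  have hF0 : F ∞ = ∞ := susp_infty f h0 hF
  have hi' : 2 * (n + 1) + 1 = (m + 1) + (i + 1) := by omega
  have hm' : n + 1 + 1 < m + 1 := by omega
  obtain ⟨D, hD, hb, hv⟩ := (hopfOne_iff f hi).1 h
  obtain ⟨b, hb1, hdb, h1⟩ := SphCc.rel_exists_fund (Nat.succ_pos (n + 1))
  obtain ⟨D', rfl, hD'⟩ := exists_dataR hF0 hi' hm' hb1 hdb
  have hnb : ¬ (Cc.rel (bs (n + 1 + 1))).Coh D'.b 0 := by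
    rw [SphCc.rel_coh_iff (Nat.succ_pos (n + 1)) hb1 hdb, h1]
    decide
  have hcoh := susp_key f F hi hm hF hF0 hD' hnb hD hb
  refine hopfOne_of_rel hi' hF0 ⟨D', hD', hnb, fun hc => hv (coh_of_s1 (hcoh.symm.trans ?_))⟩
  have := hc.map (gMu m 1)
  rwa [map_zero] at this

/-- **Hopf invariant one is stable.** -/
theorem hopfOne_susp_iff (hi : 2 * n + 1 = m + i) (hm : n + 1 < m) (h0 : f ∞ = ∞)
    (hF : ∀ (x : Sph m) (y : Sph 1), F (join2 x y) = join2 (f x) y) :
    HopfOne F ↔ HopfOne f :=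
  ⟨hopfOne_of_susp f F hi hm h0 hF, hopfOne_susp f F hi hm h0 hF⟩

end Sphere

/-! ### the stabilization -/

theorem stab_join2 {r : ℕ} (g : Om r) (w : Sph r) (t : Sph 1) :
    (T0.stab r g : Sph (r + 1) → Sph (r + 1)) (join2 w t) = join2 (g w) t := by
  induction w using OnePoint.rec with
  | infty =>
    rw [join2_infty_left]
    have h : g (∞ : Sph r) = ∞ := g.2
    rw [h, join2_infty_left]
    rfl
  | coe w =>
    induction t using OnePoint.rec with
    | infty => rw [join2_infty_right, join2_infty_right]; rfl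
    | coe t =>
      rw [join2_coe]
      change stabFun g ((Fin.append w t : Fin (r + 1) → ℝ) : Sph (r + 1)) = _
      have h1 : (Fin.append w t : Fin (r + 1) → ℝ) = Fin.snoc w (t 0) :=
        Fin.append_right_eq_snoc w t
      have h2 : stabFun g ((Fin.append w t : Fin (r + 1) → ℝ) : Sph (r + 1)) =
          (g ((w : Fin r → ℝ) : Sph r)).elim ∞ (fun w' =>
            ((Fin.snoc w' (t 0) : Fin (r + 1) → ℝ) : Sph (r + 1))) := by
        rw [h1]
        change (g ((Fin.init (Fin.snoc w (t 0) : Fin (r + 1) → ℝ) : Fin r → ℝ) : Sph r)).elim ∞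
          (fun w' => ((Fin.snoc w' ((Fin.snoc w (t 0) : Fin (r + 1) → ℝ) (Fin.last r)) :
            Fin (r + 1) → ℝ) : Sph (r + 1))) = _
        rw [Fin.init_snoc, Fin.snoc_last]
      rw [h2]
      generalize g ((w : Fin r → ℝ) : Sph r) = u
      induction u using OnePoint.rec with
      | infty => rw [join2_infty_left]; rfl
      | coe u =>
        rw [join2_coe]
        change ((Fin.snoc u (t 0) : Fin (r + 1) → ℝ) : Sph (r + 1)) = _
        rw [Fin.append_right_eq_snoc]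

theorem join2_assoc {d r : ℕ} (v : Fin d → ℝ) (w : Fin r → ℝ) (t : Fin 1 → ℝ) :
    (join2 (join2 (v : Sph d) (w : Sph r)) (t : Sph 1) : Sph (d + r + 1)) =
      join2 (v : Sph d) (join2 (w : Sph r) (t : Sph 1)) := by
  rw [join2_coe, join2_coe, join2_coe, join2_coe]
  congr 1
  exact Fin.append_assoc v w t

theorem adjS_stab {d r : ℕ} (A : C(Sph d, Om r)) (hA : A ∞ = Om.const r)
    (hA' : ((T0.stab r).comp A) ∞ = Om.const (r + 1)) (x : Sph (d + r)) (y : Sph 1) :
    adjS ((T0.stab r).comp A) hA' (join2 x y : Sph (d + r + 1)) = join2 (adjS A hA x) y := by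
  induction x using OnePoint.rec with
  | infty =>
    have h1 := adjS_infty A hA
    have h2 := adjS_infty ((T0.stab r).comp A) hA'
    rw [join2_infty_left, h1, join2_infty_left]
    exact h2
  | coe x =>
    obtain ⟨v, w, rfl⟩ : ∃ (v : Fin d → ℝ) (w : Fin r → ℝ), x = Fin.append v w :=
      ⟨fun i => x (Fin.castAdd r i), fun i => x (Fin.natAdd d i), (Fin.append_castAdd_natAdd).symm⟩
    rw [← join2_coe, adjS_join2]
    induction y using OnePoint.rec with
    | infty =>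
      rw [join2_infty_right, join2_infty_right]
      exact adjS_infty ((T0.stab r).comp A) hA'
    | coe t =>
      rw [join2_assoc]
      refine (adjS_join2 ((T0.stab r).comp A) hA' _ _).trans ?_
      exact stab_join2 (A v) w t

/-- **Stage invariance.** -/
theorem hopfOne_stab_iff {d r i : ℕ} (hd : 0 < d) (hr : r = d + 1 + i) (A : C(Sph d, Om r))
    (hA : A ∞ = Om.const r) (hA' : ((T0.stab r).comp A) ∞ = Om.const (r + 1)) :
    HopfOne (adjS ((T0.stab r).comp A) hA') ↔ HopfOne (adjS A hA) := by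
  obtain ⟨n, rfl⟩ : ∃ n, r = n + 1 := ⟨d + i, by omega⟩
  exact hopfOne_susp_iff (m := d + (n + 1)) (n := n) (i := i) (adjS A hA)
    (adjS ((T0.stab (n + 1)).comp A) hA') (by omega) (by omega) (adjS_infty A hA)
    (adjS_stab A hA hA')

end Vale.Agent.P263.AD.Su
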