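import Vale.Agent.P263.TJ.HopfDef
import Vale.Agent.P263.TJ.CubeSph
import Vale.Agent.P263.G2.Alpha

/-!
# P263, block AD: suspension and Hopf invariant one

`hopfOne_of_susp` : let `F : S^(m+1) → S^(n+2)` be the suspension of the pointed map
`f : S^m → S^(n+1)`, `n + 1 < m`.  If `F` has Hopf invariant one then so has `f`.

* `mu_inj` : the quotient map `Sᵐ × (Δ¹, ∂Δ¹) → (S^(m+1), ∞)` is injective in cohomology in the
  top degree;
* `FSqD.susp` : the strict suspension of the data of a functional square.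
-/

open Finset OnePoint Topology

namespace Vale.Agent.P263.AD.Su

open Vale.Agent.P263.S Vale.Agent.P263.E Vale.Agent.P263.H83 Vale.Agent.P263.G2
  Vale.Agent.P263.T0 Vale.Agent.P263.TJ

/-! ### the number of a cocycle of the sphere, the last coordinate first -/

section Number

/-- the permutation `k ↦ i.succAbove (σ k)`, `last ↦ i` -/
noncomputable def snocPerm {n : ℕ} (i : Fin (n + 1)) (σ : Equiv.Perm (Fin n)) :
    Equiv.Perm (Fin (n + 1)) := (finRotate (n + 1)).trans (consPerm i σ)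

theorem snocPerm_last {n : ℕ} (i : Fin (n + 1)) (σ : Equiv.Perm (Fin n)) :
    snocPerm i σ (Fin.last n) = i := by
  rw [snocPerm, Equiv.trans_apply, finRotate_last, consPerm_zero]

theorem snocPerm_castSucc {n : ℕ} (i : Fin (n + 1)) (σ : Equiv.Perm (Fin n)) (k : Fin n) :
    snocPerm i σ k.castSucc = i.succAbove (σ k) := by
  have h : finRotate (n + 1) k.castSucc = k.succ := finRotate_of_lt k.2
  rw [snocPerm, Equiv.trans_apply, h, consPerm_succ]

theorem sum_perm_snoc {n : ℕ} {M : Type*} [AddCommMonoid M] (G : Equiv.Perm (Fin (n + 1)) → M) :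
    ∑ π, G π = ∑ σ : Equiv.Perm (Fin n), ∑ i : Fin (n + 1), G (snocPerm i σ) := by
  have h := sum_perm_succ (fun π => G ((finRotate (n + 1)).trans π))
  refine Eq.trans ?_ h
  exact (Equiv.sum_comp (Equiv.mulRight (finRotate (n + 1))) G).symm

theorem join2_tup {d r : ℕ} (u : Fin d → OnePoint ℝ) (w : Fin r → OnePoint ℝ) :
    join2 (tup u) (tup w) = tup (Fin.append u w) := by
  by_cases hu : ∀ i, u i ≠ ∞
  · by_cases hw : ∀ i, w i ≠ ∞
    · choose x hx using fun i => OnePoint.ne_infty_iff_exists.1 (hu i)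
      choose y hy using fun i => OnePoint.ne_infty_iff_exists.1 (hw i)
      have h1 : u = fun i => (x i : OnePoint ℝ) := funext fun i => (hx i).symm
      have h2 : w = fun i => (y i : OnePoint ℝ) := funext fun i => (hy i).symm
      have h3 : Fin.append u w = fun i => ((Fin.append x y i : ℝ) : OnePoint ℝ) := by
        funext i
        refine Fin.addCases (fun i => ?_) (fun i => ?_) i
        · rw [Fin.append_left, Fin.append_left, h1]
        · rw [Fin.append_right, Fin.append_right, h2]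
      rw [h3, h1, h2, tup_coe, tup_coe, tup_coe, join2_coe]
    · push Not at hw
      obtain ⟨i, hi⟩ := hw
      rw [tup_of_eq_infty hi, join2_infty_right, tup_of_eq_infty (i := Fin.natAdd d i)]
      rw [Fin.append_right, hi]
  · push Not at hu
    obtain ⟨i, hi⟩ := hu
    rw [tup_of_eq_infty hi, join2_infty_left, tup_of_eq_infty (i := Fin.castAdd r i)]
    rw [Fin.append_left, hi]

/-- the simplices of the cube of dimension `m + 1` in terms of those of dimension `m` -/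
theorem cx_snoc (m : ℕ) (i : Fin (m + 1)) (σ : Equiv.Perm (Fin m)) :
    (cx (m + 1)).app (permT (m + 1) (snocPerm i σ)) =
      (mu m 1).app (((sing (Sph m)).map (sg m i) ((cx m).app (permT m σ)),
        fun _ => th (m + 1) (i.1 + 1)) : ((sing (Sph m)).prod (SN 1)).obj (m + 1)) := by
  apply ContinuousMap.ext
  intro t
  have h0 := DFunLike.congr_fun (cxC_comp (sg m i.1) (fun k => th m ((σ k).1 + 1))) t
  refine Eq.trans ?_ (congrArg (fun x => join2 x (cxC (fun _ : Fin 1 => th (m + 1) (i.1 + 1)) t))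
    h0)
  change cxC (fun k => th (m + 1) ((snocPerm i σ k).1 + 1)) t = _
  rw [cxC_apply, cxC_apply, cxC_apply, join2_tup]
  congr 1
  funext k
  refine Fin.lastCases ?_ (fun k => ?_) k
  · have h1 : Fin.last m = Fin.natAdd m (0 : Fin 1) := rfl
    rw [h1, Fin.append_right, ← h1]
    change GB.loopU (chiI (th (m + 1) ((snocPerm i σ (Fin.last m)).1 + 1)) t) = _
    rw [snocPerm_last]
  · have h1 : k.castSucc = Fin.castAdd 1 k := rfl
    rw [h1, Fin.append_left, ← h1]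
    change GB.loopU (chiI (th (m + 1) ((snocPerm i σ k.castSucc).1 + 1)) t) =
      GB.loopU (chiI ((th m ((σ k).1 + 1)).comp (sg m i)) t)
    rw [th_sg _ (by omega), snocPerm_castSucc]
    congr 4
    by_cases h : (σ k).1 < i.1
    · rw [if_pos h, Fin.succAbove_of_castSucc_lt _ _ (by rw [Fin.lt_def]; exact h)]
      rfl
    · rw [if_neg h, Fin.succAbove_of_le_castSucc _ _ (by rw [Fin.le_def]; exact not_lt.1 h)]
      rfl

theorem DstN_one_apply {X : SS} (w : Cc (X.prod (SN 1))) {p : ℕ} (x : X.obj p) :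
    DstN 1 w p x = ∑ i : Fin (p + 1),
      w (p + 1) ((X.map (sg p i) x, fun _ => th (p + 1) (i.1 + 1)) : (X.prod (SN 1)).obj (p + 1)) := by
  have h : DstN 1 w p x = ∑ i ∈ range (p + 1), w (p + 1) ((X.map (sg p i) x,
      (Fin.cons (thD (p + 1) (i + 1)) (fun j : Fin 0 => j.elim0) : Fin 1 → Op (p + 1) 1)) :
        (X.prod (SN 1)).obj (p + 1)) := by
    change Dst (Cc.pull (consM X 0) w) p ((nilM X).app x) = _
    rw [Dst_apply]
    refine sum_congr rfl fun i _ => ?_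
    change w (p + 1) _ = w (p + 1) _
    congr 1
    refine Prod.ext rfl ?_
    funext j
    fin_cases j
    rfl
  rw [h, sum_range]
  refine sum_congr rfl fun i _ => ?_
  congr 1
  refine Prod.ext rfl ?_
  funext j
  fin_cases j
  rfl

/-- **the number of a cocycle of the sphere after integration over the last coordinate** -/
theorem number_snoc (m : ℕ) (z : Cc (sing (Sph (m + 1)))) :
    ∑ π : Equiv.Perm (Fin (m + 1)), z (m + 1) ((cx (m + 1)).app (permT (m + 1) π)) =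
      ∑ σ : Equiv.Perm (Fin m), DstN 1 (Cc.pull (mu m 1) z) m ((cx m).app (permT m σ)) := by
  rw [sum_perm_snoc]
  refine sum_congr rfl fun σ _ => ?_
  rw [DstN_one_apply]
  refine sum_congr rfl fun i _ => ?_
  rw [cx_snoc]
  rfl

end Number

/-! ### the quotient map is injective in the top degree -/

theorem mu_bs {m p : ℕ} {z : ((sing (Sph m)).prod (SN 1)).obj p} (h : (bs m).mem z.1) :
    (bs (m + 1)).mem ((mu m 1).app z) := by
  intro t
  exact (congrArg (fun x => join2 x (cxC z.2 t)) (h t)).trans (join2_infty_left _)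

/-- the quotient map `Sᵐ × (Δ¹, ∂Δ¹) → (S^(m+1), ∞)` is injective in the top degree -/
theorem mu_inj {m : ℕ} (hm : 0 < m) {z : (Cc.rel (bs (m + 1))).C}
    (hz : Cc.IsDeg (m + 1) (Cc.val z)) (hd : (Cc.rel (bs (m + 1))).d z = 0)
    (h : (Cc.rel (ends (sing (Sph m)) 1)).Coh ((gMu m 1).f z) 0) :
    (Cc.rel (bs (m + 1))).Coh z 0 := by
  have hdz : Cc.d (Cc.val z) = 0 := congrArg Cc.val hd
  obtain ⟨w, hw⟩ := h
  rw [add_zero] at hw
  have hw' : Cc.pull (mu m 1) (Cc.val z) = Cc.d (Cc.val w) := congrArg Cc.val hw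
  set v := DstN 1 (Cc.pull (mu m 1) (Cc.val z)) with hv
  have h1 : Cc.d (DstN 1 (Cc.val w)) = v := by
    rw [hv, hw', DstN_d (Cc.vn_val w)]
  have h2 : Cc.IsDeg m v := isDeg_DstN (hz.pull _)
  have h3 : Vn (bs m) v := by
    intro p x hx
    rw [hv, DstN_one_apply]
    refine sum_eq_zero fun i _ => ?_
    exact Cc.vn_val z _ _ (mu_bs ((bs m).map_mem _ hx))
  have h4 := (cube_cc hm h2 (by rw [← h1, d_d]) h3).1 ⟨_, h1⟩
  rw [hv, ← number_snoc] at h4
  obtain ⟨a, ha⟩ := (cube_cc (Nat.succ_pos m) hz hdz (Cc.vn_val z)).2 h4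
  exact SphCc.rel_coh_of_coh hz (coh_of_d ha.symm)

/-! ### vanishing and uniqueness on `X × (Δ¹, ∂Δ¹)` -/

theorem rel_null_of_Dst {X : SS} {z : (Cc.rel (ends X 1)).C} {a : Cc X}
    (hd : (Cc.rel (ends X 1)).d z = 0) (ha : DstN 1 (Cc.val z) = Cc.d a) :
    (Cc.rel (ends X 1)).Coh z 0 := by
  obtain ⟨w, hw, hdw⟩ := DstN_exact 1 (Cc.vn_val z) (congrArg Cc.val hd) ha
  exact rel_coh_of_d hw hdw.symm

theorem d_Dst {X : SS} {z : (Cc.rel (ends X 1)).C} (hd : (Cc.rel (ends X 1)).d z = 0) :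
    Cc.d (DstN 1 (Cc.val z)) = 0 := by
  rw [← DstN_d (Cc.vn_val z)]
  have : Cc.d (Cc.val z) = 0 := congrArg Cc.val hd
  rw [this, DstN_zero]

theorem rel_van_succ {X : SS} {k : ℕ} (h : (Cc.gr X).Van k) :
    (Cc.relGr (ends X 1)).Van (k + 1) := by
  intro z hz hdz
  obtain ⟨a, ha⟩ := exists_of_coh (h (DstN 1 (Cc.val z)) (isDeg_DstN (n := 1) hz) (d_Dst hdz))
  exact rel_null_of_Dst hdz ha

/-- the suspension of a cochain -/
def s1 {X : SS} (u : (Cc.cupC X).C) : (Cc.rel (ends X 1)).C :=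
  Cc.mkRel (ends X 1) (TJ.sn 1 (u : Cc X)) (Vn_sn 1 u)

theorem val_s1 {X : SS} (u : (Cc.cupC X).C) : Cc.val (s1 u) = TJ.sn 1 (u : Cc X) := rfl

theorem s1_add {X : SS} (u v : (Cc.cupC X).C) : s1 (u + v) = s1 u + s1 v :=
  Cc.rel_ext (sn_add 1 u v)

theorem s1_zero {X : SS} : s1 (0 : (Cc.cupC X).C) = 0 := Cc.rel_ext (sn_zero' 1)

theorem d_s1 {X : SS} (u : (Cc.cupC X).C) :
    (Cc.rel (ends X 1)).d (s1 u) = s1 ((Cc.cupC X).d u) := Cc.rel_ext (d_sn 1 u)

theorem cup_s1 {X : SS} (j : ℕ) (u v : (Cc.cupC X).C) :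
    (Cc.rel (ends X 1)).cup (j + 1) (s1 u) (s1 v) = s1 ((Cc.cupC X).cup j u v) :=
  Cc.rel_ext (cup_sn 1 j u v)

theorem coh_s1 {X : SS} {u : (Cc.cupC X).C} (h : (Cc.cupC X).Coh u 0) :
    (Cc.rel (ends X 1)).Coh (s1 u) 0 := by
  obtain ⟨w, hw⟩ := h
  refine ⟨s1 w, ?_⟩
  rw [add_zero] at hw
  rw [add_zero, d_s1, hw]

theorem coh_of_s1 {X : SS} {u : (Cc.cupC X).C} (h : (Cc.rel (ends X 1)).Coh (s1 u) 0) :
    (Cc.cupC X).Coh u 0 := by
  obtain ⟨w, hw⟩ := h
  rw [add_zero] at hw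
  have h1 : TJ.sn 1 (u : Cc X) = Cc.d (Cc.val w) := congrArg Cc.val hw
  refine coh_of_d (w := DstN 1 (Cc.val w)) ?_
  rw [← DstN_d (Cc.vn_val w), ← h1]
  exact (DstN_sn 1 (u : Cc X)).symm

/-! ### the strict suspension of a functional square -/

section

variable {X Y : SS} (f : SS.Map X Y)

/-- the cochains of `f × 1` -/
def gT : CupC.Hom (Cc.rel (ends Y 1)) (Cc.rel (ends X 1)) :=
  Cc.relHom (timesN f 1) (ends X 1) (ends Y 1) fun _ h => timesN_ends f 1 h

theorem gT_s1 (u : (Cc.cupC Y).C) : (gT f).f (s1 u) = s1 ((Cc.pullHom f).f u) :=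
  Cc.rel_ext (pull_sn 1 f u)

/-- **the suspension of the data of a functional square** -/
def susp {i : ℕ} (D : CupC.FSqD (Cc.pullHom f) i) : CupC.FSqD (gT f) (i + 1) where
  b := s1 D.b
  e := s1 D.e
  c := s1 D.c
  d_b := by rw [d_s1, D.d_b, s1_zero]
  d_e := by rw [d_s1, gT_s1, D.d_e]
  d_c := by rw [cup_s1, d_s1, D.d_c]

theorem susp_val {i : ℕ} (D : CupC.FSqD (Cc.pullHom f) i) : (susp f D).val = s1 D.val := by
  change (Cc.rel (ends X 1)).cup (i + 1) (s1 D.e) (s1 D.e) +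
    (Cc.rel (ends X 1)).cup (i + 1 + 1) (s1 D.e) ((Cc.rel (ends X 1)).d (s1 D.e)) +
      (gT f).f (s1 D.c) = s1 ((Cc.cupC X).cup i D.e D.e + (Cc.cupC X).cup (i + 1) D.e
        ((Cc.cupC X).d D.e) + (Cc.pullHom f).f D.c)
  rw [d_s1, cup_s1, cup_s1, gT_s1, s1_add, s1_add]

end

/-! ### desuspension -/

section Sphere

variable {m n i : ℕ} (f : C(Sph m, Sph (n + 1))) (F : C(Sph (m + 1), Sph (n + 2)))

theorem unambT (hi : 2 * n + 1 = m + i) (hm : n + 1 < m) :
    CupC.Unamb (gT (singMap f)) (Cc.relGr _) (Cc.relGr _) (n + 1) (m + 1) where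
  van := rel_van_succ (SphCc.van (by omega) (by omega))
  deg x hx := Cc.IsDeg.pull (u := Cc.val x) hx _
  zero y hy hdy := (rel_van_succ (SphCc.van (by omega) (by omega)) y hy hdy).map (gT (singMap f))
  uniq b hb b' hb' hd hd' h h' := by
    have h1 : ∀ z : (Cc.rel (ends (sing (Sph (n + 1))) 1)).C, (Cc.rel (ends _ 1)).d z = 0 →
        ¬ (Cc.rel (ends _ 1)).Coh z 0 → ¬ (Cc.cupC (sing (Sph (n + 1)))).Coh (DstN 1 (Cc.val z)) 0 := by
      intro z hz hn hc
      obtain ⟨a, ha⟩ := exists_of_coh hc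
      exact hn (rel_null_of_Dst hz ha)
    have h2 := coh_of_ne (Nat.succ_pos n) (isDeg_DstN (n := 1) hb) (d_Dst hd)
      (isDeg_DstN (n := 1) hb') (d_Dst hd') (h1 b hd h) (h1 b' hd' h')
    obtain ⟨a, ha⟩ := exists_of_coh (CupC.coh_iff_add.1 h2)
    refine CupC.coh_iff_add.2 (rel_null_of_Dst (z := b + b') (a := a) ?_ ?_)
    · rw [map_add, hd, hd', add_zero]
    · rw [← ha]
      exact DstN_add 1 (Cc.val b) (Cc.val b')

variable {F} in
theorem susp_infty (h0 : f ∞ = ∞)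
    (hF : ∀ (x : Sph m) (y : Sph 1), F (join2 x y) = join2 (f x) y) : F ∞ = ∞ := by
  have h := hF ∞ ∞
  rwa [h0, join2_infty_left, join2_infty_left] at h

theorem comm_mu (hF : ∀ (x : Sph m) (y : Sph 1), F (join2 x y) = join2 (f x) y) :
    (mu (n + 1) 1).comp (timesN (singMap f) 1) = (singMap F).comp (mu m 1) := by
  apply SS.Map.ext
  intro p z
  apply ContinuousMap.ext
  intro t
  exact (hF (toC z.1 t) (cxC z.2 t)).symm

/-- **Desuspension.** If the suspension `F` of `f : S^m → S^(n+1)`, `n + 1 < m`, has Hopf invariant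
one, then so has `f`. -/
theorem hopfOne_of_susp (hi : 2 * n + 1 = m + i) (hm : n + 1 < m) (h0 : f ∞ = ∞)
    (hF : ∀ (x : Sph m) (y : Sph 1), F (join2 x y) = join2 (f x) y) (h : HopfOne F) :
    HopfOne f := by
  have hF0 : F ∞ = ∞ := susp_infty f h0 hF
  have hi' : 2 * (n + 1) + 1 = (m + 1) + (i + 1) := by omega
  have hm' : n + 1 + 1 < m + 1 := by omega
  obtain ⟨D', hD', hb', hv'⟩ := (hopfOne_iff_exists hi' hm' hF0).1 h
  -- the data of the suspension, pulled back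
  let E' : CupC.FSqD (gT (singMap f)) (i + 1) := D'.map (gMu (n + 1) 1) (gMu m 1) (fun x =>
    Cc.rel_ext (congrArg (fun g => Cc.pull g (Cc.val x)) (comm_mu f F hF)))
  have hE'v : E'.val = (gMu m 1).f D'.val := D'.val_map _ _ _
  have hE' : E'.Homog (Cc.relGr _) (Cc.relGr _) (n + 1) (m + 1) :=
    ⟨Cc.IsDeg.pull (u := Cc.val D'.b) hD'.b_mem _, Cc.IsDeg.pull (u := Cc.val D'.e) hD'.e_mem _,
      Cc.IsDeg.pull (u := Cc.val D'.c) hD'.c_mem _, hi'⟩
  have hu := unambT f hi hm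
  have hE'n : ¬ (Cc.rel (ends (sing (Sph m)) 1)).Coh E'.val 0 := by
    intro hc
    rw [hE'v] at hc
    refine hv' (mu_inj (by omega) ?_ D'.d_val hc)
    exact val_isDeg hD'
  have hE'b : ¬ (Cc.rel (ends (sing (Sph (n + 1))) 1)).Coh E'.b 0 := fun hc =>
    hE'n (CupC.FSqD.val_null hu hE' hc)
  -- data of `f`
  obtain ⟨b, hb, hdb, h1⟩ := SphCc.rel_exists_fund (Nat.succ_pos n)
  obtain ⟨D₀, rfl, hD₀⟩ := exists_dataR h0 hi hm hb hdb
  have hnb : ¬ (Cc.rel (bs (n + 1))).Coh D₀.b 0 := by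
    rw [SphCc.rel_coh_iff (Nat.succ_pos n) hb hdb, h1]
    decide
  have hnb' : ¬ (Cc.cupC (sing (Sph (n + 1)))).Coh (absD h0 D₀).b 0 := fun hc =>
    hnb (SphCc.rel_coh_of_coh hb hc)
  have hD := absD_homog hD₀
  have hS : (susp (singMap f) (absD h0 D₀)).Homog (Cc.relGr _) (Cc.relGr _) (n + 1) (m + 1) :=
    ⟨isDeg_sn 1 hD.b_mem, isDeg_sn 1 hD.e_mem, isDeg_sn 1 hD.c_mem, hi'⟩
  have hSb : ¬ (Cc.rel (ends (sing (Sph (n + 1))) 1)).Coh (susp (singMap f) (absD h0 D₀)).b 0 :=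
    fun hc => hnb' (coh_of_s1 hc)
  have hcoh := CupC.FSqD.coh_of_van hE' hS hu.van hu.deg hu.zero
    (hu.uniq _ hE'.b_mem _ hS.b_mem E'.d_b (susp (singMap f) (absD h0 D₀)).d_b hE'b hSb)
  rw [susp_val] at hcoh
  rw [hopfOne_iff f hi]
  refine ⟨absD h0 D₀, hD, hnb', fun hc => hE'n (hcoh.trans (coh_s1 hc))⟩

end Sphere

end Vale.Agent.P263.AD.Su
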