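import Vale.Agent.P263.AD.Seq
import Vale.Agent.P251.M.Strict
import Vale.Agent.P251.Q.BlockIsom

/-!
# P263, part AD: comparison of the Thom classes of two orientations

For orientations `o o'` of a multiplicative theory and a bundle `W` over a compact base `B` the ratio
`rat o o' W hW : E.U B` satisfies `o'.phi W hW 1 = o.phi W hW (rat ..)`; it is natural, multiplicative
for direct sums, and over projective spaces the ratio of the tautological bundle is
`∑ c_i z^i` where `z' = ∑ c_i z^(i+1)`.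
-/

set_option linter.unusedSectionVars false
set_option linter.style.haveILetI false

open CategoryTheory MonoidalCategory Limits Matrix Topology Finset OnePoint
open Vale.Agent.P251.G Vale.Agent.P251.G.LC Vale.Agent.P251.G.Bun
open Vale.Agent.P251.Q Vale.Agent.P251.Q.MultTheory Vale.Agent.P251.M

universe v

noncomputable section

namespace Vale.Agent.P263.AD

variable {E : MultTheory.{v}} (o o' : Orientation E)
variable {B B' : LC} [CompactSpace B] [CompactSpace B'] {ι κ : Type} [Fintype ι] [Fintype κ]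
  {n m : ℕ}

section rat

variable [E.Good B] [E.Good B'] (W : Bun B ι) [E.Good W.tot] (hW : W.IsRank n)

theorem exists_rat : ∃ r : E.U B, o.phi W hW r = o'.phi W hW (E.oneU B) :=
  (phi_bijective o W hW).2 _

/-- The ratio of the Thom classes of two orientations. -/
def rat : E.U B := (exists_rat o o' W hW).choose

theorem phi_rat : o.phi W hW (rat o o' W hW) = o'.phi W hW (E.oneU B) :=
  (exists_rat o o' W hW).choose_spec

theorem rat_unique {r : E.U B} (h : o.phi W hW r = o'.phi W hW (E.oneU B)) :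
    rat o o' W hW = r :=
  (phi_bijective o W hW).1 ((phi_rat o o' W hW).trans h.symm)

/-- The Thom maps of two orientations over a space `Z` over `B`. -/
theorem phi_pull_rat {Z : LC} [E.Good Z] (f : C(Z, B)) [E.Good (W.pullback f).tot]
    (hW' : (W.pullback f).IsRank n) (u : E.U Z) :
    o'.phi (W.pullback f) hW' u = o.phi (W.pullback f) hW' (E.act f (rat o o' W hW) u) := by
  have h0 : o'.thom W hW = E.act (tcb W) (rat o o' W hW) (o.thom W hW) :=
    (phi_rat o o' W hW).symm.trans (phi_eq_act_thom o W hW _)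
  rw [phi_act, phi_pullback o' f W hW hW', phi_pullback o f W hW hW', h0, ← act_cross_left]
  refine map_act _ _ _ ?_ _ _
  intro p q hpq
  have h1 : ((W.mkE (f (base p)) (vec p) (P_vec p), base p) : W.E × Z) = q :=
    OnePoint.coe_injective hpq
  rw [← h1]
  rfl

theorem phi_rat_mul (u : E.U B) : o'.phi W hW u = o.phi W hW (u * rat o o' W hW) := by
  have h0 : o'.thom W hW = E.act (tcb W) (rat o o' W hW) (o.thom W hW) :=
    (phi_rat o o' W hW).symm.trans (phi_eq_act_thom o W hW _)
  rw [phi_eq_act_thom o' W hW, h0, phi_eq_act_thom o W hW, ← MultTheory.act_mul]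

theorem rat_isom {V : Bun B ι} {V' : Bun B κ} [E.Good V.tot] [E.Good V'.tot]
    (φ : V.Isom V') (hV : V.IsRank n) (hV' : V'.IsRank n) :
    rat o o' V hV = rat o o' V' hV' := by
  refine rat_unique o o' V hV ?_
  rw [phi_isom o φ hV hV', phi_isom o' φ hV hV', phi_rat]

theorem rat_sum (V : Bun B ι) (W : Bun B κ) [E.Good V.tot] [E.Good W.tot]
    [E.Good (V.sum W).tot] (hV : V.IsRank n) (hW : W.IsRank m) {p : ℕ} (h : n + m = p) :
    rat o o' (V.sum W) (isRank_sum hV hW h) = rat o o' V hV * rat o o' W hW := by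
  haveI : E.Good (W.pullback (⟨base, continuous_base⟩ : C(V.E, B))).tot :=
    MultTheory.Good.of_iso E (sumIso V W)
  refine rat_unique o o' _ _ ?_
  rw [phi_sum o V W hV hW h, phi_sum o' V W hV hW h]
  congr 1
  rw [← phi_rat o o' V hV,
    phi_pull_rat o o' W hW (Z := V.tot) (⟨base, continuous_base⟩ : C(V.E, B))
      (isRank_pullback_base hW)]
  congr 1
  have h1 := phi_act o (ContinuousMap.id B) V hV (rat o o' W hW) (rat o o' V hV)
  rw [mul_comm]
  exact h1

/-- naturality for isometric bundle maps -/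
theorem rat_isoMap [DecidableEq κ] {W' : Bun B' κ} {W : Bun B ι} [E.Good W'.tot] [E.Good W.tot]
    (φ : IsoMap W' W) (hW' : W'.IsRank n) (hW : W.IsRank n) :
    rat o o' W' hW' = E.map (cmap φ.f) (rat o o' W hW) := by
  refine rat_unique o o' _ _ ?_
  have h1 : ∀ (o : Orientation E) (u : E.U B),
      o.phi W' hW' (E.map (cmap φ.f) u) = E.map φ.hom (o.phi W hW u) := by
    intro o u
    rw [phi_eq_act_thom, phi_eq_act_thom, ← thomCl_eq_thom, ← thomCl_eq_thom,
      ← thomCl_isoMap o φ hW' hW, act_apply, act_apply, cross_map, ← MultTheory.map_comp,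
      ← MultTheory.map_comp, isoMap_graph]
  rw [h1, phi_rat, ← h1]
  congr 1
  rw [oneU, oneU, ← MultTheory.map_comp]
  exact congrArg (fun k => E.map k _) (hom_ext fun _ => rfl)

/-- the Euler classes -/
theorem e_eq_rat_mul : o'.e W hW = rat o o' W hW * o.e W hW := by
  have h1 : o'.e W hW = o.euler W hW (rat o o' W hW) := by
    rw [euler_apply, phi_rat, ← euler_apply]
    rfl
  rw [h1, euler_eq_mul, mul_comm]

theorem rat_rank_zero (h0 : W.IsRank 0) : rat o o' W h0 = 1 := by
  have h1 := e_eq_rat_mul o o' W h0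
  rw [e_rank_zero o' W h0, e_rank_zero o W h0, mul_one] at h1
  exact h1.symm

theorem rat_congr_rank {V : Bun B ι} [E.Good V.tot] {n n' : ℕ} (h : n = n') (hV : V.IsRank n)
    (hV' : V.IsRank n') : rat o o' V hV = rat o o' V hV' := by
  subst h; rfl

end rat

/-- naturality for continuous maps -/
theorem rat_pullback [E.Good B] [E.Good B'] (W : Bun B ι) [E.Good W.tot] (hW : W.IsRank n)
    (f : C(B', B)) [E.Good (W.pullback f).tot] (hW' : (W.pullback f).IsRank n) :
    rat o o' (W.pullback f) hW' = E.map (cmap f) (rat o o' W hW) := by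
  refine rat_unique o o' _ _ ?_
  rw [phi_pull_rat o o' W hW f hW', act_eq_mul]
  congr 1
  exact (mul_one _).symm

section sigma

theorem rat_sigma_fin [hB : GoodBase E B] {k : ℕ} : ∀ {κ : Fin k → Type} [∀ i, Fintype (κ i)]
    (V : ∀ i, Bun B (κ i)) (r : Fin k → ℕ) (hV : ∀ i, (V i).IsRank (r i))
    [E.Good (Bun.sigma V).tot] [∀ i, E.Good (V i).tot],
    rat o o' (Bun.sigma V) (IsRank.sigma hV) = ∏ i, rat o o' (V i) (hV i) := by
  induction k with
  | zero =>
    intro κ _ V r hV _ _
    have h0 : (∑ i : Fin 0, r i) = 0 := by simp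
    have h1 : (Bun.sigma V).IsRank 0 := h0.subst (motive := fun n => (Bun.sigma V).IsRank n)
      (IsRank.sigma hV)
    rw [rat_congr_rank o o' h0 (IsRank.sigma hV) h1, rat_rank_zero]
    exact (Finset.prod_eq_one fun i _ => i.elim0).symm
  | succ k ih =>
    intro κ hκ V r hV i1 i2
    have hA : (Bun.sigma fun i : Fin k => V i.castSucc).IsRank (∑ i : Fin k, r i.castSucc) :=
      IsRank.sigma fun i : Fin k => hV i.castSucc
    haveI h2 := hB.tot _ hA
    haveI h3 := hB.tot _ (hV (Fin.last k))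
    have hs : (∑ i : Fin k, r i.castSucc) + r (Fin.last k) = ∑ i, r i :=
      (Fin.sum_univ_castSucc r).symm
    have hS := isRank_sum hA (hV (Fin.last k)) hs
    haveI h4 := hB.tot _ hS
    have φ : (Bun.sigma V).Isom ((Bun.sigma fun i : Fin k => V i.castSucc).sum
        (V (Fin.last k))) := by
      rw [← Bun.sigma_reindex]
      exact isomReindex _ _
    have e1 := rat_isom o o' φ (IsRank.sigma hV) hS
    have e2 := rat_sum o o' _ _ hA (hV (Fin.last k)) hs
    have e3 := ih (fun i : Fin k => V i.castSucc) (fun i => r i.castSucc)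
      (fun i => hV i.castSucc)
    rw [e1, e2, e3, Fin.prod_univ_castSucc]

/-- The ratio of a finite direct sum. -/
theorem rat_sigma [hB : GoodBase E B] {J : Type} [Fintype J] [DecidableEq J] {κ : J → Type}
    [∀ i, Fintype (κ i)] (V : ∀ i, Bun B (κ i)) (r : J → ℕ) (hV : ∀ i, (V i).IsRank (r i))
    [E.Good (Bun.sigma V).tot] [∀ i, E.Good (V i).tot] :
    rat o o' (Bun.sigma V) (IsRank.sigma hV) = ∏ i, rat o o' (V i) (hV i) := by
  let f : J ≃ Fin (Fintype.card J) := Fintype.equivFin J
  haveI h2 := hB.tot _ (IsRank.sigma fun i => hV (f.symm i))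
  have hs : (∑ i, r (f.symm i)) = ∑ i, r i := Equiv.sum_comp f.symm r
  let g : (Σ j, κ j) ≃ (Σ i, κ (f.symm i)) := (Equiv.sigmaCongrLeft f.symm).symm
  have φ : (Bun.sigma V).Isom (Bun.sigma fun i => V (f.symm i)) := by
    refine (isomReindex (Bun.sigma V) g).trans (Bun.Isom.ofEq ?_)
    intro x
    ext ⟨a, a'⟩ ⟨b, b'⟩
    rw [reindex_P, Matrix.submatrix_apply, sigma_P, sigma_P]
    have hg : ∀ (a : Fin (Fintype.card J)) (a' : κ (f.symm a)),
        g.symm ⟨a, a'⟩ = ⟨f.symm a, a'⟩ := fun a a' => rfl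
    rw [hg, hg]
    by_cases h : a = b
    · subst h
      rw [Matrix.blockDiagonal'_apply_eq, Matrix.blockDiagonal'_apply_eq]
    · rw [Matrix.blockDiagonal'_apply_ne _ _ _ h, Matrix.blockDiagonal'_apply_ne]
      exact fun h' => h (f.symm.injective h')
  have h3 : (Bun.sigma fun i => V (f.symm i)).IsRank (∑ i, r i) :=
    hs ▸ IsRank.sigma fun i => hV (f.symm i)
  rw [rat_isom o o' φ (IsRank.sigma hV) h3, rat_congr_rank o o' hs.symm h3
    (IsRank.sigma fun i => hV (f.symm i)), rat_sigma_fin,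
    ← Equiv.prod_comp f.symm fun i => rat o o' (V i) (hV i)]

/-- The ratio of a block sum. -/
theorem rat_blockSum [hB : GoodBase E B] {J : Type} [Fintype J] [DecidableEq J]
    (V : Bun B ι) (hV : V.IsRank n) [E.Good V.tot]
    {N : ℕ} (h2 : N = ∑ _ : J, n) (hN : (Bun.blockSum fun _ : J => V).IsRank N)
    [E.Good (Bun.blockSum fun _ : J => V).tot] :
    rat o o' (Bun.blockSum fun _ : J => V) hN = rat o o' V hV ^ Fintype.card J := by
  have h1 : (Bun.sigma fun _ : J => V).IsRank (∑ _ : J, n) := IsRank.sigma fun _ => hV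
  have h0 : (Bun.blockSum fun _ : J => V).IsRank (∑ _ : J, n) := Bun.blockSum_isRank fun _ => hV
  haveI := hB.tot _ h1
  rw [rat_congr_rank o o' h2 hN h0, rat_isom o o' (Bun.Isom.blockSumSigma fun _ : J => V) h0 h1,
    rat_sigma o o' (fun _ : J => V) (fun _ => n) (fun _ => hV), Finset.prod_const,
    Finset.card_univ]

end sigma

/-! ### The linear classes -/

theorem lin_fin_eq (n : ℕ) : o.lin (Fin n) = o'.lin (Fin n) := by
  induction n with
  | zero =>
    have h : ∀ o : Orientation E, o.lin (Fin 0) = E.map (cpowEmpty (Fin 0)).inv E.one := by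
      intro o
      haveI := o.goodTh
      rw [← lin_empty o (I := Fin 0), map_inv_hom]
    rw [h, h]
  | succ n ih =>
    have h : ∀ o : Orientation E, o.lin (Fin (n + 1)) =
        E.map (cpowIso (finSumUnit n).symm).hom
          (E.map (Th.csum (Fin n) Unit).inv (E.cross (o.lin (Fin n))
            (E.map cpowUnit.hom E.sg))) := by
      intro o
      haveI := o.goodTh
      rw [← lin_unit o, map_hom_inv, ← lin_sum, map_inv_hom, lin_reindex]
    rw [h, h, ih]

theorem lin_eq (I : Type) [Fintype I] [DecidableEq I] : o.lin I = o'.lin I := by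
  rw [← lin_reindex o (Fintype.equivFin I), ← lin_reindex o' (Fintype.equivFin I),
    lin_fin_eq o o']

/-! ### Projective spaces -/

section proj

open scoped Matrix

/-- the inclusion of projective spaces -/
abbrev castInc (n : ℕ) : IsoMap (taut 1 (Fin (n + 1))) (taut 1 (Fin (n + 1 + 1))) :=
  IsoMap.ofIsom (injMat (Fin.castSucc : Fin (n + 1) → Fin (n + 1 + 1)))
    (injMat_isom (Fin.castSucc_injective (n + 1)))

theorem mapAlg_castInc_z (n : ℕ) :
    E.mapAlg (X := CP (Fin (n + 1))) (Y := CP (Fin (n + 1 + 1))) (castInc n).f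
      (o.z (Fin (n + 1 + 1))) = o.z (Fin (n + 1)) :=
  z_map o (injMat (Fin.castSucc : Fin (n + 1) → Fin (n + 1 + 1)))
    (injMat_isom (Fin.castSucc_injective (n + 1)))

/-- **The ratio of the tautological bundle.** -/
theorem rat_taut (n : ℕ) [E.Good (Bun.tot (X := (CP (Fin (n + 1)) : LC)) (taut 1 (Fin (n + 1))))] :
    rat (B := CP (Fin (n + 1))) o o' (taut 1 (Fin (n + 1))) (taut_isRank 1 _) =
      ∑ i : Fin (n + 1), (CPSys.Coord.cmp (coordO o) (coordO o') (z_one_eq o' o)).c i •
        o.z (Fin (n + 1)) ^ (i : ℕ) := by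
  have hG2 : GoodBase E (CP (Fin (n + 1 + 1))) := inferInstance
  haveI i1 : E.Good (Bun.tot (X := (CP (Fin (n + 1 + 1)) : LC)) (taut 1 (Fin (n + 1 + 1)))) :=
    hG2.tot (B := CP (Fin (n + 1 + 1))) _ (taut_isRank 1 _)
  have h1 := e_eq_rat_mul (B := CP (Fin (n + 1 + 1))) o o' (taut 1 (Fin (n + 1 + 1)))
    (taut_isRank 1 _)
  have h2 := z_eq_sum_cmp o o' (z_one_eq o' o) (n + 1)
  rw [e_taut_z, e_taut_z, h2] at h1
  have h3 : o.z (Fin (n + 1 + 1)) * (rat (B := CP (Fin (n + 1 + 1))) o o'
      (taut 1 (Fin (n + 1 + 1))) (taut_isRank 1 _) - ∑ i : Fin (n + 1),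
        (CPSys.Coord.cmp (coordO o) (coordO o') (z_one_eq o' o)).c i •
          o.z (Fin (n + 1 + 1)) ^ (i : ℕ)) = 0 := by
    rw [mul_sub, mul_comm, ← h1, Finset.mul_sum, sub_eq_zero]
    refine Finset.sum_congr rfl fun i _ => ?_
    rw [pow_succ', mul_smul_right]
  have hz : o.z (Fin (n + 1 + 1)) ^ (n + 1 + 1) = 0 := z_pow_eq_zero o _ _ (by simp)
  have hz' : o.z (Fin (n + 1)) ^ (n + 1) = 0 := z_pow_eq_zero o _ _ (by simp)
  obtain ⟨a, ha⟩ := eq_smul_of_mul_eq_zero
    (freeOn_z o (n + 1 + 1) (Fin (n + 1 + 1)) (Fintype.card_fin _)) hz h3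
  have h4 := congrArg (E.mapAlg (X := CP (Fin (n + 1))) (Y := CP (Fin (n + 1 + 1)))
    (castInc n).f) ha
  rw [map_sub, _root_.map_smul, map_pow, mapAlg_castInc_z, hz', smul_zero, sub_eq_zero,
    map_sum] at h4
  have h5 := rat_isoMap (B' := CP (Fin (n + 1))) (B := CP (Fin (n + 1 + 1))) o o' (castInc n)
    (taut_isRank 1 _) (taut_isRank 1 _)
  rw [h5]
  refine h4.trans (Finset.sum_congr rfl fun i _ => ?_)
  rw [_root_.map_smul, map_pow, mapAlg_castInc_z]

end proj

end Vale.Agent.P263.AD
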